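import Vale.Agent.P073.H233.Cellp

/-!
# P073, H233 (CONE3-LP): the energy of a drawn cell, final form
-/

open Set MeasureTheory Metric Topology Filter
open scoped ENNReal

namespace Vale.Agent.P073.H233

open Vale.Agent.P073.St (V)
open Vale.Agent.P073.SQ (ev cube)
open Vale.Agent.P073.AB Vale.Agent.P073.AB.P86
open P073.Net (dyc dyo)
open _root_.P073 (ConSphere)
open _root_.P073.H267
open _root_.P073.H950
open _root_.P073.H950.Chart (dya)

variable {v : V} {𝓢 : Finset (Idx × Fin 3)} {p : ℝ} {q : Idx}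

/-- **[CELLP], the energy of a drawn cell.** `q` is a dyadic cube, `𝓢` dyadic squares of any sizes
which tile its boundary, `d` the thick circles on the boundary with their discs. `w` is the weight of
the levels, `A s` bounds the `ℓ¹` oscillation of the levels on the square `s`, and `g s` their local
`ℓ¹` Lipschitz constant. Then the level functions of the caps (with the nesting ranks) have the local
`ℓ¹` Lipschitz constant `K`, with a good integral. -/
theorem cellp (hp : 2 < p) (H : BdT v q 𝓢) {Q S : Set V} (hQ : dyc v q.1 q.2 = Q)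
    (hSq : dyc v q.1 q.2 \ dyo v q.1 q.2 = S) (hS : ConSphere 2 S) {J : Type*} [Fintype J]
    {R : Rings S J} {p0 : V} (hp0 : p0 ∈ S) (d : R.Discs p0) {w : ℝ} (hw : 0 ≤ w)
    {A : Idx × Fin 3 → ℝ} (hA : ∀ s ∈ 𝓢, 0 ≤ A s)
    (hosc : ∀ s ∈ 𝓢, ∀ x ∈ squ v s, ∀ y ∈ squ v s,
      ∑ c, w * |(d.ncircles hS).s c x - (d.ncircles hS).s c y| ≤ A s)
    {g : Idx × Fin 3 → V → ℝ}
    (hg : FaceB v 𝓢 (fun θ' θ => ∑ c, w * |(d.ncircles hS).s c θ' - (d.ncircles hS).s c θ|) g) :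
    ∃ K : V → ℝ, UpperSemicontinuous K ∧ (∀ z, 0 ≤ K z) ∧
      (∀ z ∈ Q, ∀ᶠ y in 𝓝[Q] z, ∑ c, w * |((dya v q).cast hQ hSq).lev (d.ncircles hS) c y -
        ((dya v q).cast hQ hSq).lev (d.ncircles hS) c z| ≤ K z * dist y z) ∧
      ∫⁻ z in Q, ENNReal.ofReal (K z ^ p) ≤ ENNReal.ofReal (cp p) *
        ((∑ s ∈ 𝓢, ENNReal.ofReal (2 ^ s.1.1 / 2 ^ q.1) * fInt p v s (g s)) +
          ENNReal.ofReal ((1 / 2 ^ q.1) * ZS p 𝓢 A + (1 / 2 ^ q.1 : ℝ) ^ (3 - p) * w ^ p)) := by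
  subst hQ hSq
  have hnm := nm_le_morrey hp H rfl hS hp0 d (ω := fun _ => w) (fun _ => le_rfl) hw hA hosc
  set C : ℝ := 2 * (w * (4 * (d.nm : ℝ) + 1) * (4 * 2 ^ q.1)) with hC
  have hC0 : 0 ≤ C := by positivity
  refine ⟨fun z => 6 * angK v q 𝓢 g z + C, ?_, fun z => ?_, fun z hz => ?_, ?_⟩
  · have hc : Continuous fun x : ℝ => 6 * x + C := by fun_prop
    exact hc.comp_upperSemicontinuous (angK_usc hg) fun a b hab => by
      show 6 * a + C ≤ 6 * b + C
      linarith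
  · have := angK_nonneg (q := q) hg z
    positivity
  · exact cell_local (d.ncircles hS) hw H hg hz
  · refine lintegral_cell_le hp H hg (ZS_nonneg hA) hw hC0 ?_
    rw [hC]
    have h2 : (0:ℝ) < 2 ^ q.1 := by positivity
    have e1 : 96 * mor p * ((1 / 2 ^ q.1 : ℝ) ^ (1 - 2 / p) * ZS p 𝓢 A ^ (1 / p)) / (1 / 2 ^ q.1) +
        72 * w / (1 / 2 ^ q.1) = (8 * 2 ^ q.1) * (4 * (3 * (mor p *
          ((1 / 2 ^ q.1 : ℝ) ^ (1 - 2 / p) * ZS p 𝓢 A ^ (1 / p))) + 2 * w) + w) := by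
      field_simp
      ring
    rw [e1]
    have e2 : 2 * (w * (4 * (d.nm : ℝ) + 1) * (4 * 2 ^ q.1)) =
        (8 * 2 ^ q.1) * (4 * (w * d.nm) + w) := by ring
    rw [e2]
    refine mul_le_mul_of_nonneg_left ?_ (by positivity)
    linarith

/-! ### Oscillation from a local bound along paths -/

/-- **local to global**: a pseudometric `δ` on `[a, b]` which is locally bounded by the variation of a
monotone function `r` -/
theorem delta_le_of_local {δ : ℝ → ℝ → ℝ} {r : ℝ → ℝ} {a b : ℝ} (hab : a ≤ b)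
    (h0 : δ a a ≤ 0) (hsym : ∀ s t, δ s t = δ t s) (htri : ∀ s t u, δ s u ≤ δ s t + δ t u)
    (hr : MonotoneOn r (Icc a b))
    (h : ∀ t ∈ Icc a b, ∀ᶠ t' in 𝓝[Icc a b] t, δ t' t ≤ |r t' - r t|) :
    δ a b ≤ r b - r a := by
  set T : Set ℝ := {t | t ∈ Icc a b ∧ δ a t ≤ r t - r a} with hT
  have haT : a ∈ T := ⟨⟨le_rfl, hab⟩, by simpa using h0⟩
  have hbdd : BddAbove T := ⟨b, fun t ht => ht.1.2⟩
  set c : ℝ := sSup T with hc
  have hcm : c ∈ Icc a b := ⟨le_csSup hbdd haT, csSup_le ⟨a, haT⟩ fun t ht => ht.1.2⟩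
  have habs : ∀ t ∈ Icc a b, ∀ t' ∈ Icc a b, t ≤ t' → |r t' - r t| = r t' - r t :=
    fun t ht t' ht' hl => abs_of_nonneg (sub_nonneg.2 (hr ht ht' hl))
  have hcT : c ∈ T := by
    refine ⟨hcm, ?_⟩
    have h1 := h c hcm
    rw [eventually_nhdsWithin_iff, Metric.eventually_nhds_iff] at h1
    obtain ⟨ε, hε, h2⟩ := h1
    obtain ⟨t, htT, ht⟩ := exists_lt_of_lt_csSup ⟨a, haT⟩ (show c - ε < sSup T by rw [← hc]; linarith)
    have htc : t ≤ c := le_csSup hbdd htT
    have h3 := h2 (show dist t c < ε by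
      rw [Real.dist_eq, abs_sub_comm, abs_of_nonneg (by linarith)]; linarith) htT.1
    rw [abs_sub_comm, habs t htT.1 c hcm htc] at h3
    calc δ a c ≤ δ a t + δ t c := htri _ _ _
      _ ≤ (r t - r a) + (r c - r t) := add_le_add htT.2 h3
      _ = r c - r a := by ring
  by_cases hcb : c = b
  · rw [← hcb]; exact hcT.2
  · exfalso
    have hlt : c < b := lt_of_le_of_ne hcm.2 hcb
    have h1 := h c hcm
    rw [eventually_nhdsWithin_iff, Metric.eventually_nhds_iff] at h1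
    obtain ⟨ε, hε, h2⟩ := h1
    set t : ℝ := min b (c + ε / 2) with ht
    have htc : c < t := lt_min hlt (by linarith)
    have htm : t ∈ Icc a b := ⟨hcm.1.trans htc.le, min_le_left _ _⟩
    have h3 := h2 (show dist t c < ε by
      rw [Real.dist_eq, abs_of_pos (by linarith)]
      have : t ≤ c + ε / 2 := min_le_right _ _
      linarith) htm
    rw [habs c hcm t htm htc.le] at h3
    have htT : t ∈ T := by
      refine ⟨htm, ?_⟩
      calc δ a t ≤ δ a c + δ c t := htri _ _ _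
        _ ≤ (r c - r a) + (r t - r c) := add_le_add hcT.2 (by rw [hsym]; exact h3)
        _ = r t - r a := by ring
    have := le_csSup hbdd htT
    rw [← hc] at this
    linarith

/-- **oscillation along a path** for the `ℓ¹` distance of finitely many functions -/
theorem sum_le_of_path {E J : Type*} (T : Finset J) {w : ℝ} (hw : 0 ≤ w) (s : J → E → ℝ)
    {γ : ℝ → E} {r : ℝ → ℝ} {a b : ℝ} (hab : a ≤ b) (hr : MonotoneOn r (Icc a b))
    (h : ∀ t ∈ Icc a b, ∀ᶠ t' in 𝓝[Icc a b] t,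
      ∑ c ∈ T, w * |s c (γ t') - s c (γ t)| ≤ |r t' - r t|) :
    ∑ c ∈ T, w * |s c (γ a) - s c (γ b)| ≤ r b - r a := by
  refine delta_le_of_local (δ := fun t t' => ∑ c ∈ T, w * |s c (γ t) - s c (γ t')|) hab ?_ ?_ ?_
    hr h
  · simp
  · intro t t'
    simp only [abs_sub_comm]
  · intro t t' t''
    show ∑ c ∈ T, w * |s c (γ t) - s c (γ t'')| ≤
      (∑ c ∈ T, w * |s c (γ t) - s c (γ t')|) + ∑ c ∈ T, w * |s c (γ t') - s c (γ t'')|
    rw [← Finset.sum_add_distrib]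
    refine Finset.sum_le_sum fun c _ => ?_
    rw [← mul_add]
    exact mul_le_mul_of_nonneg_left (abs_sub_le _ _ _) hw

end Vale.Agent.P073.H233
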