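import Vale.Agent.P073.H233.CellpFin

/-!
# P073, H233 (CONE3-LP): the energy of a drawn cell in terms of the edges
-/

open Set MeasureTheory Metric Topology Filter
open scoped ENNReal

namespace Vale.Agent.P073.H233

open Vale.Agent.P073.St (V)
open Vale.Agent.P073.AB Vale.Agent.P073.AB.P86

/-- **Hölder**: `(∑ W) ^ p ≤ (∑ e) ^ (p - 1) ∑ e ^ (1 - p) W ^ p` -/
theorem rpow_sum_le {ι : Type*} (T : Finset ι) {e W : ι → ℝ} {p : ℝ} (hp : 1 ≤ p)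
    (he : ∀ j ∈ T, 0 < e j) (hW : ∀ j ∈ T, 0 ≤ W j) :
    (∑ j ∈ T, W j) ^ p ≤ (∑ j ∈ T, e j) ^ (p - 1) * ∑ j ∈ T, e j ^ (1 - p) * W j ^ p := by
  rcases T.eq_empty_or_nonempty with rfl | hT
  · simp [Real.zero_rpow (by linarith : p ≠ 0)]
  set L : ℝ := ∑ j ∈ T, e j with hL
  have hL0 : 0 < L := Finset.sum_pos he hT
  have h1 := Real.rpow_arith_mean_le_arith_mean_rpow T (fun j => e j / L) (fun j => W j / e j)
    (fun j hj => (div_pos (he j hj) hL0).le)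
    (by rw [← Finset.sum_div, div_self hL0.ne']) (fun j hj => div_nonneg (hW j hj) (he j hj).le) hp
  have e1 : ∑ j ∈ T, e j / L * (W j / e j) = (∑ j ∈ T, W j) / L := by
    rw [Finset.sum_div]
    refine Finset.sum_congr rfl fun j hj => ?_
    have := (he j hj).ne'
    field_simp
  have e2 : ∑ j ∈ T, e j / L * (W j / e j) ^ p = (∑ j ∈ T, e j ^ (1 - p) * W j ^ p) / L := by
    rw [Finset.sum_div]
    refine Finset.sum_congr rfl fun j hj => ?_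
    rw [Real.div_rpow (hW j hj) (he j hj).le, Real.rpow_sub (he j hj), Real.rpow_one]
    have := (he j hj).ne'
    have h3 : e j ^ p ≠ 0 := (Real.rpow_pos_of_pos (he j hj) p).ne'
    field_simp
  rw [e1, e2, Real.div_rpow (Finset.sum_nonneg hW) hL0.le, div_le_iff₀
    (Real.rpow_pos_of_pos hL0 p)] at h1
  refine h1.trans (le_of_eq ?_)
  rw [Real.rpow_sub hL0, Real.rpow_one]
  field_simp

/-- half the side of the square `s` -/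
noncomputable def sg (s : Idx × Fin 3) : ℝ := 1 / 2 / 2 ^ s.1.1

theorem sg_pos (s : Idx × Fin 3) : 0 < sg s := by unfold sg; positivity

/-- one square: the oscillation term -/
theorem osc_term_le {ι : Type*} {s : Idx × Fin 3} (T : Finset ι) {e W : ι → ℝ} {p A c₁ c₂ : ℝ}
    (hp : 2 < p) (he : ∀ j ∈ T, 0 < e j) (hW : ∀ j ∈ T, 0 ≤ W j) (hA0 : 0 ≤ A) (hc₁ : 0 ≤ c₁)
    (hc₂ : 0 ≤ c₂) (hA : A ≤ c₁ * ∑ j ∈ T, W j) (hsum : ∑ j ∈ T, e j ≤ c₂ * sg s) :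
    (1 / 2 ^ s.1.1 : ℝ) ^ (2 - p) * A ^ p ≤
      c₁ ^ p * c₂ ^ (p - 1) * (sg s * ∑ j ∈ T, e j ^ (1 - p) * W j ^ p) := by
  have hp0 : 0 < p := by linarith
  have hs := sg_pos s
  set X : ℝ := ∑ j ∈ T, e j ^ (1 - p) * W j ^ p with hX
  have hX0 : 0 ≤ X := Finset.sum_nonneg fun j hj => mul_nonneg
    (Real.rpow_nonneg (he j hj).le _) (Real.rpow_nonneg (hW j hj) _)
  have h1 : A ^ p ≤ c₁ ^ p * ((c₂ * sg s) ^ (p - 1) * X) := by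
    calc A ^ p ≤ (c₁ * ∑ j ∈ T, W j) ^ p := Real.rpow_le_rpow hA0 hA hp0.le
      _ = c₁ ^ p * (∑ j ∈ T, W j) ^ p := Real.mul_rpow hc₁ (Finset.sum_nonneg hW)
      _ ≤ c₁ ^ p * ((∑ j ∈ T, e j) ^ (p - 1) * X) := by
          refine mul_le_mul_of_nonneg_left (rpow_sum_le T (by linarith) he hW) (by positivity)
      _ ≤ c₁ ^ p * ((c₂ * sg s) ^ (p - 1) * X) := by
          refine mul_le_mul_of_nonneg_left (mul_le_mul_of_nonneg_right ?_ hX0) (by positivity)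
          exact Real.rpow_le_rpow (Finset.sum_nonneg fun j hj => (he j hj).le) hsum (by linarith)
  have h2 : (1 / 2 ^ s.1.1 : ℝ) ^ (2 - p) ≤ sg s ^ (2 - p) := by
    refine Real.rpow_le_rpow_of_nonpos hs ?_ (by linarith)
    unfold sg
    have : (0:ℝ) < 1 / 2 ^ s.1.1 := by positivity
    have e3 : (1:ℝ) / 2 / 2 ^ s.1.1 = 1 / 2 ^ s.1.1 / 2 := by ring
    rw [e3]
    linarith
  calc (1 / 2 ^ s.1.1 : ℝ) ^ (2 - p) * A ^ p
      ≤ sg s ^ (2 - p) * (c₁ ^ p * ((c₂ * sg s) ^ (p - 1) * X)) :=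
        mul_le_mul h2 h1 (by positivity) (by positivity)
    _ = c₁ ^ p * c₂ ^ (p - 1) * (sg s ^ (2 - p) * sg s ^ (p - 1) * X) := by
        rw [Real.mul_rpow hc₂ hs.le]
        ring
    _ = _ := by
        rw [← Real.rpow_add hs]
        have : 2 - p + (p - 1) = 1 := by ring
        rw [this, Real.rpow_one]

/-- **[CELLSUM]** the right side of `cellp` in terms of the edges: on each square `s` finitely many
edges `T s` with lengths `e j` (`∑ e ≤ c₂ σ`) and weights `W j`; `A s ≤ c₁ ∑ W`,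
`fInt (g s) ≤ c₀ σ ^ 2 ∑ e ^ (1 - p) W ^ p`. -/
theorem cell_sum_le {ι : Type*} {p : ℝ} (hp : 2 < p) {v : V} {q : Idx}
    {𝓢 : Finset (Idx × Fin 3)} {A : Idx × Fin 3 → ℝ} {g : Idx × Fin 3 → V → ℝ}
    (T : Idx × Fin 3 → Finset ι) {e W : Idx × Fin 3 → ι → ℝ} {c₀ c₁ c₂ w : ℝ} (hc₀ : 0 ≤ c₀)
    (hc₁ : 0 ≤ c₁) (hc₂ : 0 ≤ c₂) (he : ∀ s ∈ 𝓢, ∀ j ∈ T s, 0 < e s j)
    (hW : ∀ s ∈ 𝓢, ∀ j ∈ T s, 0 ≤ W s j) (hA0 : ∀ s ∈ 𝓢, 0 ≤ A s)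
    (hA : ∀ s ∈ 𝓢, A s ≤ c₁ * ∑ j ∈ T s, W s j) (hsum : ∀ s ∈ 𝓢, ∑ j ∈ T s, e s j ≤ c₂ * sg s)
    (hg : ∀ s ∈ 𝓢, fInt p v s (g s) ≤
      ENNReal.ofReal (c₀ * sg s ^ 2 * ∑ j ∈ T s, e s j ^ (1 - p) * W s j ^ p))
    (hw : (1 / 2 ^ q.1 : ℝ) ^ (3 - p) * w ^ p ≤
      1 / 2 ^ q.1 * ∑ s ∈ 𝓢, sg s * ∑ j ∈ T s, e s j ^ (1 - p) * W s j ^ p) :
    ENNReal.ofReal (cp p) * ((∑ s ∈ 𝓢, ENNReal.ofReal (2 ^ s.1.1 / 2 ^ q.1) * fInt p v s (g s)) +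
      ENNReal.ofReal ((1 / 2 ^ q.1) * ZS p 𝓢 A + (1 / 2 ^ q.1 : ℝ) ^ (3 - p) * w ^ p)) ≤
    ENNReal.ofReal (cp p * (c₀ + c₁ ^ p * c₂ ^ (p - 1) + 1) *
      (1 / 2 ^ q.1 * ∑ s ∈ 𝓢, sg s * ∑ j ∈ T s, e s j ^ (1 - p) * W s j ^ p)) := by
  set X : Idx × Fin 3 → ℝ := fun s => ∑ j ∈ T s, e s j ^ (1 - p) * W s j ^ p with hX
  have hX0 : ∀ s ∈ 𝓢, 0 ≤ X s := fun s hs => Finset.sum_nonneg fun j hj => mul_nonneg
    (Real.rpow_nonneg (he s hs j hj).le _) (Real.rpow_nonneg (hW s hs j hj) _)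
  set Y : ℝ := ∑ s ∈ 𝓢, sg s * X s with hY
  have hY0 : 0 ≤ Y := Finset.sum_nonneg fun s hs => mul_nonneg (sg_pos s).le (hX0 s hs)
  have hR : (0:ℝ) < 1 / 2 ^ q.1 := by positivity
  have hcp := (cp_pos hp).le
  have h1 : ∑ s ∈ 𝓢, ENNReal.ofReal (2 ^ s.1.1 / 2 ^ q.1) * fInt p v s (g s) ≤
      ENNReal.ofReal (c₀ * (1 / 2 ^ q.1 * Y)) := by
    have e1 : ∀ s ∈ 𝓢, ENNReal.ofReal (2 ^ s.1.1 / 2 ^ q.1) * fInt p v s (g s) ≤
        ENNReal.ofReal (c₀ * (1 / 2 ^ q.1 * (sg s * X s))) := by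
      intro s hs
      refine (mul_le_mul_right (hg s hs) _).trans ?_
      rw [← ENNReal.ofReal_mul (by positivity)]
      refine ENNReal.ofReal_le_ofReal ?_
      have e2 : (2:ℝ) ^ s.1.1 / 2 ^ q.1 * (c₀ * sg s ^ 2 * X s) =
          (2 ^ s.1.1 * sg s) * (c₀ * (1 / 2 ^ q.1 * (sg s * X s))) := by ring
      have e3 : (2:ℝ) ^ s.1.1 * sg s = 1 / 2 := by
        unfold sg
        field_simp
      show (2:ℝ) ^ s.1.1 / 2 ^ q.1 * (c₀ * sg s ^ 2 * X s) ≤ _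
      rw [e2, e3]
      have : 0 ≤ c₀ * (1 / 2 ^ q.1 * (sg s * X s)) := by
        have := hX0 s hs
        have := (sg_pos s).le
        positivity
      linarith
    refine (Finset.sum_le_sum e1).trans (le_of_eq ?_)
    rw [← ENNReal.ofReal_sum_of_nonneg]
    · rw [hY, Finset.mul_sum, Finset.mul_sum]
    · intro s hs
      have := hX0 s hs
      have := (sg_pos s).le
      positivity
  have h2 : 1 / 2 ^ q.1 * ZS p 𝓢 A ≤ c₁ ^ p * c₂ ^ (p - 1) * (1 / 2 ^ q.1 * Y) := by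
    have e1 : ZS p 𝓢 A ≤ c₁ ^ p * c₂ ^ (p - 1) * Y := by
      unfold ZS
      rw [hY, Finset.mul_sum]
      exact Finset.sum_le_sum fun s hs => osc_term_le (T s) hp (he s hs) (hW s hs) (hA0 s hs) hc₁
        hc₂ (hA s hs) (hsum s hs)
    calc 1 / 2 ^ q.1 * ZS p 𝓢 A ≤ 1 / 2 ^ q.1 * (c₁ ^ p * c₂ ^ (p - 1) * Y) :=
          mul_le_mul_of_nonneg_left e1 hR.le
      _ = _ := by ring
  have hRY : 0 ≤ 1 / 2 ^ q.1 * Y := by positivity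
  calc ENNReal.ofReal (cp p) * ((∑ s ∈ 𝓢, ENNReal.ofReal (2 ^ s.1.1 / 2 ^ q.1) * fInt p v s (g s)) +
      ENNReal.ofReal ((1 / 2 ^ q.1) * ZS p 𝓢 A + (1 / 2 ^ q.1 : ℝ) ^ (3 - p) * w ^ p))
      ≤ ENNReal.ofReal (cp p) * (ENNReal.ofReal (c₀ * (1 / 2 ^ q.1 * Y)) +
        ENNReal.ofReal (c₁ ^ p * c₂ ^ (p - 1) * (1 / 2 ^ q.1 * Y) + 1 / 2 ^ q.1 * Y)) := by
        gcongr
    _ = _ := by
        rw [← ENNReal.ofReal_add (by positivity) (by positivity), ← ENNReal.ofReal_mul hcp]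
        congr 1
        ring

end Vale.Agent.P073.H233
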