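import Vale.Agent.P073.H233.Tail3A

/-!
# P073, block H233, [K3-TAIL], part B: sets which are mapped into one zone
-/

open Set Metric Topology Filter
open scoped ENNReal

namespace Vale.Agent.P073.H233

open _root_.P073 _root_.P073.Net _root_.P073.PA691 _root_.P073.TM
open Vale.Agent.P073.St (V)
open Vale.Agent.P073.H471
open Vale.Agent.P073.H212 (IsSoft)
open Vale.Agent.P073.H73 (onSeg)

variable {Ω Λ : Set V} {v : V} {K : BoxCx Λ v} {S : Rad K} {W : Wid K S} {B : Boxes W}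
  {X : PSet K} {α : Type*} {R : Fac K} {f : V → V} {F : α → Set V} {N t : α → ℝ}
  {Φ : ConHomeo Λ Λ} {k : α} {x x' : V} {L μ : ℝ} {A : Set V}

/-- `f` maps `A` into one zone, and the alive coordinates satisfy `T j` -/
def InZone (B : Boxes W) (X : PSet K) (f : V → V) (A : Set V) (T : Fin 3 → Prop) : Prop :=
  (∃ s ∈ X.s, (∀ x ∈ A, f x ∈ Zs W s) ∧ ∀ j, j ≠ K.nrm s → T j) ∨
  (∃ i ∈ X.e, (∀ x ∈ A, f x ∈ B.E i) ∧ T (K.dir i)) ∨
  ∃ i ∈ X.w, ∀ x ∈ A, f x ∈ Zv W i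

theorem InZone.mono {T T' : Fin 3 → Prop} {A' : Set V} (hA : A' ⊆ A) (hT : ∀ j, T j → T' j)
    (H : InZone B X f A T) : InZone B X f A' T' := by
  rcases H with ⟨s, hs, h1, h2⟩ | ⟨i, hi, h1, h2⟩ | ⟨i, hi, h1⟩
  · exact Or.inl ⟨s, hs, fun x hx => h1 x (hA hx), fun j hj => hT j (h2 j hj)⟩
  · exact Or.inr (Or.inl ⟨i, hi, fun x hx => h1 x (hA hx), hT _ h2⟩)
  · exact Or.inr (Or.inr ⟨i, hi, fun x hx => h1 x (hA hx)⟩)

/-- **oscillation** -/
theorem InZone.osc (H : Small3 W X R f F N t) (HΦ : IsSoft B μ R Φ) (hμ : 0 ≤ μ) (hμ1 : μ ≤ 1)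
    (hA : A ⊆ F k) (hL : 0 ≤ L)
    (h : InZone B X f A fun j => ∀ x ∈ A, ∀ y ∈ A, |f x j - f y j| ≤ L) :
    ∀ x ∈ A, ∀ y ∈ A, ‖Φ.toFun (f x) - Φ.toFun (f y)‖ ≤ 2 * L + t k := by
  intro x hx y hy
  have hμL : μ * L ≤ L := mul_le_of_le_one_left hL hμ1
  rcases h with ⟨s, hs, h1, h2⟩ | ⟨i, hi, h1, h2⟩ | ⟨i, hi, h1⟩
  · have h3 := norm_s HΦ hμ (h1 x hx) (h1 y hy) (fun j hj => h2 j hj x hx y hy) hL
    have h4 := (H.s3 hs (hA hx) (hA hy) (h1 x hx)).2
    have h5 : 0 ≤ R.ρs s * ‖f x - f y‖ := mul_nonneg (R.s_pos s).le (norm_nonneg _)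
    linarith
  · have h3 := norm_e HΦ hμ (h1 x hx) (h1 y hy) (h2 x hx y hy) hL
    have h4 := (H.e3 hi (hA hx) (hA hy) (B.E_subset i (h1 x hx))).2
    linarith
  · have h3 := norm_v HΦ (h1 x hx) (h1 y hy)
    have h4 := (H.v3 hi (hA hx) (hA hy) (h1 x hx)).2
    have h5 : 0 ≤ R.ρv i * ‖f x - f y‖ := mul_nonneg (R.v_pos i).le (norm_nonneg _)
    linarith

/-- the variation of a curve whose increments are bounded by two functions and a multiple of the
parameter -/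
theorem var_le_of_two {G : ℝ → V} {u₁ u₂ : ℝ → ℝ} {c : ℝ} (hc : 0 ≤ c)
    (h : ∀ s ∈ Icc (0:ℝ) 1, ∀ s' ∈ Icc (0:ℝ) 1,
      ‖G s - G s'‖ ≤ 2 * |u₁ s - u₁ s'| + 2 * |u₂ s - u₂ s'| + c * |s - s'|) :
    eVariationOn G (Icc 0 1) ≤ 2 * eVariationOn u₁ (Icc 0 1) + 2 * eVariationOn u₂ (Icc 0 1) +
      ENNReal.ofReal c := by
  have hid : eVariationOn (fun s : ℝ => s) (Icc (0:ℝ) 1) ≤ ENNReal.ofReal 1 := by
    have h4 := (MonotoneOn.eVariationOn_eq (s := Icc (0:ℝ) 1) (f := fun t : ℝ => t)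
      (fun a _ b _ hab => hab) (left_mem_Icc.2 zero_le_one) (right_mem_Icc.2 zero_le_one)).le
    rw [inter_self] at h4
    simpa using h4
  apply iSup_le
  rintro ⟨n, u, hu, hus⟩
  have e2 : (2 : ℝ≥0∞) = ENNReal.ofReal 2 := by norm_num
  calc ∑ i ∈ Finset.range n, edist (G (u (i + 1))) (G (u i))
      ≤ ∑ i ∈ Finset.range n, (2 * edist (u₁ (u (i + 1))) (u₁ (u i)) +
          2 * edist (u₂ (u (i + 1))) (u₂ (u i)) +
          ENNReal.ofReal c * edist (u (i + 1)) (u i)) := by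
        refine Finset.sum_le_sum fun i _ => ?_
        have h1 := h _ (hus (i + 1)) _ (hus i)
        rw [edist_dist, edist_dist, edist_dist, edist_dist, dist_eq_norm, Real.dist_eq,
          Real.dist_eq, Real.dist_eq, e2, ← ENNReal.ofReal_mul zero_le_two,
          ← ENNReal.ofReal_mul zero_le_two, ← ENNReal.ofReal_mul hc,
          ← ENNReal.ofReal_add (by positivity) (by positivity),
          ← ENNReal.ofReal_add (by positivity) (by positivity)]
        exact ENNReal.ofReal_le_ofReal h1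
    _ = 2 * ∑ i ∈ Finset.range n, edist (u₁ (u (i + 1))) (u₁ (u i)) +
        2 * ∑ i ∈ Finset.range n, edist (u₂ (u (i + 1))) (u₂ (u i)) +
        ENNReal.ofReal c * ∑ i ∈ Finset.range n, edist (u (i + 1)) (u i) := by
        rw [Finset.sum_add_distrib, Finset.sum_add_distrib, Finset.mul_sum, Finset.mul_sum,
          Finset.mul_sum]
    _ ≤ 2 * eVariationOn u₁ (Icc 0 1) + 2 * eVariationOn u₂ (Icc 0 1) +
        ENNReal.ofReal c * eVariationOn (fun s : ℝ => s) (Icc 0 1) := by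
        gcongr
        · exact eVariationOn.sum_le hu hus
        · exact eVariationOn.sum_le hu hus
        · exact eVariationOn.sum_le (f := fun s : ℝ => s) hu hus
    _ ≤ 2 * eVariationOn u₁ (Icc 0 1) + 2 * eVariationOn u₂ (Icc 0 1) +
        ENNReal.ofReal c * 1 := by
        gcongr
        simpa using hid
    _ = _ := by rw [mul_one]

theorem other_two (j : Fin 3) : ∃ a b : Fin 3, a ≠ j ∧ b ≠ j ∧ a ≠ b ∧ ∀ i, i ≠ j → i = a ∨ i = b :=
  by fin_cases j
     · exact ⟨1, 2, by decide, by decide, by decide, by decide⟩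
     · exact ⟨0, 2, by decide, by decide, by decide, by decide⟩
     · exact ⟨0, 1, by decide, by decide, by decide, by decide⟩

/-- **length** of an edge -/
theorem InZone.len (H : Small3 W X R f F N t) (HΦ : IsSoft B μ R Φ) (hμ : 0 ≤ μ) (hμ1 : μ ≤ 1)
    {e : V × V} (hA : segment ℝ e.1 e.2 ⊆ F k) (ht : 0 ≤ t k) {a : ℝ≥0∞}
    (h : InZone B X f (segment ℝ e.1 e.2) fun j =>
      eVariationOn (fun s => onSeg f e s j) (Icc 0 1) ≤ a) :
    len (onSeg (fun x => Φ.toFun (f x)) e) (Icc 0 1) ≤ 8 * a + ENNReal.ofReal (2 * t k) := by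
  have hmem : ∀ {s : ℝ}, s ∈ Icc (0:ℝ) 1 → e.1 + s • (e.2 - e.1) ∈ segment ℝ e.1 e.2 :=
    fun hs => Small.onSeg_mem hs
  have hN := H.pos k
  have hdiam : ‖e.2 - e.1‖ ≤ diam (F k) := by
    have := dist_le_diam_of_mem (H.cpt k).isBounded (hA (right_mem_segment ℝ _ _))
      (hA (left_mem_segment ℝ _ _))
    rwa [dist_eq_norm] at this
  have hcost : ∀ ρ : ℝ, 0 < ρ → ρ * (N k * (1 + diam (F k))) ≤ t k / 7 →
      ∀ s ∈ Icc (0:ℝ) 1, ∀ s' ∈ Icc (0:ℝ) 1,
      ρ * ‖f (e.1 + s • (e.2 - e.1)) - f (e.1 + s' • (e.2 - e.1))‖ ≤ t k / 7 * |s - s'| := by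
    intro ρ hρ h1 s hs s' hs'
    have h2 := H.lip k _ (hA (hmem hs)) _ (hA (hmem hs'))
    have h3 : e.1 + s • (e.2 - e.1) - (e.1 + s' • (e.2 - e.1)) = (s - s') • (e.2 - e.1) := by
      module
    rw [h3, norm_smul, Real.norm_eq_abs] at h2
    calc _ ≤ ρ * (N k * (|s - s'| * ‖e.2 - e.1‖)) := mul_le_mul_of_nonneg_left h2 hρ.le
      _ = ρ * (N k * ‖e.2 - e.1‖) * |s - s'| := by ring
      _ ≤ t k / 7 * |s - s'| := by
        refine mul_le_mul_of_nonneg_right (le_trans ?_ h1) (abs_nonneg _)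
        gcongr
        linarith
  have key : eVariationOn (onSeg (fun x => Φ.toFun (f x)) e) (Icc 0 1) ≤
      2 * a + 2 * a + ENNReal.ofReal (t k) := by
    rcases h with ⟨s, hs, h1, h2⟩ | ⟨i, hi, h1, h2⟩ | ⟨i, hi, h1⟩
    · obtain ⟨a₁, a₂, ha₁, ha₂, -, hcov⟩ := other_two (K.nrm s)
      refine (var_le_of_two (u₁ := fun r => onSeg f e r a₁) (u₂ := fun r => onSeg f e r a₂)
        (c := t k) ht ?_).trans (add_le_add (add_le_add (mul_le_mul_right (h2 _ ha₁) _)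
          (mul_le_mul_right (h2 _ ha₂) _)) le_rfl)
      intro r hr r' hr'
      have h5 := hcost _ (R.s_pos s) (H.s k s hs ⟨_, ⟨_, hA (hmem hr), rfl⟩, h1 _ (hmem hr)⟩)
        r hr r' hr'
      set L := |onSeg f e r a₁ - onSeg f e r' a₁| + |onSeg f e r a₂ - onSeg f e r' a₂| with hL
      have h3 := norm_s HΦ hμ (h1 _ (hmem hr)) (h1 _ (hmem hr')) (L := L) (fun j hj => by
        rcases hcov j hj with rfl | rfl
        · exact le_add_of_nonneg_right (abs_nonneg _)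
        · exact le_add_of_nonneg_left (abs_nonneg _)) (by positivity)
      have hL0 : 0 ≤ L := by positivity
      have h6 : μ * L ≤ L := mul_le_of_le_one_left hL0 hμ1
      have h7 := abs_nonneg (r - r')
      have h8 : t k / 7 * |r - r'| ≤ t k * |r - r'| / 2 := by nlinarith [mul_nonneg ht h7]
      show ‖Φ.toFun (f (e.1 + r • (e.2 - e.1))) - Φ.toFun (f (e.1 + r' • (e.2 - e.1)))‖ ≤
        2 * |onSeg f e r a₁ - onSeg f e r' a₁| + 2 * |onSeg f e r a₂ - onSeg f e r' a₂| +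
          t k * |r - r'|
      linarith
    · refine (var_le_of_two (u₁ := fun r => onSeg f e r (K.dir i)) (u₂ := fun _ => 0)
        (c := t k) ht ?_).trans (add_le_add (add_le_add (mul_le_mul_right h2 _)
          ?_) le_rfl)
      · intro r hr r' hr'
        have h5 := hcost _ (R.e_pos i) (H.e k i hi ⟨_, ⟨_, hA (hmem hr), rfl⟩,
          B.E_subset i (h1 _ (hmem hr))⟩) r hr r' hr'
        have h3 := norm_e HΦ hμ (h1 _ (hmem hr)) (h1 _ (hmem hr')) le_rfl (abs_nonneg _)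
        have h6 := mul_le_of_le_one_left (abs_nonneg (f (e.1 + r • (e.2 - e.1)) (K.dir i) -
          f (e.1 + r' • (e.2 - e.1)) (K.dir i))) hμ1
        show ‖Φ.toFun (f (e.1 + r • (e.2 - e.1))) - Φ.toFun (f (e.1 + r' • (e.2 - e.1)))‖ ≤
          2 * |f (e.1 + r • (e.2 - e.1)) (K.dir i) - f (e.1 + r' • (e.2 - e.1)) (K.dir i)| +
          2 * |(0:ℝ) - 0| + t k * |r - r'|
        rw [sub_zero, abs_zero]
        linarith
      · rw [eVariationOn.constant_on (subsingleton_singleton.anti (by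
          rintro _ ⟨r, -, rfl⟩; exact mem_singleton (0:ℝ)))]
        simp
    · refine (var_le_of_two (u₁ := fun _ => 0) (u₂ := fun _ => 0)
        (c := t k) ht ?_).trans (add_le_add (add_le_add (le_of_eq_of_le ?_ zero_le)
          (le_of_eq_of_le ?_ zero_le)) le_rfl)
      · intro r hr r' hr'
        have h5 := hcost _ (R.v_pos i) (H.v k i hi ⟨_, ⟨_, hA (hmem hr), rfl⟩,
          h1 _ (hmem hr)⟩) r hr r' hr'
        have h3 := norm_v HΦ (h1 _ (hmem hr)) (h1 _ (hmem hr'))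
        have h7 := abs_nonneg (r - r')
        have h8 : 4 * (t k / 7 * |r - r'|) ≤ t k * |r - r'| := by nlinarith [mul_nonneg ht h7]
        show ‖Φ.toFun (f (e.1 + r • (e.2 - e.1))) - Φ.toFun (f (e.1 + r' • (e.2 - e.1)))‖ ≤
          2 * |(0:ℝ) - 0| + 2 * |(0:ℝ) - 0| + t k * |r - r'|
        rw [sub_zero, abs_zero]
        linarith
      · rw [eVariationOn.constant_on (subsingleton_singleton.anti (by
          rintro _ ⟨r, -, rfl⟩; exact mem_singleton (0:ℝ)))]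
        simp
      · rw [eVariationOn.constant_on (subsingleton_singleton.anti (by
          rintro _ ⟨r, -, rfl⟩; exact mem_singleton (0:ℝ)))]
        simp
  refine (len_le_var _ _).trans ((mul_le_mul_right key _).trans (le_of_eq ?_))
  rw [ENNReal.ofReal_mul zero_le_two]
  have e2 : ENNReal.ofReal 2 = 2 := by norm_num
  rw [e2]
  ring

/-- length and a Lipschitz estimate -/
theorem len_le_of_lip {g h : V → V} {e : V × V} {c : ℝ} (hc : 0 ≤ c)
    (H : ∀ x ∈ segment ℝ e.1 e.2, ∀ y ∈ segment ℝ e.1 e.2, ‖g x - g y‖ ≤ c * ‖h x - h y‖) :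
    len (onSeg g e) (Icc 0 1) ≤ ENNReal.ofReal (2 * c) * len (onSeg h e) (Icc 0 1) := by
  refine (len_le_var _ _).trans ?_
  have h1 : var (onSeg g e) (Icc 0 1) ≤ ENNReal.ofReal c * var (onSeg h e) (Icc 0 1) := by
    refine eVariationOn_le_of_edist fun s hs s' hs' => ?_
    rw [edist_dist, edist_dist, dist_eq_norm, dist_eq_norm, ← ENNReal.ofReal_mul hc]
    exact ENNReal.ofReal_le_ofReal (H _ (Small.onSeg_mem hs) _ (Small.onSeg_mem hs'))
  have h2 : var (onSeg h e) (Icc 0 1) ≤ len (onSeg h e) (Icc 0 1) :=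
    _root_.P073.H926.var_le_len _ _
  rw [ENNReal.ofReal_mul zero_le_two]
  have e2 : ENNReal.ofReal 2 = 2 := by norm_num
  rw [e2, mul_assoc]
  exact mul_le_mul_right (h1.trans (mul_le_mul_right h2 _)) _

end Vale.Agent.P073.H233
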