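import Vale.Agent.P073.H233.Bd

/-!
# P073, H233 (CONE3-LP): oscillation on a face and on the boundary of a dyadic cube
-/

open Set MeasureTheory Metric Topology Filter
open scoped ENNReal

namespace Vale.Agent.P073.H233

open Vale.Agent.P073.St (V)
open Vale.Agent.P073.AB Vale.Agent.P073.AB.P86
open P073.Net (dyc dyo)

variable {v : V} {t s : Idx × Fin 3} {𝓢 : Finset (Idx × Fin 3)} {p : ℝ}

/-- the squares `𝓢` tile the square `t` -/
structure SqT (v : V) (t : Idx × Fin 3) (𝓢 : Finset (Idx × Fin 3)) : Prop where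
  sub : ∀ s ∈ 𝓢, squ v s ⊆ squ v t
  cov : squ v t ⊆ ⋃ s ∈ 𝓢, squ v s
  dis : ∀ s ∈ 𝓢, ∀ s' ∈ 𝓢, (rel v s ∩ rel v s').Nonempty → s = s'

theorem pl_inj {s s' : Idx × Fin 3} (h : Cop t s) (h' : Cop t s') (e : pl s = pl s') : s = s' := by
  obtain ⟨⟨m, a⟩, k⟩ := s
  obtain ⟨⟨m', a'⟩, k'⟩ := s'
  obtain ⟨h1, h2⟩ := h
  obtain ⟨h1', h2'⟩ := h'
  have e0 : k = k' := h1.trans h1'.symm
  subst e0
  have e1 : m = m' := congrArg (fun d : D2 => d.1) e
  subst e1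
  have e2 : a (k + 1) = a' (k + 1) := congrArg (fun d : D2 => d.2.1) e
  have e3 : a (k + 2) = a' (k + 2) := congrArg (fun d : D2 => d.2.2) e
  have h3 : (a k : ℝ) / 2 ^ m = a' k / 2 ^ m := h2.trans h2'.symm
  have h4 : (0:ℝ) < 2 ^ m := by positivity
  have h5 := (div_left_inj' h4.ne').1 h3
  have e4 : a k = a' k := by exact_mod_cast h5
  have : a = a' := by
    funext j
    rcases f3a k j with rfl | rfl | rfl
    · exact e4
    · exact e2
    · exact e3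
  rw [this]

theorem sd_mono {F G : D2} (h : hs F ⊆ hs G) : G.1 ≤ F.1 := by
  have h1 : volume (hs F) ≤ volume (hs G) := measure_mono h
  rw [volume_hs, volume_hs, ENNReal.ofReal_le_ofReal_iff (by positivity)] at h1
  have h2 : sd F ≤ sd G := (pow_le_pow_iff_left₀ (sd_pos F).le (sd_pos G).le two_ne_zero).1 h1
  unfold sd at h2
  have h3 : (2:ℝ) ^ G.1 ≤ 2 ^ F.1 := (one_div_le_one_div (by positivity) (by positivity)).1 h2
  exact (pow_le_pow_iff_right₀ (by norm_num)).1 h3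

/-- moving a point of a half open square to the upper right -/
theorem eventually_osq {F : D2} {z : ℝ × ℝ} (hz : z ∈ hs F) :
    ∀ᶠ δ in 𝓝[>] (0:ℝ), (z.1 + δ, z.2 + δ) ∈ osq (cr F) (sd F) := by
  rw [hs_eq] at hz
  obtain ⟨⟨h1, h2⟩, h3, h4⟩ := hz
  have e1 : ∀ᶠ δ in 𝓝[>] (0:ℝ), δ < (cr F).1 + sd F - z.1 :=
    nhdsWithin_le_nhds (Iio_mem_nhds (by linarith))
  have e2 : ∀ᶠ δ in 𝓝[>] (0:ℝ), δ < (cr F).2 + sd F - z.2 :=
    nhdsWithin_le_nhds (Iio_mem_nhds (by linarith))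
  filter_upwards [e1, e2, self_mem_nhdsWithin] with δ a b (c : 0 < δ)
  exact ⟨⟨by show (cr F).1 < z.1 + δ; linarith, by show z.1 + δ < _; linarith⟩,
    ⟨by show (cr F).2 < z.2 + δ; linarith, by show z.2 + δ < _; linarith⟩⟩

theorem eventually_not_sq {F : D2} {z : ℝ × ℝ} (hz : z ∉ hs F) :
    ∀ᶠ δ in 𝓝[>] (0:ℝ), (z.1 + δ, z.2 + δ) ∉ sq (cr F) (sd F) := by
  have key : ∀ a b x : ℝ, ¬ (a ≤ x ∧ x < a + b) → ∀ᶠ δ in 𝓝[>] (0:ℝ), ¬ (a ≤ x + δ ∧ x + δ ≤ a + b) := by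
    intro a b x h
    by_cases h1 : a ≤ x
    · have h2 : a + b ≤ x := by
        by_contra h3
        exact h ⟨h1, not_le.1 h3⟩
      filter_upwards [self_mem_nhdsWithin] with δ (hδ : 0 < δ) h3
      linarith [h3.2]
    · have e1 : ∀ᶠ δ in 𝓝[>] (0:ℝ), δ < a - x :=
        nhdsWithin_le_nhds (Iio_mem_nhds (by linarith [not_le.1 h1]))
      filter_upwards [e1] with δ hδ h3
      linarith [h3.1]
  rw [hs_eq] at hz
  by_cases h1 : (cr F).1 ≤ z.1 ∧ z.1 < (cr F).1 + sd F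
  · have h2 : ¬ ((cr F).2 ≤ z.2 ∧ z.2 < (cr F).2 + sd F) := fun h => hz ⟨h1, h⟩
    filter_upwards [key _ _ _ h2] with δ hδ h
    exact hδ h.2
  · filter_upwards [key _ _ _ h1] with δ hδ h
    exact hδ h.1

theorem cop_self (t : Idx × Fin 3) : Cop t t := ⟨rfl, rfl⟩

open Classical in
theorem SqT.tlg (H : SqT v t 𝓢) : Tlg (pl t) (𝓢.image pl) := by
  refine ⟨?_, ?_, ?_, ?_⟩
  · intro F hF
    obtain ⟨s, hs1, rfl⟩ := Finset.mem_image.1 hF
    exact sd_mono (hs_pl_sub (H.sub s hs1))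
  · intro F hF
    obtain ⟨s, hs1, rfl⟩ := Finset.mem_image.1 hF
    exact hs_pl_sub (H.sub s hs1)
  · intro z hz
    by_contra hcon
    have h1 : ∀ s ∈ 𝓢, ∀ᶠ δ in 𝓝[>] (0:ℝ), (z.1 + δ, z.2 + δ) ∉ sq (cr (pl s)) (sd (pl s)) := by
      intro s hs1
      refine eventually_not_sq fun h => hcon ?_
      exact mem_iUnion₂.2 ⟨pl s, Finset.mem_image_of_mem _ hs1, h⟩
    have h2 := (Filter.eventually_all_finset 𝓢).2 h1
    obtain ⟨δ, h3, h4⟩ := (h2.and (eventually_osq hz)).exists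
    have h5 : (z.1 + δ, z.2 + δ) ∈ sq (cr (pl t)) (sd (pl t)) :=
      prod_mono Ioo_subset_Icc_self Ioo_subset_Icc_self h4
    have h6 := H.cov ((emb_mem_squ (v := v) (cop_self t)).2 h5)
    obtain ⟨s, hs1, h7⟩ := mem_iUnion₂.1 h6
    exact h3 s hs1 ((emb_mem_squ (cop_of_sub (H.sub s hs1))).1 h7)
  · intro F hF G hG hne
    obtain ⟨s, hs1, rfl⟩ := Finset.mem_image.1 hF
    obtain ⟨s', hs1', rfl⟩ := Finset.mem_image.1 hG
    obtain ⟨z, hz, hz'⟩ := hne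
    obtain ⟨δ, h3, h4⟩ := ((eventually_osq hz).and (eventually_osq hz')).exists
    rw [H.dis s hs1 s' hs1' ⟨_, emb_mem_rel (v := v) (cop_of_sub (H.sub s hs1)) h3,
      emb_mem_rel (cop_of_sub (H.sub s' hs1')) h4⟩]

/-- the energy of the oscillations -/
noncomputable def ZS (p : ℝ) (𝓢 : Finset (Idx × Fin 3)) (A : Idx × Fin 3 → ℝ) : ℝ :=
  ∑ s ∈ 𝓢, (1 / 2 ^ s.1.1 : ℝ) ^ (2 - p) * A s ^ p

theorem ZS_nonneg {A : Idx × Fin 3 → ℝ} (hA : ∀ s ∈ 𝓢, 0 ≤ A s) : 0 ≤ ZS p 𝓢 A :=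
  Finset.sum_nonneg fun s hs => mul_nonneg (Real.rpow_nonneg (by positivity) _)
    (Real.rpow_nonneg (hA s hs) _)

theorem ZS_mono {𝓢' : Finset (Idx × Fin 3)} (h : 𝓢 ⊆ 𝓢') {A : Idx × Fin 3 → ℝ}
    (hA : ∀ s ∈ 𝓢', 0 ≤ A s) : ZS p 𝓢 A ≤ ZS p 𝓢' A :=
  Finset.sum_le_sum_of_subset_of_nonneg h fun s hs _ =>
    mul_nonneg (Real.rpow_nonneg (by positivity) _) (Real.rpow_nonneg (hA s hs) _)

/-- **Morrey on a tiled square** -/
theorem SqT.osc (hp : 2 < p) (H : SqT v t 𝓢) {w : V → ℝ} (hw : ContinuousOn w (squ v t))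
    {A : Idx × Fin 3 → ℝ} (hA : ∀ s ∈ 𝓢, 0 ≤ A s)
    (hosc : ∀ s ∈ 𝓢, ∀ x ∈ squ v s, ∀ y ∈ squ v s, |w x - w y| ≤ A s) {x y : V}
    (hx : x ∈ squ v t) (hy : y ∈ squ v t) :
    |w x - w y| ≤ mor p * ((1 / 2 ^ t.1.1 : ℝ) ^ (1 - 2 / p) * ZS p 𝓢 A ^ (1 / p)) := by
  classical
  have hinj : Set.InjOn pl (𝓢 : Set (Idx × Fin 3)) := fun s hs s' hs' e =>
    pl_inj (cop_of_sub (H.sub s hs)) (cop_of_sub (H.sub s' hs')) e
  have hne : Nonempty (Idx × Fin 3) := ⟨t⟩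
  have hinv : ∀ s ∈ 𝓢, Function.invFunOn pl (𝓢 : Set (Idx × Fin 3)) (pl s) = s := fun s hs =>
    hinj.leftInvOn_invFunOn hs
  set A' : D2 → ℝ := fun F => A (Function.invFunOn pl (𝓢 : Set (Idx × Fin 3)) F) with hA'
  have hA's : ∀ s ∈ 𝓢, A' (pl s) = A s := fun s hs => congrArg A (hinv s hs)
  have hZ : Zen p (𝓢.image pl) A' = ZS p 𝓢 A := by
    unfold Zen ZS
    rw [Finset.sum_image hinj]
    refine Finset.sum_congr rfl fun s hs => ?_
    rw [hA's s hs, sd_pl]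
  have hmem : ∀ s ∈ 𝓢, ∀ z ∈ sq (cr (pl s)) (sd (pl s)), emb v t z ∈ squ v s := fun s hs z hz =>
    (emb_mem_squ (cop_of_sub (H.sub s hs))).2 hz
  have key := morrey hp H.tlg (w := fun z => w (emb v t z)) (A := A')
    (hw.comp continuous_emb.continuousOn fun z hz => (emb_mem_squ (cop_self t)).2 hz)
    (fun F hF => by
      obtain ⟨s, hs1, rfl⟩ := Finset.mem_image.1 hF
      rw [hA's s hs1]
      exact hA s hs1)
    (fun F hF z hz z' hz' => by
      obtain ⟨s, hs1, rfl⟩ := Finset.mem_image.1 hF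
      rw [hA's s hs1]
      exact hosc s hs1 _ (hmem s hs1 z hz) _ (hmem s hs1 z' hz'))
    (x := prj v t x) (y := prj v t y)
    ((emb_mem_squ (v := v) (cop_self t)).1 (by rw [emb_prj hx]; exact hx))
    ((emb_mem_squ (v := v) (cop_self t)).1 (by rw [emb_prj hy]; exact hy))
  rw [hZ, emb_prj hx, emb_prj hy, sd_pl] at key
  exact key

/-! ### The boundary of a cube -/

/-- the squares `𝓢` tile the boundary of the cube `q` -/
structure BdT (v : V) (q : Idx) (𝓢 : Finset (Idx × Fin 3)) : Prop where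
  sub : ∀ s ∈ 𝓢, ∃ t, FaceOf t q ∧ squ v s ⊆ squ v t
  cov : ∀ t, FaceOf t q → ∀ x ∈ squ v t, ∃ s ∈ 𝓢, x ∈ squ v s ∧ squ v s ⊆ squ v t
  dis : ∀ s ∈ 𝓢, ∀ s' ∈ 𝓢, (rel v s ∩ rel v s').Nonempty → s = s'

open Classical in
theorem BdT.sqT {q : Idx} (H : BdT v q 𝓢) (ht : FaceOf t q) :
    SqT v t (𝓢.filter fun s => squ v s ⊆ squ v t) where
  sub := fun s hs => (Finset.mem_filter.1 hs).2
  cov := fun x hx => by
    obtain ⟨s, hs, h1, h2⟩ := H.cov t ht x hx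
    exact mem_iUnion₂.2 ⟨s, Finset.mem_filter.2 ⟨hs, h2⟩, h1⟩
  dis := fun s hs s' hs' => H.dis s (Finset.mem_filter.1 hs).1 s' (Finset.mem_filter.1 hs').1

theorem exists_face_of_minSq {Ω : Set V} {I : Set Idx} (hI : Part Ω v I) {q : Idx} (hq : q ∈ I)
    (hs : MinSq v I s) (hsub : squ v s ⊆ dyc v q.1 q.2) : ∃ t, FaceOf t q ∧ squ v s ⊆ squ v t := by
  have h1 := (bd_pos hI hs hq hsub).1
  have e1 : sc v s s.2 = v s.2 + s.1.2 s.2 / 2 ^ s.1.1 := by simp [sc]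
  have e2 : cen v q.1 q.2 s.2 = v s.2 + (q.2 s.2 : ℝ) / 2 ^ q.1 + 1 / 2 / 2 ^ q.1 := by
    simp only [cen]; rw [add_div]; ring
  have e3 : (1:ℝ) / 2 ^ q.1 = 1 / 2 / 2 ^ q.1 + 1 / 2 / 2 ^ q.1 := by ring
  rcases (abs_eq (by positivity)).1 h1 with h | h
  · refine ⟨((q.1, Function.update q.2 s.2 (q.2 s.2 + 1)), s.2), ⟨rfl, Or.inr ?_, fun j hj => ?_⟩,
      fun x hx => ⟨?_, fun j hj => ?_⟩⟩
    · show Function.update q.2 s.2 (q.2 s.2 + 1) s.2 = q.2 s.2 + 1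
      rw [Function.update_self]
    · exact Function.update_of_ne hj _ _
    · show x s.2 = v s.2 + ((Function.update q.2 s.2 (q.2 s.2 + 1) s.2 : ℤ) : ℝ) / 2 ^ q.1
      rw [Function.update_self, hx.1]
      push_cast
      rw [div_add_one]
      linarith
    · show v j + ((Function.update q.2 s.2 (q.2 s.2 + 1) j : ℤ) : ℝ) / 2 ^ q.1 ≤ x j ∧
        x j ≤ v j + (((Function.update q.2 s.2 (q.2 s.2 + 1) j : ℤ) : ℝ) + 1) / 2 ^ q.1
      rw [Function.update_of_ne hj]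
      exact hsub hx j
  · refine ⟨(q, s.2), ⟨rfl, Or.inl rfl, fun j _ => rfl⟩, fun x hx => ⟨?_, fun j _ => hsub hx j⟩⟩
    show x s.2 = v s.2 + (q.2 s.2 : ℝ) / 2 ^ q.1
    rw [hx.1]
    linarith

/-- the minimal squares of a partition -/
theorem bdT_minSq {Ω : Set V} {I : Set Idx} (hΩ : IsOpen Ω) (hI : Part Ω v I) {q : Idx}
    (hq : q ∈ I) : BdT v q (finite_minSq hI hq).toFinset where
  sub := fun s hs => by
    have h := (finite_minSq hI hq).mem_toFinset.1 hs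
    exact exists_face_of_minSq hI hq h.1 h.2
  cov := by
    intro t ht x hx
    have key : ∃ s', MinSq v I s' ∧ x ∈ squ v s' ∧ squ v s' ⊆ squ v t := by
      rcases faceOf_iff.1 ht with h | h
      · exact cover_hi hΩ hI hx (h ▸ hq)
      · exact cover_lo hΩ hI hx (h ▸ hq)
    obtain ⟨s, h1, h2, h3⟩ := key
    refine ⟨s, (finite_minSq hI hq).mem_toFinset.2 ⟨h1, h3.trans ?_⟩, h2, h3⟩
    rcases faceOf_iff.1 ht with h | h
    · rw [h]; exact squ_sub_hi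
    · rw [h]; exact squ_sub_lo
  dis := by
    rintro s hs s' hs' ⟨x, hx, hx'⟩
    exact sq_disj hΩ hI ((finite_minSq hI hq).mem_toFinset.1 hs).1
      ((finite_minSq hI hq).mem_toFinset.1 hs').1 hx (rel_sub hx')

theorem faces_meet {q : Idx} {t t' : Idx × Fin 3} (ht : FaceOf t q) (ht' : FaceOf t' q)
    (h : t.2 ≠ t'.2) : (squ v t ∩ squ v t').Nonempty := by
  obtain ⟨⟨m, a⟩, k⟩ := t
  obtain ⟨⟨m', a'⟩, k'⟩ := t'
  obtain ⟨n, b⟩ := q
  obtain ⟨h1, h2, h3⟩ := ht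
  obtain ⟨h1', h2', h3'⟩ := ht'
  have h1 : m = n := h1
  have h1' : m' = n := h1'
  subst h1
  subst h1'
  have h2 : a k = b k ∨ a k = b k + 1 := h2
  have h2' : a' k' = b k' ∨ a' k' = b k' + 1 := h2'
  have h3 : ∀ j, j ≠ k → a j = b j := h3
  have h3' : ∀ j, j ≠ k' → a' j = b j := h3'
  have hne : k ≠ k' := h
  have hp : (0:ℝ) < 1 / 2 ^ m' := by positivity
  refine ⟨fun j => v j + (if j = k then (a k : ℝ) else if j = k' then (a' k' : ℝ) else b j) / 2 ^ m',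
    ⟨?_, ?_⟩, ⟨?_, ?_⟩⟩
  · show v k + (if k = k then (a k : ℝ) else _) / 2 ^ m' = v k + a k / 2 ^ m'
    rw [if_pos rfl]
  · intro j hj
    have hj : j ≠ k := hj
    show v j + (a j : ℝ) / 2 ^ m' ≤ v j + (if j = k then (a k : ℝ) else if j = k' then (a' k' : ℝ)
        else b j) / 2 ^ m' ∧
      v j + (if j = k then (a k : ℝ) else if j = k' then (a' k' : ℝ) else b j) / 2 ^ m' ≤
        v j + ((a j : ℝ) + 1) / 2 ^ m'
    rw [if_neg hj, h3 j hj]
    by_cases hj' : j = k'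
    · rw [if_pos hj']
      subst hj'
      rcases h2' with e | e
      · rw [e, div_add_one]
        constructor <;> linarith
      · rw [e]
        push_cast
        rw [div_add_one]
        constructor <;> linarith
    · rw [if_neg hj', div_add_one]
      constructor <;> linarith
  · show v k' + (if k' = k then (a k : ℝ) else if k' = k' then (a' k' : ℝ) else b k') / 2 ^ m' =
      v k' + a' k' / 2 ^ m'
    rw [if_neg hne.symm, if_pos rfl]
  · intro j hj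
    have hj : j ≠ k' := hj
    show v j + (a' j : ℝ) / 2 ^ m' ≤ v j + (if j = k then (a k : ℝ) else if j = k' then (a' k' : ℝ)
        else b j) / 2 ^ m' ∧
      v j + (if j = k then (a k : ℝ) else if j = k' then (a' k' : ℝ) else b j) / 2 ^ m' ≤
        v j + ((a' j : ℝ) + 1) / 2 ^ m'
    rw [if_neg hj, h3' j hj]
    by_cases hj' : j = k
    · rw [if_pos hj']
      subst hj'
      rcases h2 with e | e
      · rw [e, div_add_one]
        constructor <;> linarith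
      · rw [e]
        push_cast
        rw [div_add_one]
        constructor <;> linarith
    · rw [if_neg hj', div_add_one]
      constructor <;> linarith

/-- a point of the boundary is in a face -/
theorem exists_face {q : Idx} {x : V} (hx : x ∈ dyc v q.1 q.2 \ dyo v q.1 q.2) :
    ∃ t, FaceOf t q ∧ x ∈ squ v t := by
  obtain ⟨h1, h2⟩ := hx
  have h3 : ∃ k, ¬ (v k + (q.2 k : ℝ) / 2 ^ q.1 < x k ∧ x k < v k + ((q.2 k : ℝ) + 1) / 2 ^ q.1) := by
    by_contra hcon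
    push Not at hcon
    exact h2 fun k => hcon k
  obtain ⟨k, hk⟩ := h3
  have h4 := h1 k
  by_cases h5 : v k + (q.2 k : ℝ) / 2 ^ q.1 < x k
  · have h6 : x k = v k + ((q.2 k : ℝ) + 1) / 2 ^ q.1 := by
      refine le_antisymm h4.2 (not_lt.1 fun h => hk ⟨h5, h⟩)
    refine ⟨((q.1, Function.update q.2 k (q.2 k + 1)), k), ⟨rfl, Or.inr ?_, fun j hj => ?_⟩, ?_,
      fun j hj => ?_⟩
    · show Function.update q.2 k (q.2 k + 1) k = q.2 k + 1
      rw [Function.update_self]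
    · exact Function.update_of_ne hj _ _
    · show x k = v k + ((Function.update q.2 k (q.2 k + 1) k : ℤ) : ℝ) / 2 ^ q.1
      rw [Function.update_self, h6]
      push_cast
      rfl
    · show v j + ((Function.update q.2 k (q.2 k + 1) j : ℤ) : ℝ) / 2 ^ q.1 ≤ x j ∧
        x j ≤ v j + (((Function.update q.2 k (q.2 k + 1) j : ℤ) : ℝ) + 1) / 2 ^ q.1
      rw [Function.update_of_ne hj]
      exact h1 j
  · have h6 : x k = v k + (q.2 k : ℝ) / 2 ^ q.1 := le_antisymm (not_lt.1 h5) h4.1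
    exact ⟨(q, k), ⟨rfl, Or.inl rfl, fun j _ => rfl⟩, h6, fun j _ => h1 j⟩

theorem squ_sub_bd {q : Idx} (ht : FaceOf t q) : squ v t ⊆ dyc v q.1 q.2 \ dyo v q.1 q.2 := by
  intro x hx
  have h1 : x ∈ dyc v q.1 q.2 := by
    rcases faceOf_iff.1 ht with h | h
    · rw [h]; exact squ_sub_hi hx
    · rw [h]; exact squ_sub_lo hx
  refine ⟨h1, fun h2 => ?_⟩
  have h3 := h2 t.2
  have h4 := hx.1
  rcases ht.2.1 with h | h
  · rw [h, ht.1] at h4
    linarith [h3.1]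
  · rw [h, ht.1] at h4
    push_cast at h4
    linarith [h3.2]

theorem face_sub_dyc {q : Idx} (ht : FaceOf t q) : squ v t ⊆ dyc v q.1 q.2 := fun _ hx =>
  (squ_sub_bd ht hx).1

theorem BdT.sub_bd {q : Idx} (H : BdT v q 𝓢) (hs : s ∈ 𝓢) :
    squ v s ⊆ dyc v q.1 q.2 \ dyo v q.1 q.2 := by
  obtain ⟨t, ht, hst⟩ := H.sub s hs
  exact hst.trans (squ_sub_bd ht)

/-- an interval meets another interval in an inner point -/
theorem mid_ineq {a b a' b' x : ℝ} (h1 : a < x) (h2 : x < b) (h3 : a' ≤ x) (h4 : x ≤ b')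
    (h5 : a' < b') : (a < (max a a' + min b b') / 2 ∧ (max a a' + min b b') / 2 < b) ∧
      a' < (max a a' + min b b') / 2 ∧ (max a a' + min b b') / 2 < b' := by
  have e1 := le_max_left a a'
  have e2 := le_max_right a a'
  have e3 := min_le_left b b'
  have e4 := min_le_right b b'
  have e5 : max a a' < min b b' := by
    rw [max_lt_iff, lt_min_iff, lt_min_iff]
    refine ⟨⟨by linarith, by linarith⟩, ?_, h5⟩
    linarith
  refine ⟨⟨by linarith, by linarith⟩, by linarith, by linarith⟩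

/-- a point of the relative interior of a square is in no other square -/
theorem BdT.eq_of_rel {q : Idx} (H : BdT v q 𝓢) {s s' : Idx × Fin 3} (hs : s ∈ 𝓢) (hs' : s' ∈ 𝓢)
    {x : V} (hx : x ∈ rel v s) (hx' : x ∈ squ v s') : s = s' := by
  obtain ⟨t, ht, hst⟩ := H.sub s hs
  obtain ⟨t', ht', hst'⟩ := H.sub s' hs'
  have hsq : squ v s ⊆ dyc v q.1 q.2 := hst.trans (face_sub_dyc ht)
  by_cases hk : s'.2 = s.2
  · refine H.dis s hs s' hs' ?_
    have hp : ∀ (u : Idx × Fin 3), (0:ℝ) < 1 / 2 ^ u.1.1 := fun u => by positivity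
    refine ⟨fun j => if j = s.2 then x s.2 else
      (max (v j + (s.1.2 j : ℝ) / 2 ^ s.1.1) (v j + (s'.1.2 j : ℝ) / 2 ^ s'.1.1) +
        min (v j + ((s.1.2 j : ℝ) + 1) / 2 ^ s.1.1) (v j + ((s'.1.2 j : ℝ) + 1) / 2 ^ s'.1.1)) / 2,
      ⟨?_, ?_⟩, ⟨?_, ?_⟩⟩
    · show (if s.2 = s.2 then x s.2 else _) = _
      rw [if_pos rfl]
      exact hx.1
    · intro j hj
      have h1 := hx.2 j hj
      have h2 := hx'.2 j (by rw [hk]; exact hj)
      have h3 := mid_ineq h1.1 h1.2 h2.1 h2.2 (by rw [div_add_one]; linarith [hp s'])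
      simp only [if_neg hj]
      exact h3.1
    · show (if s'.2 = s.2 then x s.2 else _) = _
      rw [if_pos hk, ← hk]
      exact hx'.1
    · intro j hj
      have hj' : j ≠ s.2 := by rw [← hk]; exact hj
      have h1 := hx.2 j hj'
      have h2 := hx'.2 j hj
      have h3 := mid_ineq h1.1 h1.2 h2.1 h2.2 (by rw [div_add_one]; linarith [hp s'])
      simp only [if_neg hj']
      exact h3.2
  · exfalso
    have hc := cop_of_sub hst'
    have h1 : x t'.2 = v t'.2 + t'.1.2 t'.2 / 2 ^ t'.1.1 := (hst' hx').1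
    have hk' : t'.2 ≠ s.2 := by rw [← hc.1]; exact hk
    have h2 := hx.2 t'.2 hk'
    have hlo : (fun k => v k + s.1.2 k / 2 ^ s.1.1 : V) ∈ squ v s :=
      ⟨rfl, fun j _ => ⟨le_rfl, by
        rw [div_add_one]
        have : (0:ℝ) < 1 / 2 ^ s.1.1 := by positivity
        linarith⟩⟩
    have hhi : (fun k => if k = s.2 then v k + s.1.2 k / 2 ^ s.1.1 else
        v k + (s.1.2 k + 1) / 2 ^ s.1.1 : V) ∈ squ v s := by
      refine ⟨by simp, fun j hj => ?_⟩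
      simp only [if_neg hj]
      exact ⟨by rw [div_add_one]; have : (0:ℝ) < 1 / 2 ^ s.1.1 := by positivity
                linarith, le_rfl⟩
    have h3 := (hsq hlo t'.2).1
    have h4 := (hsq hhi t'.2).2
    simp only [if_neg hk'] at h4
    rcases ht'.2.1 with e | e
    · rw [e, ht'.1] at h1
      linarith [h2.1]
    · rw [e, ht'.1] at h1
      push_cast at h1
      linarith [h2.2]

/-- the squares cover the boundary -/
theorem BdT.bd_eq {q : Idx} (H : BdT v q 𝓢) :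
    dyc v q.1 q.2 \ dyo v q.1 q.2 = ⋃ s ∈ 𝓢, squ v s := by
  ext x
  constructor
  · intro hx
    obtain ⟨t, ht, hxt⟩ := exists_face hx
    obtain ⟨s, hs, h1, -⟩ := H.cov t ht x hxt
    exact mem_iUnion₂.2 ⟨s, hs, h1⟩
  · intro hx
    obtain ⟨s, hs, h1⟩ := mem_iUnion₂.1 hx
    exact H.sub_bd hs h1

/-- **Morrey on the boundary of a cube** -/
theorem BdT.osc (hp : 2 < p) {q : Idx} (H : BdT v q 𝓢) {w : V → ℝ}
    (hw : ContinuousOn w (dyc v q.1 q.2 \ dyo v q.1 q.2))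
    {A : Idx × Fin 3 → ℝ} (hA : ∀ s ∈ 𝓢, 0 ≤ A s)
    (hosc : ∀ s ∈ 𝓢, ∀ x ∈ squ v s, ∀ y ∈ squ v s, |w x - w y| ≤ A s) {x y : V}
    (hx : x ∈ dyc v q.1 q.2 \ dyo v q.1 q.2) (hy : y ∈ dyc v q.1 q.2 \ dyo v q.1 q.2) :
    |w x - w y| ≤ 3 * (mor p * ((1 / 2 ^ q.1 : ℝ) ^ (1 - 2 / p) * ZS p 𝓢 A ^ (1 / p))) := by
  classical
  set B : ℝ := mor p * ((1 / 2 ^ q.1 : ℝ) ^ (1 - 2 / p) * ZS p 𝓢 A ^ (1 / p)) with hB
  have hB0 : 0 ≤ B := mul_nonneg (mor_pos hp).le (mul_nonneg (Real.rpow_nonneg (by positivity) _)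
    (Real.rpow_nonneg (ZS_nonneg hA) _))
  have face : ∀ t, FaceOf t q → ∀ x ∈ squ v t, ∀ y ∈ squ v t, |w x - w y| ≤ B := by
    intro t ht x hx y hy
    refine ((H.sqT ht).osc hp (hw.mono (squ_sub_bd ht)) (fun s hs => hA s (Finset.mem_filter.1 hs).1)
      (fun s hs => hosc s (Finset.mem_filter.1 hs).1) hx hy).trans ?_
    rw [hB, ht.1]
    have hsub : (𝓢.filter fun s => squ v s ⊆ squ v t) ⊆ 𝓢 := Finset.filter_subset _ _
    have h0 : 0 ≤ ZS p (𝓢.filter fun s => squ v s ⊆ squ v t) A :=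
      ZS_nonneg fun s hs => hA s (hsub hs)
    have hp1 : 0 ≤ 1 / p := by have : 0 < p := by linarith
                               positivity
    exact mul_le_mul_of_nonneg_left (mul_le_mul_of_nonneg_left
      (Real.rpow_le_rpow h0 (ZS_mono hsub hA) hp1) (Real.rpow_nonneg (by positivity) _))
      (mor_pos hp).le
  have two : ∀ t, FaceOf t q → ∀ t', FaceOf t' q → t.2 ≠ t'.2 → ∀ x ∈ squ v t, ∀ y ∈ squ v t',
      |w x - w y| ≤ 2 * B := by
    intro t ht t' ht' hne x hx y hy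
    obtain ⟨z, hz, hz'⟩ := faces_meet (v := v) ht ht' hne
    have h1 := face t ht x hx z hz
    have h2 := face t' ht' z hz' y hy
    have h3 := abs_sub_le (w x) (w z) (w y)
    linarith
  obtain ⟨t, ht, hxt⟩ := exists_face hx
  obtain ⟨t', ht', hyt⟩ := exists_face hy
  by_cases hne : t.2 = t'.2
  · have ht2 : FaceOf (q, t.2 + 1) q := ⟨rfl, Or.inl rfl, fun j _ => rfl⟩
    obtain ⟨z, hz, hz'⟩ := faces_meet (v := v) ht ht2 (f3b t.2).symm
    have h1 := face t ht x hxt z hz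
    have h2 := two (q, t.2 + 1) ht2 t' ht' (by rw [← hne]; exact f3b t.2) z hz' y hyt
    have h3 := abs_sub_le (w x) (w z) (w y)
    linarith
  · have := two t ht t' ht' hne x hxt y hyt
    linarith

/-- **`ℓ¹` version** -/
theorem BdT.osc_sum (hp : 2 < p) {q : Idx} (H : BdT v q 𝓢) {J : Type*} (T : Finset J)
    {f : J → V → ℝ} (hf : ∀ c ∈ T, ContinuousOn (f c) (dyc v q.1 q.2 \ dyo v q.1 q.2))
    {A : Idx × Fin 3 → ℝ} (hA : ∀ s ∈ 𝓢, 0 ≤ A s)
    (hosc : ∀ s ∈ 𝓢, ∀ x ∈ squ v s, ∀ y ∈ squ v s, ∑ c ∈ T, |f c x - f c y| ≤ A s) {x y : V}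
    (hx : x ∈ dyc v q.1 q.2 \ dyo v q.1 q.2) (hy : y ∈ dyc v q.1 q.2 \ dyo v q.1 q.2) :
    ∑ c ∈ T, |f c x - f c y| ≤
      3 * (mor p * ((1 / 2 ^ q.1 : ℝ) ^ (1 - 2 / p) * ZS p 𝓢 A ^ (1 / p))) := by
  set ε : J → ℝ := fun c => if 0 ≤ f c x - f c y then 1 else -1 with hε
  have hε1 : ∀ c, |ε c| ≤ 1 := by
    intro c
    rw [hε]
    dsimp only
    split_ifs <;> simp
  have h1 : ∀ c, |f c x - f c y| = ε c * (f c x - f c y) := by
    intro c
    rw [hε]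
    dsimp only
    split_ifs with h
    · rw [abs_of_nonneg h, one_mul]
    · rw [abs_of_neg (not_le.1 h)]; ring
  have key := H.osc hp (w := fun z => ∑ c ∈ T, ε c * f c z) (A := A)
    (continuousOn_finsetSum _ fun c hc => continuousOn_const.mul (hf c hc)) hA ?_ hx hy
  · have e : ∑ c ∈ T, |f c x - f c y| = (∑ c ∈ T, ε c * f c x) - ∑ c ∈ T, ε c * f c y := by
      rw [← Finset.sum_sub_distrib]
      exact Finset.sum_congr rfl fun c _ => by rw [h1 c]; ring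
    rw [e]
    exact (le_abs_self _).trans key
  · intro s hs x' hx' y' hy'
    rw [← Finset.sum_sub_distrib]
    refine (Finset.abs_sum_le_sum_abs _ _).trans (le_trans ?_ (hosc s hs x' hx' y' hy'))
    refine Finset.sum_le_sum fun c _ => ?_
    rw [← mul_sub, abs_mul]
    exact mul_le_of_le_one_left (abs_nonneg _) (hε1 c)

end Vale.Agent.P073.H233
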