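import Vale.Agent.P073.H233.Rank
import Vale.Agent.P073.H233.Bd2
import Vale.Agent.P073.H267.Sph

/-!
# P073, H233 (CONE3-LP): the thick circles of a sphere with the nesting rank
-/

open Set Metric Topology Filter

namespace P073.H267.Rings.Discs

open P073 P073.H936 P073.H267 Vale.Agent.P073.H233

variable {E : Type*} [NormedAddCommGroup E] [NormedSpace ℝ E] {S : Set E} {J : Type*}
  {R : Rings S J} {p0 : E} (d : R.Discs p0)

/-- the closed discs of the circles -/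
def O (c : J) : Set E := d.I c ∪ R.A c

theorem lamO : Lam S d.O d.ss where
  sub := d.sub
  one := fun c x _ h => by
    by_contra hx
    rw [d.ss_out hx] at h
    norm_num at h
  ne := fun c => by
    obtain ⟨y, hy⟩ := ring_nonempty (R.a c) (d.e c)
    have hyA := ring_sub _ _ hy
    refine ⟨y, Or.inr hyA, ?_⟩
    rw [d.ss_A hyA, (R.mem_ring_iff hyA).1 hy]
    show lv (!d.e c) * lv (d.e c) ≠ 1
    rw [lv_not, neg_mul, lv_mul_self]
    norm_num

theorem ss_base (c : J) : d.ss c p0 = -1 := d.ss_out (d.base c)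

variable [Fintype J]

theorem enc_of_nested {c c' : J} (h : d.I c ∪ R.A c ⊆ d.I c' \ R.A c') : c' ∈ enc d.O d.ss c :=
  mem_enc.2 fun _ hx => d.ss_I (h hx).1

/-- the nesting rank -/
noncomputable def nr (c : J) : ℕ := nrk R.typ d.O d.ss c

/-- the number of ranks -/
noncomputable def nm : ℕ := nrks d.O d.ss

theorem nr_lt (c : J) : d.nr c < d.nm := nrk_lt c

theorem nr_ne {c c' : J} (h : R.typ c ≠ R.typ c') : d.nr c ≠ d.nr c' := nrk_ne h

theorem nr_mono {c c' : J} (h : d.I c ∪ R.A c ⊆ d.I c' \ R.A c') : d.nr c < d.nr c' :=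
  d.lamO.nrk_lt_of_enc (d.enc_of_nested h)

/-- **`Circles` with the nesting rank** -/
noncomputable def ncircles (hS : ConSphere 2 S) : Circles 2 S J d.nm :=
  d.circles hS d.nm d.nr d.nr_lt (fun _ _ => d.nr_ne) fun _ _ _ _ => d.nr_mono

/-- **bound for the number of ranks** by the oscillation -/
theorem nm_le {ω : J → ℝ} {w : ℝ} (hω : ∀ c, w ≤ ω c) (hw : 0 ≤ w) {A : ℝ} (hA0 : 0 ≤ A)
    (hA : ∀ x ∈ S, ∑ c, ω c * |d.ss c x - d.ss c p0| ≤ A) : w * d.nm ≤ A + 2 * w :=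
  nrks_le hω hw d.ss_base (fun c => by
    obtain ⟨y, hy⟩ := ring_nonempty (R.a c) true
    exact ⟨y, Or.inr (ring_sub _ _ hy)⟩) hA0 fun c x hx => hA x (d.sub c hx)

end P073.H267.Rings.Discs

namespace Vale.Agent.P073.H233

open Vale.Agent.P073.St (V)
open Vale.Agent.P073.AB Vale.Agent.P073.AB.P86
open P073.Net (dyc dyo)
open _root_.P073 (ConSphere)
open _root_.P073.H267

/-- **the number of ranks on the boundary of a dyadic cube** -/
theorem nm_le_morrey {p : ℝ} (hp : 2 < p) {v : V} {q : Idx} {𝓢 : Finset (Idx × Fin 3)}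
    (H : BdT v q 𝓢) {J : Type*} [Fintype J] {S : Set V} (hSq : S = dyc v q.1 q.2 \ dyo v q.1 q.2)
    (hS : ConSphere 2 S) {R : Rings S J} {p0 : V} (hp0 : p0 ∈ S) (d : R.Discs p0) {ω : J → ℝ}
    {w : ℝ} (hω : ∀ c, w ≤ ω c) (hw : 0 ≤ w) {A : Idx × Fin 3 → ℝ} (hA : ∀ s ∈ 𝓢, 0 ≤ A s)
    (hosc : ∀ s ∈ 𝓢, ∀ x ∈ squ v s, ∀ y ∈ squ v s,
      ∑ c, ω c * |(d.ncircles hS).s c x - (d.ncircles hS).s c y| ≤ A s) :
    w * d.nm ≤ 3 * (mor p * ((1 / 2 ^ q.1 : ℝ) ^ (1 - 2 / p) * ZS p 𝓢 A ^ (1 / p))) + 2 * w := by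
  have hω0 : ∀ c, 0 ≤ ω c := fun c => hw.trans (hω c)
  have e : ∀ (c : J) (x y : V), |ω c * d.ss c x - ω c * d.ss c y| = ω c * |d.ss c x - d.ss c y| := by
    intro c x y
    rw [← mul_sub, abs_mul, abs_of_nonneg (hω0 c)]
  refine d.nm_le hω hw ?_ fun x hx => ?_
  · exact mul_nonneg (by norm_num) (mul_nonneg (mor_pos hp).le (mul_nonneg
      (Real.rpow_nonneg (by positivity) _) (Real.rpow_nonneg (ZS_nonneg hA) _)))
  · have key := H.osc_sum hp (Finset.univ : Finset J) (f := fun c z => ω c * d.ss c z)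
      (fun c _ => hSq ▸ continuousOn_const.mul (d.continuousOn_ss hS c)) hA
      (fun s hs x hx y hy => by
        simp only [e]
        exact hosc s hs x hx y hy) (x := x) (y := p0) (hSq ▸ hx) (hSq ▸ hp0)
    simp only [e] at key
    exact key

end Vale.Agent.P073.H233
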