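import Vale.Agent.P073.H919.PEx
import Vale.Agent.P073.H880.RP0
import Vale.Agent.P073.H471.KillLast
import Vale.Agent.P073.H669.PLevD
import Vale.Agent.P073.H193.Edg

/-!
# P073, block H233, [SMALL3]: the thickness of the walls after the insertion
-/

open Set Metric Topology Filter

namespace Vale.Agent.P073.H233

open _root_.P073 _root_.P073.Net _root_.P073.PA691 _root_.P073.H880.RP
open _root_.P073.H345 (PK PK_sub_ss)
open Vale.Agent.P073.St (V)
open Vale.Agent.P073.H471 Vale.Agent.P073.H267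
open Vale.Agent.P073.H73 (Mesh)

variable {Ω Λ : Set V} {v : V} {K : BoxCx Λ v} {S : Rad K} {W : Wid K S} {B : Boxes W}
  {M : Mesh Ω}

/-- finitely many faces with image in a compact set -/
theorem finite_faces_over (h : ConHomeo Ω Λ) {C : Set V} (hC : IsCompact C) (hCΛ : C ⊆ Λ) :
    {k | (h.toFun '' M.F k ∩ C).Nonempty}.Finite := by
  refine (M.ffin (h.invFun '' C) ?_ (hC.image_of_continuousOn (h.cont_inv.mono hCΛ))).subset ?_
  · rintro _ ⟨y, hy, rfl⟩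
    exact h.mapsTo_inv (hCΛ hy)
  · rintro k ⟨_, ⟨x, hx, rfl⟩, hxC⟩
    exact ⟨x, hx, h.toFun x, hxC, h.left_inv (H193.mesh_sub M k hx)⟩

/-- **[SMALL3]** -/
theorem exists_e3 (hΩ : IsOpen Ω) (G : Geo B) (D : Dat K M) (h1 h3 : ConHomeo Ω Λ)
    {c : K.S → Bool → ℝ} (hc : ∀ s β, 0 < c s β) {ν : M.κ → ℝ} (hν : ∀ k, 0 < ν k)
    {e₁ : Bool → D.S₀ → ℝ} (he₁ : ∀ β s, 0 < e₁ β s) :
    ∃ e : Bool → D.S₀ → ℝ, (∀ β s, 0 < e β s) ∧ (∀ β s, e β s ≤ e₁ β s) ∧
      ∀ (s : D.S₀) k, (h1.toFun '' M.F k ∩ PK G s.1).Nonempty →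
        ∃ Lam, 0 ≤ Lam ∧ (∀ x ∈ M.F k, ∀ y ∈ M.F k, ‖h3.toFun x - h3.toFun y‖ ≤ Lam * ‖x - y‖) ∧
          ∀ β, e β s * Lam ≤ ν k * c s.1 β := by
  choose L hL0 hL using fun k => H471.exists_lip_compact hΩ h3.conical h3.cont
    (H193.pgn_of_fat (M.fat k)).cpt (H193.mesh_sub M k)
  obtain ⟨m, hm0, hm⟩ := H669.exists_le_of_finite
    (R := fun (s : D.S₀) k => (h1.toFun '' M.F k ∩ PK G s.1).Nonempty)
    (fun s => finite_faces_over h1 (_root_.P073.H919.isCompact_PK G s.1)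
      fun y hy => ss_subset (W := W) s.1 (PK_sub_ss s.1 hy))
    (f := fun k => ν k / (1 + L k)) (fun k => div_pos (hν k) (by linarith [hL0 k]))
  refine ⟨fun β s => min (e₁ β s) (c s.1 β * m s), fun β s =>
    lt_min (he₁ β s) (mul_pos (hc _ _) (hm0 s)), fun β s => min_le_left _ _, fun s k hk =>
    ⟨L k, (hL0 k).le, hL k, fun β => ?_⟩⟩
  have h1 : min (e₁ β s) (c s.1 β * m s) ≤ c s.1 β * (ν k / (1 + L k)) :=
    (min_le_right _ _).trans (mul_le_mul_of_nonneg_left (hm s k hk) (hc _ _).le)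
  have h2 := hL0 k
  have h3 : ν k / (1 + L k) * L k ≤ ν k := by
    rw [div_mul_eq_mul_div, div_le_iff₀ (by linarith)]
    nlinarith [hν k]
  calc min (e₁ β s) (c s.1 β * m s) * L k ≤ c s.1 β * (ν k / (1 + L k)) * L k :=
        mul_le_mul_of_nonneg_right h1 h2.le
    _ = c s.1 β * (ν k / (1 + L k) * L k) := by ring
    _ ≤ c s.1 β * ν k := mul_le_mul_of_nonneg_left h3 (hc _ _).le
    _ = _ := mul_comm _ _

end Vale.Agent.P073.H233
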