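import Vale.Agent.P073.H233.Tail3B
import Vale.Agent.P073.H304.K3C

/-!
# P073, block H233, [K3-TAIL], part C: the faces and the edges
-/

open Set Metric Topology Filter MeasureTheory
open scoped ENNReal

namespace Vale.Agent.P073.H233

open _root_.P073 _root_.P073.Net _root_.P073.PA691 _root_.P073.TM
open Vale.Agent.P073.St (V)
open Vale.Agent.P073.SQ (cube ev)
open Vale.Agent.P073.H471
open Vale.Agent.P073.H212 (IsSoft)
open Vale.Agent.P073.H73 (Mesh sqr onSeg)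
open Vale.Agent.P073.H193 (Edges edges)
open Vale.Agent.P073.H304 (LipBd)
open _root_.P073.H142 (FStar Num AdC)

variable {Ω Λ : Set V} {M : Mesh Ω} {v : V} {K : BoxCx Λ v} {S : Rad K} {W : Wid K S}
  {B : Boxes W} {X : PSet K} {α : Type*} {R : Fac K} {F : α → Set V} {N t : α → ℝ}
  {Φ : ConHomeo Λ Λ} {a : α} {k : M.κ} {μ : ℝ}

/-- The estimates for the map `f` (before the collapse) on the face `k`: the local estimates on the
cones over the edges. -/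
def FaceOK3 (B : Boxes W) (X : PSet K) (h f : V → V) (C₁ D₀ ε : ℝ) (k : M.κ) : Prop :=
  ∃ (T : FStar (edges M) k) (b : (edges M).ε → ℝ), Num k h D₀ ε b ∧
    (∀ e, (edges M).seg e ⊆ M.F k → 0 < b e) ∧
    ∀ e, (edges M).seg e ⊆ M.F k → ∀ x ∈ coneSetAt T.O ((edges M).seg e),
      LAt B X (T.con C₁ b e) (coneSetAt T.O ((edges M).seg e)) f x

/-- the collapsed map satisfies the cone estimates -/
def FaceEst (h g : V → V) (C₁ D₀ ε : ℝ) (k : M.κ) : Prop :=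
  ∃ (T : FStar (edges M) k) (b : (edges M).ε → ℝ), Num k h D₀ ε b ∧ T.Est C₁ b g

/-- the estimate on the face `k` is not lost in the collapse -/
theorem exists_faceEst {f : V → V} (h : V → V) {C₁ D₀ ε : ℝ} (hC₁ : 0 < C₁)
    (H : FaceOK3 B X h f C₁ D₀ ε k) (hf : ContinuousOn f (M.F k)) :
    ∃ t₀ > 0, ∀ {α : Type} {R : Fac K} {F : α → Set V} {N t : α → ℝ} {Φ : ConHomeo Λ Λ} {μ : ℝ}
      (a : α), M.F k ⊆ F a → Small3 W X R f F N t → IsSoft B μ R Φ → 0 ≤ μ → μ ≤ 1 → t a ≤ t₀ →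
      FaceEst h (fun x => Φ.toFun (f x)) (8 * C₁) D₀ ε k := by
  obtain ⟨T, b, h1, h2, h3⟩ := H
  obtain ⟨t₀, ht₀, h4⟩ := T.exists_eps hC₁ h2
  refine ⟨t₀, ht₀, fun a hF HS HΦ hμ hμ1 ht => ⟨T, b, h1, fun e he x hx => ?_⟩⟩
  have h5 := (h3 e he x hx).est HS HΦ hμ hμ1 ((T.cone_sub he).trans hF)
    (hf.mono (T.cone_sub he)) hx (T.con_nonneg hC₁.le (fun e he => (h2 e he).le) he)
    (ht.trans (h4 e he))
  filter_upwards [h5] with y hy
  rw [T.con_mul]
  exact hy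

/-- **(flip)** for squares -/
theorem FaceEst.flip {h g : V → V} {C₁ D₀ ε : ℝ} (H : FaceEst h g C₁ D₀ ε k) (hC₁ : 0 ≤ C₁)
    (hD₀ : 0 ≤ D₀) (hε : 0 < ε) {a : V} {l : Fin 3} {σ : ℝ} (hσ : 0 < σ)
    (hF : M.F k = sqr a l σ) {E' : Finset (V × V)} {ℓ : V × V → ℝ≥0∞} {L : ℝ}
    (hE' : H73.Adapted M k E')
    (hℓ : ∀ e ∈ E', len (onSeg h e) (Icc 0 1) ≤ ℓ e ∧
      ℓ e + ENNReal.ofReal ε ≤ ENNReal.ofReal (L * ‖e.2 - e.1‖)) :
    ∀ x ∈ M.F k, ∀ y ∈ M.F k, ‖g x - g y‖ ≤ C₁ * 13 * (D₀ * 2) * L * ‖x - y‖ := by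
  obtain ⟨T, b, h1, h2⟩ := H
  obtain ⟨t, ht, -, hb⟩ := h1.le
  obtain ⟨e₀, he₀⟩ := _root_.P073.H142.nonempty_of_adapted hE'
  have hL : 0 < L := by
    have h1 : 0 < ENNReal.ofReal (L * ‖e₀.2 - e₀.1‖) :=
      lt_of_lt_of_le (lt_of_lt_of_le (ENNReal.ofReal_pos.2 hε) le_add_self) (hℓ e₀ he₀).2
    have h2 := ENNReal.ofReal_pos.1 h1
    exact pos_of_mul_pos_left h2 (norm_nonneg _)
  have h3 : ∀ e, (edges M).seg e ⊆ M.F k →
      b e ≤ D₀ * 2 * L * ‖(edges M).b e - (edges M).a e‖ := by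
    intro e he
    have h4 := _root_.P073.H142.adC k h ε L E' ℓ hε.le hL.le hE' hℓ e he
    have h5 : ENNReal.ofReal (b e) ≤
        ENNReal.ofReal (D₀ * (2 * L * ‖(edges M).b e - (edges M).a e‖)) := by
      rw [ENNReal.ofReal_mul hD₀]
      refine (hb e he).trans (mul_le_mul_right ?_ _)
      exact (add_le_add le_rfl (ENNReal.ofReal_le_ofReal ht)).trans h4
    have h6 : 0 ≤ D₀ * (2 * L * ‖(edges M).b e - (edges M).a e‖) := by positivity
    calc b e ≤ D₀ * (2 * L * ‖(edges M).b e - (edges M).a e‖) :=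
          (ENNReal.ofReal_le_ofReal_iff h6).1 h5
      _ = _ := by ring
  obtain ⟨ν, t', hν, hpl⟩ := (M.fat k).plane
  have hcv : Convex ℝ (M.F k) := (H193.pgn_of_fat (M.fat k)).convex
  intro x hx y hy
  have h7 := T.star.ener_lip hcv hν hpl (g := g) (C := C₁) (K := D₀ * 2 * L) hC₁ (by positivity)
    (b := fun j => b (H155.ce T.C j)) (fun j _ => by
      rw [H155.norm_vv]; exact h3 _ (T.C.sub _))
    (fun j _ x hx y hy => by rw [dist_eq_norm, dist_eq_norm]; exact h2.cone j x hx y hy) hx hy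
  rw [dist_eq_norm, dist_eq_norm] at h7
  obtain ⟨-, h8, h9⟩ := T.sq a l σ hσ hF
  rw [h8, h9, div_self hσ.ne'] at h7
  refine h7.trans (le_of_eq ?_)
  ring

/-- **(face)** -/
theorem FaceEst.face {h g : V → V} {C₁ D₀ ε p : ℝ} (H : FaceEst h g C₁ D₀ ε k) (hC₁ : 0 ≤ C₁)
    (hD₀ : 0 ≤ D₀) (hp : 1 ≤ p) (hε : 0 < ε) :
    ∃ G : V → ℝ, LipBd g (M.F k) G ∧
    ∀ (E' : Finset (V × V)) (ℓ : V × V → ℝ≥0∞) (a : V) (l : Fin 3) (σ : ℝ), 0 < σ →
      M.F k = sqr a l σ → H73.Adapted M k E' → (∀ e ∈ E', len (onSeg h e) (Icc 0 1) ≤ ℓ e) →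
      ∫⁻ x in cube a σ, ENNReal.ofReal (G (Function.update x l (a l)) ^ p) ≤
        ENNReal.ofReal (_root_.P073.H155.dp p * (C₁ * D₀) ^ p * 2 ^ (p - 1) * σ ^ 2) *
        ∑ e ∈ E', ENNReal.ofReal (‖e.2 - e.1‖ ^ (1 - p)) *
          (ℓ e + ENNReal.ofReal (ε * ‖e.2 - e.1‖ / σ)) ^ p := by
  obtain ⟨T, b, h1, h2⟩ := H
  exact h2.face' hC₁ hD₀ hp hε h1

/-- the length of an edge is at least the distance of the images of the end points -/
theorem dist_le_len (h : V → V) (e : V × V) :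
    ENNReal.ofReal ‖h e.2 - h e.1‖ ≤ len (onSeg h e) (Icc 0 1) := by
  refine le_trans ?_ (_root_.P073.H926.var_le_len _ _)
  refine le_trans (le_of_eq ?_) (eVariationOn.edist_le (onSeg h e) (x := 1) (y := 0)
    (right_mem_Icc.2 zero_le_one) (left_mem_Icc.2 zero_le_one))
  rw [edist_dist, dist_eq_norm]
  unfold onSeg
  rw [one_smul, zero_smul, add_zero, add_sub_cancel]

/-- **faces of protected cells**: `h` multiplies all distances by `q` -/
theorem faceOK3_of_prot {h f : V → V} {C₁ D₀ D₁ ε q : ℝ} (hε : 0 < ε) (hq : 0 < q)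
    (hD₀ : 1 ≤ D₀) (hD₁ : D₁ ≤ C₁) (hC₁ : 0 ≤ C₁)
    (hh : ∀ x ∈ M.F k, ∀ y ∈ M.F k, ‖h x - h y‖ = q * ‖x - y‖)
    (hf : ∀ x ∈ M.F k, ∀ y ∈ M.F k, ‖f x - f y‖ ≤ D₁ * ‖h x - h y‖) :
    FaceOK3 B X h f C₁ D₀ ε k := by
  obtain ⟨T⟩ := _root_.P073.H142.exists_fstar (edges M) k
  have hpos : ∀ e, 0 < q * ‖(edges M).b e - (edges M).a e‖ := fun e =>
    mul_pos hq (_root_.P073.H142.elen_pos (edges M) e)
  refine ⟨T, fun e => q * ‖(edges M).b e - (edges M).a e‖, ⟨fun e _ => (hpos e).le,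
    ⟨0, hε.le, fun e he a l σ hσ _ => by positivity, fun e he => ?_⟩⟩, fun e _ => hpos e,
    fun e he x hx => Or.inl ?_⟩
  · rw [ENNReal.ofReal_zero, add_zero]
    have h1 := dist_le_len h ((edges M).a e, (edges M).b e)
    rw [hh _ (he (right_mem_segment ℝ _ _)) _ (he (left_mem_segment ℝ _ _))] at h1
    refine h1.trans ?_
    calc len (onSeg h ((edges M).a e, (edges M).b e)) (Icc 0 1) =
          1 * len (onSeg h ((edges M).a e, (edges M).b e)) (Icc 0 1) := (one_mul _).symm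
      _ ≤ _ := by
        refine mul_le_mul_left ?_ _
        rw [← ENNReal.ofReal_one]
        exact ENNReal.ofReal_le_ofReal hD₀
  · filter_upwards [self_mem_nhdsWithin] with y hy
    have h1 := hf y (T.cone_sub he hy) x (T.cone_sub he hx)
    rw [hh y (T.cone_sub he hy) x (T.cone_sub he hx)] at h1
    refine h1.trans ?_
    have h2 : C₁ * q ≤ T.con C₁ (fun e => q * ‖(edges M).b e - (edges M).a e‖) e := by
      unfold FStar.con
      rw [mul_div_assoc, div_self (_root_.P073.H142.elen_pos (edges M) e).ne', mul_one]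
      refine mul_le_mul_of_nonneg_left (le_add_of_nonneg_right ?_) hC₁
      exact div_nonneg (Finset.sum_nonneg fun e _ => (hpos e).le) T.rho_pos.le
    calc D₁ * (q * ‖y - x‖) ≤ C₁ * (q * ‖y - x‖) :=
          mul_le_mul_of_nonneg_right hD₁ (by positivity)
      _ = C₁ * q * ‖y - x‖ := by ring
      _ ≤ _ := mul_le_mul_of_nonneg_right h2 (norm_nonneg _)

/-! ### The edges -/

/-- an edge of the mesh in the sense of `H304` is an edge in the sense of `H193` -/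
theorem exists_edge {e : V × V} (he : H304.IsEdge M e) : ∃ e' : (edges M).ε,
    (edges M).seg e' = segment ℝ e.1 e.2 ∧
    ‖(edges M).b e' - (edges M).a e'‖ = ‖e.2 - e.1‖ ∧
    ∀ h : V → V, len (onSeg h ((edges M).a e', (edges M).b e')) (Icc 0 1) =
      len (onSeg h e) (Icc 0 1) := by
  obtain ⟨e', he'⟩ : ∃ e' : (edges M).ε,
      segment ℝ ((edges M).a e') ((edges M).b e') = segment ℝ e.1 e.2 := by
    rcases _root_.P073.H950.isEdge_iff.1 he with h1 | h1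
    · exact ⟨⟨(e.1, e.2), h1⟩, rfl⟩
    · exact ⟨⟨(e.2, e.1), h1⟩, segment_symm ℝ _ _⟩
  exact ⟨e', he', _root_.P073.H950.norm_eq_of_seg_eq (e := ((edges M).a e', (edges M).b e'))
    (e' := e) he', fun h => _root_.P073.H950.len_eq_of_seg_eq
      (e := ((edges M).a e', (edges M).b e')) (e' := e) ((edges M).ne e') he.ne he' h⟩

/-- the estimate for the map `f` (before the collapse) on the edge `e`: length. `w` is a tiny
number. -/
def EdgeOK3 (B : Boxes W) (X : PSet K) (P : Set M.ι) (h f : V → V) (D₀ w : ℝ)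
    (e : (edges M).ε) : Prop :=
  (∃ i ∈ P, (edges M).seg e ⊆ M.Q i) ∨ EqOn f h ((edges M).seg e) ∨
  InZone B X f ((edges M).seg e) fun j =>
    eVariationOn (fun s => onSeg f ((edges M).a e, (edges M).b e) s j) (Icc 0 1) ≤
      ENNReal.ofReal D₀ * len (onSeg h ((edges M).a e, (edges M).b e)) (Icc 0 1) +
        ENNReal.ofReal w

/-- **(edge)** -/
theorem EdgeOK3.len_le {P : Set M.ι} {h f : V → V} {D₀ D₁ w : ℝ} {e : (edges M).ε}
    (H : EdgeOK3 B X P h f D₀ w e) (hD₀ : 0 ≤ D₀) (hD₁ : 0 ≤ D₁) (hw : 0 ≤ w)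
    (hprot : ∀ i ∈ P, ∀ x ∈ M.Q i, ∀ y ∈ M.Q i, ‖f x - f y‖ ≤ D₁ * ‖h x - h y‖)
    (HS : Small3 W X R f F N t) (HΦ : IsSoft B μ R Φ) (hμ : 0 ≤ μ) (hμ1 : μ ≤ 1)
    (hF : (edges M).seg e ⊆ F a) (ht0 : 0 ≤ t a) (ht : t a ≤ w) :
    len (onSeg (fun x => Φ.toFun (f x)) ((edges M).a e, (edges M).b e)) (Icc 0 1) ≤
      ENNReal.ofReal (8 * (1 + D₀ + D₁)) *
        len (onSeg h ((edges M).a e, (edges M).b e)) (Icc 0 1) + ENNReal.ofReal (10 * w) := by
  have e8 : ENNReal.ofReal 8 = 8 := by norm_num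
  rcases H with ⟨i, hi, h1⟩ | h1 | h1
  · refine (len_le_of_lip (h := h) (c := 4 * D₁) (by positivity) fun x hx y hy => ?_).trans ?_
    · refine (HΦ.lip _ _).trans ?_
      have := hprot i hi x (h1 hx) y (h1 hy)
      linarith
    · refine le_add_right (mul_le_mul_left (ENNReal.ofReal_le_ofReal ?_) _)
      linarith
  · refine (len_le_of_lip (h := h) (c := 4) (by norm_num) fun x hx y hy => ?_).trans ?_
    · refine (HΦ.lip _ _).trans ?_
      rw [h1 hx, h1 hy]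
    · refine le_add_right (mul_le_mul_left (ENNReal.ofReal_le_ofReal ?_) _)
      linarith
  · refine (InZone.len HS HΦ hμ hμ1 (e := ((edges M).a e, (edges M).b e)) hF ht0 h1).trans ?_
    rw [mul_add, ← mul_assoc, ← e8, ← ENNReal.ofReal_mul (by norm_num), add_assoc,
      ← ENNReal.ofReal_mul (by norm_num), ← ENNReal.ofReal_add (by positivity) (by positivity)]
    refine add_le_add (mul_le_mul_left (ENNReal.ofReal_le_ofReal ?_) _)
      (ENNReal.ofReal_le_ofReal ?_)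
    · linarith
    · linarith

/-- the local estimates on the edge `e` -/
def ElipOK3 (B : Boxes W) (X : PSet K) (h f : V → V) (C₁ D₀ ε : ℝ) (e : (edges M).ε) : Prop :=
  ∃ b > 0, ENNReal.ofReal b ≤ ENNReal.ofReal D₀ *
      (len (onSeg h ((edges M).a e, (edges M).b e)) (Icc 0 1) + ENNReal.ofReal ε) ∧
    ∀ x ∈ (edges M).seg e, LAt B X (C₁ * (b / ‖(edges M).b e - (edges M).a e‖))
      ((edges M).seg e) f x

/-- **(elip)** -/
theorem exists_elip {h f : V → V} {C₁ D₀ ε : ℝ} {e : (edges M).ε} (hC₁ : 0 < C₁) (hD₀ : 0 ≤ D₀)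
    (hε : 0 < ε) (H : ElipOK3 B X h f C₁ D₀ ε e) (hf : ContinuousOn f ((edges M).seg e)) :
    ∃ t₀ > 0, ∀ {α : Type} {R : Fac K} {F : α → Set V} {N t : α → ℝ} {Φ : ConHomeo Λ Λ} {μ : ℝ}
      (a : α), (edges M).seg e ⊆ F a → Small3 W X R f F N t → IsSoft B μ R Φ → 0 ≤ μ → μ ≤ 1 →
      t a ≤ t₀ → ∀ ℓ : ℝ, 0 ≤ ℓ →
      len (onSeg h ((edges M).a e, (edges M).b e)) (Icc 0 1) ≤ ENNReal.ofReal ℓ →
      ∀ x ∈ (edges M).seg e, ∀ y ∈ (edges M).seg e,
      ‖Φ.toFun (f x) - Φ.toFun (f y)‖ ≤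
        8 * C₁ * D₀ * ((ℓ + ε) / ‖(edges M).b e - (edges M).a e‖) * ‖x - y‖ := by
  obtain ⟨b, hb0, hb, h1⟩ := H
  have hpos := _root_.P073.H142.elen_pos (edges M) e
  refine ⟨C₁ * (b / ‖(edges M).b e - (edges M).a e‖), by positivity,
    @fun α R F N t Φ μ a hF HS HΦ hμ hμ1 ht ℓ hℓ hlen x hx y hy => ?_⟩
  have h2 := _root_.P073.H142.lip_of_local (g := fun x => Φ.toFun (f x))
    (convex_segment ((edges M).a e) ((edges M).b e)) (fun x hx => (h1 x hx).est HS HΦ hμ hμ1 hF hf hx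
      (by positivity) ht) x hx y hy
  refine h2.trans (mul_le_mul_of_nonneg_right ?_ (norm_nonneg _))
  have h3 : b ≤ D₀ * (ℓ + ε) := by
    have h4 : ENNReal.ofReal b ≤ ENNReal.ofReal (D₀ * (ℓ + ε)) := by
      rw [ENNReal.ofReal_mul hD₀, ENNReal.ofReal_add hℓ hε.le]
      refine hb.trans ?_
      gcongr
    exact (ENNReal.ofReal_le_ofReal_iff (by positivity)).1 h4
  calc 8 * (C₁ * (b / ‖(edges M).b e - (edges M).a e‖))
      ≤ 8 * (C₁ * (D₀ * (ℓ + ε) / ‖(edges M).b e - (edges M).a e‖)) := by gcongr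
    _ = _ := by ring

end Vale.Agent.P073.H233
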