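import Vale.Agent.P073.H193.CellQ
import Vale.Agent.P073.H579.PolyPath

/-!
# P073, block H233: on a square face the path clause follows from the cone clause

* `CChn T b C₁ x y L`: a chain of segments in the cones from `x` to `y` of total cost `L`;
* `chn_face`: any two points of a square face are joined by a chain of cost `55 C₁ ∑ b`;
* `path_of_cone`, `FaceCl.of_cone`: the path clause.
-/

open Set Metric Topology Filter
open scoped ENNReal

namespace Vale.Agent.P073.H233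

open _root_.P073
open Vale.Agent.P073.St (V)
open Vale.Agent.P073.H73 (Mesh sqr onSeg)
open Vale.Agent.P073.H193 (Edges edges Cyc le_perim FaceCl)
open Vale.Agent.P073.H155 (vv ce seg_vv norm_vv sum_ce)
open _root_.P073.H142 (FStar convex_cone_seg)
open _root_.P073.H880 (cvar)
open _root_.P073.H950 (bsum)

variable {Ω : Set V} {M : Mesh Ω} {k : M.κ}

/-- a chain of segments in the cones over the edges, of total cost `L` -/
inductive CChn (T : FStar (edges M) k) (b : (edges M).ε → ℝ) (C₁ : ℝ) : V → V → ℝ → Prop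
  | refl (x : V) : x ∈ M.F k → CChn T b C₁ x x 0
  | cons {x y z : V} {L : ℝ} (e : (edges M).ε) : (edges M).seg e ⊆ M.F k →
      x ∈ coneSetAt T.O ((edges M).seg e) → y ∈ coneSetAt T.O ((edges M).seg e) →
      CChn T b C₁ y z L → CChn T b C₁ x z (T.con C₁ b e * ‖x - y‖ + L)

section chn

variable {T : FStar (edges M) k} {b : (edges M).ε → ℝ} {C₁ : ℝ} {x y z : V} {L L' : ℝ}

theorem CChn.left (H : CChn T b C₁ x y L) : x ∈ M.F k := by
  cases H with
  | refl _ h => exact h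
  | cons e he hx hy _ => exact T.cone_sub he hx

theorem CChn.trans (H : CChn T b C₁ x y L) (H' : CChn T b C₁ y z L') :
    CChn T b C₁ x z (L + L') := by
  induction H with
  | refl x _ => rwa [zero_add]
  | cons e he hx hy _ ih =>
    rw [add_assoc]
    exact CChn.cons e he hx hy (ih H')

theorem CChn.one {e : (edges M).ε} (he : (edges M).seg e ⊆ M.F k)
    (hx : x ∈ coneSetAt T.O ((edges M).seg e)) (hy : y ∈ coneSetAt T.O ((edges M).seg e)) :
    CChn T b C₁ x y (T.con C₁ b e * ‖x - y‖) := by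
  have := CChn.cons (b := b) (C₁ := C₁) e he hx hy (CChn.refl y (T.cone_sub he hy))
  rwa [add_zero] at this

theorem CChn.symm (H : CChn T b C₁ x y L) : CChn T b C₁ y x L := by
  induction H with
  | refl x h => exact CChn.refl x h
  | cons e he hx hy _ ih =>
    rw [add_comm, norm_sub_rev]
    exact ih.trans (CChn.one he hy hx)

/-- the points of a chain -/
theorem CChn.exists_pts (H : CChn T b C₁ x y L) : ∃ (N : ℕ) (z : ℕ → V) (e : ℕ → (edges M).ε),
    z 0 = x ∧ z N = y ∧ (∀ i ≤ N, z i ∈ M.F k) ∧ (∀ i < N, (edges M).seg (e i) ⊆ M.F k ∧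
      z i ∈ coneSetAt T.O ((edges M).seg (e i)) ∧
      z (i + 1) ∈ coneSetAt T.O ((edges M).seg (e i))) ∧
    ∑ i ∈ Finset.range N, T.con C₁ b (e i) * ‖z i - z (i + 1)‖ = L := by
  induction H with
  | refl x h =>
    refine ⟨0, fun _ => x, fun _ => ce T.C 0, rfl, rfl, fun _ _ => h, fun i hi => by omega, by simp⟩
  | @cons x y z L e he hx hy _ ih =>
    obtain ⟨N, p, f, h0, hN, hF, hc, hs⟩ := ih
    refine ⟨N + 1, fun i => if i = 0 then x else p (i - 1), fun i => if i = 0 then e else f (i - 1),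
      by simp, by simpa using hN, ?_, ?_, ?_⟩
    · intro i hi
      rcases Nat.eq_zero_or_pos i with rfl | hi0
      · simpa using T.cone_sub he hx
      · obtain ⟨i', rfl⟩ : ∃ i', i = i' + 1 := ⟨i - 1, by omega⟩
        simpa using hF i' (by omega)
    · intro i hi
      rcases Nat.eq_zero_or_pos i with rfl | hi0
      · simpa [h0] using ⟨he, hx, hy⟩
      · obtain ⟨i', rfl⟩ : ∃ i', i = i' + 1 := ⟨i - 1, by omega⟩
        simpa using hc i' (by omega)
    · rw [Finset.sum_range_succ']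
      simp only [Nat.add_eq_zero_iff, one_ne_zero, and_false, if_false, Nat.add_sub_cancel,
        if_true, Nat.zero_add]
      rw [hs, h0, add_comm]

/-- **the path of a chain** -/
theorem CChn.exists_path (H : CChn T b C₁ x y L) (hC₁ : 0 ≤ C₁)
    (hb : ∀ e, (edges M).seg e ⊆ M.F k → 0 ≤ b e) :
    ∃ γ : ℝ → V, ContinuousOn γ (Icc 0 3) ∧ MapsTo γ (Icc 0 3) (M.F k) ∧ γ 0 = x ∧ γ 3 = y ∧
      ∀ cst : V → V → ℝ, (∀ x, cst x x = 0) →
      (∀ x ∈ M.F k, ∀ y ∈ M.F k, ∀ z ∈ M.F k, cst x z ≤ cst x y + cst y z) →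
      (∀ e, (edges M).seg e ⊆ M.F k → ∀ x ∈ coneSetAt T.O ((edges M).seg e),
        ∀ y ∈ coneSetAt T.O ((edges M).seg e), cst x y ≤ T.con C₁ b e * ‖x - y‖) →
      cvar (fun s t => ENNReal.ofReal (cst (γ s) (γ t))) 0 3 ≤ ENNReal.ofReal L := by
  obtain ⟨N, z, e, h0, hN, hF, hc, hs⟩ := H.exists_pts
  have hcv : Convex ℝ (M.F k) := (H193.pgn_of_fat (M.fat k)).convex
  obtain ⟨γ, g1, g2, g3, g4, g5⟩ := _root_.P073.H579.exists_poly hcv z N hF
  refine ⟨γ, g1, g2, by rw [g3, h0], by rw [g4, hN], fun cst c0 ctri hcone => ?_⟩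
  have h1 := g5 (fun x y => ENNReal.ofReal (cst x y)) (fun x hx y hy w hw =>
    (ENNReal.ofReal_le_ofReal (ctri x hx y hy w hw)).trans ENNReal.ofReal_add_le)
    (fun x => by rw [c0 x, ENNReal.ofReal_zero])
    (fun i => ENNReal.ofReal (T.con C₁ b (e i) * ‖z i - z (i + 1)‖)) ?_
  · refine h1.trans (le_of_eq ?_)
    rw [← ENNReal.ofReal_sum_of_nonneg, hs]
    intro i hi
    exact mul_nonneg (T.con_nonneg hC₁ hb (hc i (Finset.mem_range.1 hi)).1) (norm_nonneg _)
  · intro i hi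
    refine (_root_.P073.H579.cvar_le_lip (K := ENNReal.ofReal (T.con C₁ b (e i) *
      ‖z i - z (i + 1)‖)) zero_le_one fun s hs' t ht hst => ?_).trans (by simp)
    obtain ⟨h2, h3, h4⟩ := hc i hi
    have hcc := convex_cone_seg T.O (e i)
    have m1 := hcc.lineMap_mem h3 h4 hs'
    have m2 := hcc.lineMap_mem h3 h4 ht
    have h5 := hcone (e i) h2 _ m1 _ m2
    rw [← ENNReal.ofReal_mul (by linarith : 0 ≤ t - s)]
    refine ENNReal.ofReal_le_ofReal (h5.trans (le_of_eq ?_))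
    have e1 : ‖(AffineMap.lineMap (z i) (z (i + 1)) s : V) -
        AffineMap.lineMap (z i) (z (i + 1)) t‖ = (t - s) * ‖z i - z (i + 1)‖ := by
      rw [AffineMap.lineMap_apply, AffineMap.lineMap_apply, vsub_eq_sub, vadd_eq_add, vadd_eq_add,
        add_sub_add_right_eq_sub, ← sub_smul, norm_smul, Real.norm_eq_abs, abs_sub_comm,
        abs_of_nonneg (by linarith : 0 ≤ t - s), norm_sub_rev]
    rw [e1]
    ring

end chn

/-- **chains in a square face**: around the scaled boundary, then radially over the edge with the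
smallest slope -/
theorem chn_face {T : FStar (edges M) k} {a : V} {l : Fin 3} {σ : ℝ} (hσ : 0 < σ)
    (hF : M.F k = sqr a l σ) {C₁ : ℝ} {b : (edges M).ε → ℝ} (hC₁ : 0 ≤ C₁)
    (hb : ∀ e, (edges M).seg e ⊆ M.F k → 0 ≤ b e) :
    ∀ x ∈ M.F k, ∀ y ∈ M.F k, ∃ L ≤ 55 * C₁ * bsum M k b, CChn T b C₁ x y L := by
  set n := T.C.n + 1 with hn
  set B := bsum M k b with hB
  set e : ℕ → (edges M).ε := fun j => ce T.C j with he
  set v : ℕ → V := vv T.C with hv
  set per : ℝ := ∑ j ∈ Finset.range n, ‖(edges M).b (e j) - (edges M).a (e j)‖ with hper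
  have hsub : ∀ j, (edges M).seg (e j) ⊆ M.F k := fun j => T.C.sub _
  have hseg : ∀ j, (edges M).seg (e j) = segment ℝ (v j) (v (j + 1)) := fun j => seg_vv T.C j
  have hpos : ∀ j, 0 < ‖(edges M).b (e j) - (edges M).a (e j)‖ := fun j =>
    _root_.P073.H142.elen_pos (edges M) (e j)
  have hper1 : 2 * σ ≤ per := by
    have := le_perim T hσ hF
    rwa [← sum_ce T.C fun e => ‖(edges M).b e - (edges M).a e‖] at this
  have hper2 : per ≤ 12 * σ := by
    have := _root_.P073.H950.perim_face T hσ hF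
    rwa [← sum_ce T.C fun e => ‖(edges M).b e - (edges M).a e‖] at this
  have hBsum : ∑ j ∈ Finset.range n, b (e j) = B := sum_ce T.C b
  have hbj : ∀ j, 0 ≤ b (e j) := fun j => hb _ (hsub j)
  have hB0 : 0 ≤ B := by
    rw [← hBsum]
    exact Finset.sum_nonneg fun j _ => hbj j
  obtain ⟨hO, hrho, hR⟩ := T.sq a l σ hσ hF
  have hcon : ∀ j, T.con C₁ b (e j) =
      C₁ * (b (e j) / ‖(edges M).b (e j) - (edges M).a (e j)‖ + B / σ) := by
    intro j
    unfold FStar.con
    rw [hrho, hB]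
    rfl
  have hcon0 : ∀ j, 0 ≤ T.con C₁ b (e j) := fun j => T.con_nonneg hC₁ hb (hsub j)
  set c : ℕ → ℝ := fun j => T.con C₁ b (e j) * ‖(edges M).b (e j) - (edges M).a (e j)‖ with hc
  have hc0 : ∀ j, 0 ≤ c j := fun j => mul_nonneg (hcon0 j) (hpos j).le
  have hcj : ∀ j, c j = C₁ * (b (e j) +
      ‖(edges M).b (e j) - (edges M).a (e j)‖ * (B / σ)) := by
    intro j
    have := (hpos j).ne'
    simp only [hc]
    rw [hcon j]
    field_simp
  have hcsum : ∑ j ∈ Finset.range n, c j ≤ 13 * C₁ * B := by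
    have h1 : ∑ j ∈ Finset.range n, c j = C₁ * (B + per * (B / σ)) := by
      rw [Finset.sum_congr rfl fun j _ => hcj j, ← Finset.mul_sum, Finset.sum_add_distrib, hBsum,
        hper, Finset.sum_mul]
    rw [h1]
    have h2 : per * (B / σ) ≤ 12 * B := by
      calc per * (B / σ) ≤ 12 * σ * (B / σ) := by gcongr
        _ = 12 * B := by field_simp
    nlinarith [mul_le_mul_of_nonneg_left h2 hC₁]
  obtain ⟨m, hm, hbest⟩ : ∃ m ∈ Finset.range n,
      b (e m) * per ≤ ‖(edges M).b (e m) - (edges M).a (e m)‖ * B := by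
    refine Finset.exists_le_of_sum_le ⟨0, Finset.mem_range.2 (by omega)⟩ (le_of_eq ?_)
    rw [← Finset.sum_mul, ← Finset.sum_mul, hBsum, ← hper, mul_comm]
  rw [Finset.mem_range] at hm
  have hconm : T.con C₁ b (e m) * σ ≤ 3 / 2 * C₁ * B := by
    rw [hcon m]
    have hp := hpos m
    have h1 : b (e m) / ‖(edges M).b (e m) - (edges M).a (e m)‖ ≤ B / (2 * σ) := by
      rw [div_le_div_iff₀ hp (by positivity)]
      calc b (e m) * (2 * σ) ≤ b (e m) * per := mul_le_mul_of_nonneg_left hper1 (hbj m)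
        _ ≤ _ := hbest
        _ = _ := mul_comm _ _
    calc C₁ * (b (e m) / ‖(edges M).b (e m) - (edges M).a (e m)‖ + B / σ) * σ ≤
          C₁ * (B / (2 * σ) + B / σ) * σ := by gcongr
      _ = 3 / 2 * C₁ * B := by field_simp; ring
  have key : ∀ x ∈ M.F k, ∃ L ≤ 55 / 2 * C₁ * B, CChn T b C₁ x T.O L := by
    intro x hx
    obtain ⟨j, hj, t, ht, z, hz, rfl⟩ := T.star.exists_cn hx
    have hz' : z ∈ (edges M).seg (e j) := by rw [hseg]; exact hz
    set φ : V → V := fun z => T.O + t • (z - T.O) with hφ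
    have hmem : ∀ i, ∀ z ∈ (edges M).seg (e i),
        φ z ∈ coneSetAt T.O ((edges M).seg (e i)) := fun i z hz => ⟨t, ht, z, hz, rfl⟩
    have hedge : ∀ i, ∀ z ∈ (edges M).seg (e i), ∀ z' ∈ (edges M).seg (e i),
        ∃ L ≤ c i, CChn T b C₁ (φ z) (φ z') L := by
      intro i z hz z' hz'
      refine ⟨_, ?_, CChn.one (hsub i) (hmem i z hz) (hmem i z' hz')⟩
      simp only [hc]
      refine mul_le_mul_of_nonneg_left ?_ (hcon0 i)
      have e1 : φ z - φ z' = t • (z - z') := by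
        simp only [hφ]
        module
      rw [e1, norm_smul, Real.norm_of_nonneg ht.1]
      have e2 : ‖z - z'‖ ≤ ‖(edges M).b (e i) - (edges M).a (e i)‖ := by
        have h1 : z ∈ segment ℝ ((edges M).a (e i)) ((edges M).b (e i)) := hz
        have h2 : z' ∈ segment ℝ ((edges M).a (e i)) ((edges M).b (e i)) := hz'
        rw [segment_eq_image'] at h1 h2
        obtain ⟨s, hs, rfl⟩ := h1
        obtain ⟨s', hs', rfl⟩ := h2
        have e3 : (edges M).a (e i) + s • ((edges M).b (e i) - (edges M).a (e i)) -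
            ((edges M).a (e i) + s' • ((edges M).b (e i) - (edges M).a (e i))) =
            (s - s') • ((edges M).b (e i) - (edges M).a (e i)) := by module
        rw [e3, norm_smul, Real.norm_eq_abs]
        have : |s - s'| ≤ 1 := abs_le.2 ⟨by linarith [hs.1, hs'.2], by linarith [hs.2, hs'.1]⟩
        exact mul_le_of_le_one_left (norm_nonneg _) this
      calc t * ‖z - z'‖ ≤ 1 * ‖z - z'‖ := mul_le_mul_of_nonneg_right ht.2 (norm_nonneg _)
        _ ≤ _ := by rw [one_mul]; exact e2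
    have hl : ∀ i, v i ∈ (edges M).seg (e i) := fun i => by
      rw [hseg]; exact left_mem_segment ℝ _ _
    have hr : ∀ i, v (i + 1) ∈ (edges M).seg (e i) := fun i => by
      rw [hseg]; exact right_mem_segment ℝ _ _
    have hchain : ∀ i, ∃ L ≤ ∑ i' ∈ Finset.range i, c i', CChn T b C₁ (φ (v i)) (φ (v 0)) L := by
      intro i
      induction i with
      | zero => exact ⟨0, by simp, CChn.refl _ (T.cone_sub (hsub 0) (hmem 0 _ (hl 0)))⟩
      | succ i ih =>
        obtain ⟨L, hL, h1⟩ := ih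
        obtain ⟨L', hL', h2⟩ := hedge i _ (hr i) _ (hl i)
        refine ⟨L' + L, ?_, h2.trans h1⟩
        rw [Finset.sum_range_succ]
        linarith
    have hpart : ∀ i, i < n → ∑ i' ∈ Finset.range i, c i' + c i ≤ 13 * C₁ * B := by
      intro i hi
      rw [← Finset.sum_range_succ]
      refine (Finset.sum_le_sum_of_subset_of_nonneg (fun x hx => ?_)
        fun j _ _ => hc0 j).trans hcsum
      rw [Finset.mem_range] at hx ⊢
      omega
    obtain ⟨L₁, hL₁, h1⟩ := hedge j z hz' _ (hl j)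
    obtain ⟨L₂, hL₂, h2⟩ := hchain j
    obtain ⟨L₃, hL₃, h3⟩ := hchain m
    have hOm : T.O ∈ coneSetAt T.O ((edges M).seg (e m)) :=
      ⟨0, ⟨le_rfl, zero_le_one⟩, v m, hl m, by rw [zero_smul, add_zero]⟩
    have h4 := CChn.one (b := b) (C₁ := C₁) (hsub m) (hmem m _ (hl m)) hOm
    have h5 : T.con C₁ b (e m) * ‖φ (v m) - T.O‖ ≤ 3 / 2 * C₁ * B := by
      refine le_trans ?_ hconm
      refine mul_le_mul_of_nonneg_left ?_ (hcon0 m)
      simp only [hφ]
      rw [add_sub_cancel_left, norm_smul, Real.norm_of_nonneg ht.1]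
      have h4 := T.star.R m hm.le
      rw [hR] at h4
      calc t * ‖v m - T.O‖ ≤ 1 * ‖v m - T.O‖ :=
            mul_le_mul_of_nonneg_right ht.2 (norm_nonneg _)
        _ ≤ σ := by rw [one_mul]; exact h4
    refine ⟨_, ?_, ((h1.trans h2).trans h3.symm).trans h4⟩
    have h6 := hpart j hj
    have h7 := hpart m hm
    have h8 := hc0 m
    have h9 : 0 ≤ C₁ * B := mul_nonneg hC₁ hB0
    linarith
  intro x hx y hy
  obtain ⟨L, hL, h1⟩ := key x hx
  obtain ⟨L', hL', h2⟩ := key y hy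
  exact ⟨L + L', by linarith, h1.trans h2.symm⟩

/-- **[PATHV]** on a square face the path clause follows from the cone clause -/
theorem path_of_cone (T : FStar (edges M) k) {a : V} {l : Fin 3} {σ : ℝ} (hσ : 0 < σ)
    (hF : M.F k = sqr a l σ) {C₁ : ℝ} {b : (edges M).ε → ℝ} (hC₁ : 0 ≤ C₁)
    (hb : ∀ e, (edges M).seg e ⊆ M.F k → 0 ≤ b e) {cst : V → V → ℝ} (c0 : ∀ x, cst x x = 0)
    (ctri : ∀ x ∈ M.F k, ∀ y ∈ M.F k, ∀ z ∈ M.F k, cst x z ≤ cst x y + cst y z)
    (hcone : ∀ e, (edges M).seg e ⊆ M.F k → ∀ x ∈ coneSetAt T.O ((edges M).seg e),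
      ∀ y ∈ coneSetAt T.O ((edges M).seg e), cst x y ≤ T.con C₁ b e * ‖x - y‖) :
    ∀ x ∈ M.F k, ∀ y ∈ M.F k, ∃ γ : ℝ → V, ContinuousOn γ (Icc 0 3) ∧
      MapsTo γ (Icc 0 3) (M.F k) ∧ γ 0 = x ∧ γ 3 = y ∧
      cvar (fun s t => ENNReal.ofReal (cst (γ s) (γ t))) 0 3 ≤
        ENNReal.ofReal (55 * C₁ * bsum M k b) := by
  intro x hx y hy
  obtain ⟨L, hL, h1⟩ := chn_face (T := T) hσ hF hC₁ hb x hx y hy
  obtain ⟨γ, g1, g2, g3, g4, g5⟩ := h1.exists_path hC₁ hb
  exact ⟨γ, g1, g2, g3, g4, (g5 cst c0 ctri hcone).trans (ENNReal.ofReal_le_ofReal hL)⟩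

/-- the clauses of a face from the cone clause -/
theorem FaceCl.of_cone {T : FStar (edges M) k} {a : V} {l : Fin 3} {σ : ℝ} (hσ : 0 < σ)
    (hF : M.F k = sqr a l σ) {C₁ : ℝ} {b : (edges M).ε → ℝ} (hC₁ : 0 ≤ C₁)
    (hb : ∀ e, (edges M).seg e ⊆ M.F k → 0 ≤ b e) {cst : V → V → ℝ} (c0 : ∀ x, cst x x = 0)
    (ctri : ∀ x ∈ M.F k, ∀ y ∈ M.F k, ∀ z ∈ M.F k, cst x z ≤ cst x y + cst y z)
    (hcone : ∀ e, (edges M).seg e ⊆ M.F k → ∀ x ∈ coneSetAt T.O ((edges M).seg e),
      ∀ y ∈ coneSetAt T.O ((edges M).seg e), cst x y ≤ T.con C₁ b e * ‖x - y‖) :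
    FaceCl M k T b C₁ (55 * C₁) cst :=
  ⟨hcone, path_of_cone T hσ hF hC₁ hb c0 ctri hcone⟩

end Vale.Agent.P073.H233
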