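import Vale.Agent.P073.H233.Tail3H

/-!
# P073, block H233, [K3-TAIL], part I: `Out` and `SharpOut` from the last map before the collapse
-/

open Set Metric Topology Filter MeasureTheory
open scoped ENNReal

namespace Vale.Agent.P073.H233

open _root_.P073 _root_.P073.Net _root_.P073.PA691 _root_.P073.TM
open Vale.Agent.P073.St (V)
open Vale.Agent.P073.SQ (cube ev)
open Vale.Agent.P073.AB (Idx squ)
open Vale.Agent.P073.H471 Vale.Agent.P073.H267 Vale.Agent.P073.H926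
open Vale.Agent.P073.H212 (IsSoft KE)
open Vale.Agent.P073.H73 (Mesh sqr onSeg)
open Vale.Agent.P073.H193 (Edges edges)
open Vale.Agent.P073.H304 (LipBd Cst Nb IsEdge Small Plate Out Zmax)
open _root_.P073.H142 (FStar Num AdC)

variable {c₀ n δ : ℝ} {j : ℕ} {Ω Λ : Set V} {v w : V} {ρ : V → ℝ} {M : Mesh Ω}
  {h : ConHomeo Ω Λ} {J₀ J : Set (ℕ × (Fin 3 → ℤ))} {P Z Z₀ : Set M.ι} {K : BoxCx Λ w}
  {p D' Dc A C₁ C₁' D₀ D₁ : ℝ} {Ps : M.ι → ConHomeo Λ Λ → Prop} {Y : Set M.κ}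
  {ε : M.κ → ℝ} {om εL : (edges M).ε → ℝ} {lam osc : M.ι → ℝ}

/-- the processed squares, edges, vertices -/
def Xp (C : Cells ρ w K) (J₀ : Set (ℕ × (Fin 3 → ℤ))) : PSet K := ⟨pS C J₀, pG C J₀, pW C J₀⟩

/-- **the properties of the soft collapse** -/
def SoftQ (D : KIn3 c₀ n j δ v w ρ M h J₀ J P Z₀) (C : Cells ρ w K) (R : Fac K)
    (Φ : ConHomeo Λ Λ) : Prop :=
  FacOne (Xp C J₀) R ∧ IsSoft1 (D.B C) (20 / (1 / μN n)) R Φ ∧
  ∀ y, (∀ s ∈ pS C J₀, y ∉ (D.W C).ss s) → (∀ e ∈ pG C J₀, y ∉ KE (D.B C) (1 / μN n) e) →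
    (∀ i ∈ pW C J₀, y ∉ closedBall (K.w i) ((D.W C).wv i + 1 / μN n * (D.W C).wv i)) →
    Φ.toFun y = y

theorem exists_softQ (D : KIn3 c₀ n j δ v w ρ M h J₀ J P Z₀) (C : Cells ρ w K) {R : Fac K}
    (hR : FacOne (Xp C J₀) R) : ∃ Φ : ConHomeo Λ Λ, SoftQ D C R Φ := by
  obtain ⟨Φ, h1, h2⟩ := exists_soft1_off (TM.isOpen_Λ D.hρ) (D.softN C) R
  refine ⟨Φ, hR, h1, fun y h3 h4 h5 => h2 y (fun s hs => h3 s ?_) (fun e he => h4 e ?_)
    fun i hi => h5 i ?_⟩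
  · by_contra hcon
    exact hs (hR.s s hcon)
  · by_contra hcon
    exact he (hR.e e hcon)
  · by_contra hcon
    exact hi (hR.v i hcon)

/-- the collapse changes nothing away from the boundaries of the processed tiles -/
theorem SoftQ.off {D : KIn3 c₀ n j δ v w ρ M h J₀ J P Z₀} {C : Cells ρ w K} {R : Fac K}
    {Φ : ConHomeo Λ Λ} (H : SoftQ D C R Φ) {y : V} (hy : y ∉ Nb w J₀ c₀) : Φ.toFun y = y := by
  obtain ⟨h1, h2, h3⟩ := D.supp_soft C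
  exact H.2.2 y (fun s hs hys => hy (h1 s hs hys)) (fun e he hye => hy (h2 e he hye))
    fun i hi hyi => hy (h3 i hi hyi)

theorem soft_mu (D : KIn3 c₀ n j δ v w ρ M h J₀ J P Z₀) :
    0 ≤ 20 / (1 / μN n) ∧ 20 / (1 / μN n) ≤ 1 := by
  have h1 := μN_pos D.pos
  have h2 := D.nle
  have h3 := D.le
  have e : 20 / (1 / μN n) = 20 * μN n := by field_simp
  rw [e]
  refine ⟨by positivity, ?_⟩
  unfold μN
  linarith

/-- the maps on the protected cells multiply all distances by a constant -/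
theorem diag_of (D : KIn3 c₀ n j δ v w ρ M h J₀ J P Z₀) : ∀ i ∈ P, ∃ q > 0,
    ∀ x ∈ M.Q i, ∀ y ∈ M.Q i, ‖h.toFun x - h.toFun y‖ = q * ‖x - y‖ := by
  intro i hi
  obtain ⟨t, -, a, r, s, hr, hs, -, hh⟩ := D.inp.prot i hi
  have hη := D.η_le_one
  set q : ℝ := (1 - 1 / 2 ^ j) / 2 / 2 ^ t.1 / r with hq
  have hq0 : 0 < q := by
    rw [hq]
    have : 0 < 1 - 1 / (2:ℝ) ^ j := by linarith
    positivity
  refine ⟨q, hq0, fun x hx y hy => ?_⟩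
  have key : ∀ k, |(h.toFun x - h.toFun y) k| = q * |(x - y) k| := by
    intro k
    rw [Pi.sub_apply, Pi.sub_apply, hh x hx k, hh y hy k]
    have e : ∀ u v' : ℝ, u + q * s k * (x k - a k) - (u + q * s k * (v' - a k)) =
        q * s k * (x k - v') := fun u v' => by ring
    rw [e, abs_mul, abs_mul, abs_of_pos hq0]
    rcases hs k with h1 | h1 <;> rw [h1] <;> simp
  apply le_antisymm
  · rw [pi_norm_le_iff_of_nonneg (by positivity)]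
    intro k
    rw [Real.norm_eq_abs, key k]
    exact mul_le_mul_of_nonneg_left (norm_le_pi_norm (x - y) k) hq0.le
  · rw [← le_div_iff₀' hq0, pi_norm_le_iff_of_nonneg (by positivity)]
    intro k
    rw [Real.norm_eq_abs, le_div_iff₀' hq0, ← key k]
    exact norm_le_pi_norm (h.toFun x - h.toFun y) k

/-- the faces of the drawn cells are squares -/
theorem sq_of (D : KIn3 c₀ n j δ v w ρ M h J₀ J P Z₀)
    (hZ : Z ⊆ Zmax M w h.toFun J₀ P (2 / 2 ^ j)) (k : M.κ) (hk : ∃ i ∈ Z, M.F k ⊆ M.Q i) :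
    ∃ (a : V) (l : Fin 3) (σ : ℝ), 0 < σ ∧ M.F k = sqr a l σ := by
  obtain ⟨i, hi, hki⟩ := hk
  obtain ⟨s, hs⟩ := D.face_Zmax (hZ hi) hki
  exact ⟨_, _, _, by positivity, _root_.P073.H950.face_eq hs⟩

/-- **[K3-TAIL]** `Out`, any property `Sh` which holds for all sufficiently strong collapses
(`SharpOut`, `SharpOut3`), and the clauses `osc` for the cells and the faces if `Ps` is never true,
from the facts about the last map before the collapse -/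
theorem exists_out_of_last3 (D : KIn3 c₀ n j δ v w ρ M h J₀ J P Z₀) (C : Cells ρ w K)
    (hp : 2 < p) (hZ : Z ⊆ Zmax M w h.toFun J₀ P (2 / 2 ^ j)) (hε : ∀ k, 0 < ε k)
    (T : Tol M h.toFun ε om εL lam osc) (hA : 0 ≤ A) (hC₁ : 0 < C₁) (hC₁' : 0 < C₁')
    (hD₀ : 1 ≤ D₀) (hD₁ : 1 ≤ D₁) {f : ConHomeo Ω Λ}
    (L : Last3 (D.B C) (Xp C J₀) (20 / (1 / μN n)) Ps (fun Φ => ∃ R, SoftQ D C R Φ) p
      (1 / 2 ^ j) c₀ ρ h.toFun J₀ J P Z Y ε om εL lam A C₁ C₁' D₀ D₁ f.toFun)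
    (hPs : ∀ i Φ, ¬ Ps i Φ)
    (hD : kC p A D₀ D₁ C₁ ≤ Dc) (hD' : kC p A D₀ D₁ C₁' ≤ D') {Sh : ConHomeo Ω Λ → Prop}
    (hsharp : ∃ t₀ : M.κ ⊕ M.ι → ℝ, (∀ a, 0 < t₀ a) ∧ ∀ (R : Fac K) (N t : M.κ ⊕ M.ι → ℝ)
      (Φ : ConHomeo Λ Λ), (∀ a, 0 < t a) → (∀ a, t a ≤ t₀ a) →
      Small3 (D.W C) (Xp C J₀) R f.toFun (FQ M) N t → SoftQ D C R Φ → Sh (f.trans Φ)) :
    ∃ g : ConHomeo Ω Λ, OutN p Dc D' (1 / 2 ^ j) c₀ w ρ M h.toFun J₀ J P Z Y ε g ∧ Sh g ∧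
      COsc Dc D' M h.toFun P Y g.toFun ∧ FOsc Dc D' M h.toFun P Y g.toFun := by
  obtain ⟨hμ, hμ1⟩ := soft_mu D
  have hΛ := TM.isOpen_Λ D.hρ
  have hdiag := diag_of D
  -- thresholds
  obtain ⟨t₁, ht₁, h1⟩ := Ev.all (B := D.B C) (X := Xp C J₀) (μ := 20 / (1 / μN n)) (M := M)
    (f := f.toFun) (p := fun a Φ => Sum.elim
      (fun k => OutF M w Ps (fun Φ => ∃ R, SoftQ D C R Φ) h.toFun f.toFun (1 / 2 ^ j) c₀ J₀ P Z
        Y ε om C₁ C₁' D₀ k Φ)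
      (fun i => OutC M w ρ p h.toFun f.toFun J₀ J P Z Y ε A C₁ C₁' D₀ D₁ i Φ) a)
    (fun a => by
      rcases a with k | i
      · exact L.ev_face T f.cont hε hC₁ hC₁' hD₀ hμ hμ1 k
      · exact L.ev_cell T f.cont hε hp hC₁ hC₁' hD₀ (by linarith) hμ hμ1 hdiag i)
  obtain ⟨t₂, ht₂, h2⟩ := hsharp
  obtain ⟨R, N, HS, hR⟩ := exists_small3 D.bΩ.1 f (D.W C) (Xp C J₀) (FQ M) (isCompact_FQ M)
    (FQ_sub M) (fun c hc hcc => FQ_fin M c hc hcc) (t := fun a => min (t₁ a) (t₂ a))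
    fun a => lt_min (ht₁ a) (ht₂ a)
  obtain ⟨Φ, HΦ⟩ := exists_softQ D C hR
  have ht0 : ∀ a, 0 < min (t₁ a) (t₂ a) := fun a => lt_min (ht₁ a) (ht₂ a)
  have h3 := h1 R N _ Φ ht0 (fun a => min_le_left _ _) HS HΦ.2.1.toIsSoft
  have HF : Fin3 w Ps (fun Φ => ∃ R, SoftQ D C R Φ) (1 / 2 ^ j) c₀ ρ p h.toFun f.toFun J₀ J P Z
      Y ε om A C₁ C₁' D₀ D₁ Φ :=
    { F := fun k => h3 (.inl k)
      C := fun i => h3 (.inr i)
      diag := hdiag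
      sq := sq_of D hZ
      ε0 := hε
      om0 := T.om_pos
      om_le := T.om_le
      p2 := hp
      A0 := hA
      C0 := hC₁
      C0' := hC₁'
      D0 := hD₀
      D1 := by linarith }
  have hk := kbd_of hp hA hD₀ (by linarith) hC₁ hD
  have hk' := kbd_of hp hA hD₀ (by linarith) hC₁' hD'
  exact ⟨f.trans Φ, out_of_fin3 hΛ D.hρ C T D.tile (by linarith [D.le]) hD₁ L HF
    HΦ.2.1.toIsSoft (fun y hy => HΦ.off hy) hk hk',
    h2 R N _ Φ ht0 (fun a => min_le_right _ _) HS HΦ,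
    osc_of_fin3 hΛ T HF ⟨R, HΦ⟩ (fun i => hPs i Φ) hk hk',
    fOsc_of_fin3 T HF ⟨R, HΦ⟩ (fun i => hPs i Φ) hk hk'⟩

end Vale.Agent.P073.H233
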