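import Vale.Agent.P073.H233.NRank
import Vale.Agent.P073.H950.CubePoint
import Vale.Agent.P073.SQ.Edge
import Vale.Agent.P073.SQ.Core
import Mathlib.Topology.Semicontinuity.Basic

/-!
# P073, H233 (CONE3-LP): integrals over the faces of a cube, local Lipschitz bounds on the faces
-/

open Set MeasureTheory Metric Topology Filter
open scoped ENNReal

namespace Vale.Agent.P073.H233

open Vale.Agent.P073.St (V)
open Vale.Agent.P073.SQ (ev cube)
open Vale.Agent.P073.AB Vale.Agent.P073.AB.P86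
open P073.Net (dyc dyo)

variable {v : V} {t s : Idx × Fin 3} {𝓢 : Finset (Idx × Fin 3)} {p : ℝ} {q : Idx}

/-- `2 σ ∫_s g ^ p`, `σ` the half side of the square `s` (the convention of `faceL`) -/
noncomputable def fInt (p : ℝ) (v : V) (s : Idx × Fin 3) (g : V → ℝ) : ℝ≥0∞ :=
  ∫⁻ x in cube (sc v s) (1 / 2 / 2 ^ s.1.1),
    ENNReal.ofReal (g (Function.update x s.2 (sc v s s.2)) ^ p)

/-- the sum of the face functions, extended by zero -/
noncomputable def gsum (v : V) (𝓢 : Finset (Idx × Fin 3)) (g : Idx × Fin 3 → V → ℝ) (θ : V) : ℝ :=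
  ∑ s ∈ 𝓢, (squ v s).indicator (g s) θ

theorem two_half (m : ℕ) : (2:ℝ) * (1 / 2 / 2 ^ m) = 1 / 2 ^ m := by ring

theorem lint_biUnion_le {α ι : Type*} [MeasurableSpace α] {μ : Measure α} (T : Finset ι)
    (s : ι → Set α) (f : α → ℝ≥0∞) :
    ∫⁻ x in ⋃ i ∈ T, s i, f x ∂μ ≤ ∑ i ∈ T, ∫⁻ x in s i, f x ∂μ := by
  classical
  induction T using Finset.induction_on with
  | empty => simp
  | insert a T ha ih =>
    rw [Finset.set_biUnion_insert, Finset.sum_insert ha]
    exact (lintegral_union_le _ _ _).trans (add_le_add le_rfl ih)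

/-- a face integral as a plane integral -/
theorem lintegral_square (s : Idx × Fin 3) {H : V → ℝ≥0∞} (hH : Measurable H) :
    ∫⁻ x in cube (sc v s) (1 / 2 / 2 ^ s.1.1), H (Function.update x s.2 (sc v s s.2)) =
      ENNReal.ofReal (1 / 2 ^ s.1.1) *
        ∫⁻ y in SQ.Edge.sq (s.2.removeNth (sc v s)) (1 / 2 / 2 ^ s.1.1),
          H (s.2.insertNth (sc v s s.2) y) := by
  rw [SQ.Edge.cube_eq s.2, SQ.Edge.fubini_const s.2 (sc v s s.2) measurableSet_Icc (SQ.Edge.measurableSet_sq _ _) hH,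
    Real.volume_Icc]
  congr 2
  rw [← two_half s.1.1]
  ring

theorem mem_sq_of_mem {y : Fin 2 → ℝ} (h : (s.2.insertNth (sc v s s.2) y : V) ∈ squ v s) :
    y ∈ SQ.Edge.sq (s.2.removeNth (sc v s)) (1 / 2 / 2 ^ s.1.1) := by
  have h1 := ((mem_squ_iff v s _).2 h).2
  intro l
  have h2 := h1 (s.2.succAbove l)
  rwa [Fin.insertNth_apply_succAbove] at h2

theorem mem_of_mem_sq {y : Fin 2 → ℝ}
    (h : y ∈ SQ.Edge.sq (s.2.removeNth (sc v s)) (1 / 2 / 2 ^ s.1.1)) :
    (s.2.insertNth (sc v s s.2) y : V) ∈ squ v s := by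
  refine (mem_squ_iff v s _).1 ⟨by rw [Fin.insertNth_apply_same], fun l => ?_⟩
  rcases Fin.eq_self_or_eq_succAbove s.2 l with rfl | ⟨m, rfl⟩
  · rw [Fin.insertNth_apply_same, sub_self, abs_zero]
    positivity
  · rw [Fin.insertNth_apply_succAbove]
    exact h m

theorem sc_eq_of_cop (h : Cop t s) : sc v s s.2 = sc v t t.2 := by
  have e1 : sc v s s.2 = v s.2 + s.1.2 s.2 / 2 ^ s.1.1 := by simp [sc]
  have e2 : sc v t t.2 = v t.2 + t.1.2 t.2 / 2 ^ t.1.1 := by simp [sc]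
  rw [e1, e2, h.2, h.1]

/-- **the integral over a square is the sum over the small squares** -/
theorem SqT.lintegral_le (h : SqT v t 𝓢) {H : V → ℝ≥0∞} (hH : Measurable H) :
    ∫⁻ x in cube (sc v t) (1 / 2 / 2 ^ t.1.1), H (Function.update x t.2 (sc v t t.2)) ≤
      ∑ s ∈ 𝓢, ENNReal.ofReal (2 ^ s.1.1 / 2 ^ t.1.1) *
        ∫⁻ x in cube (sc v s) (1 / 2 / 2 ^ s.1.1), H (Function.update x s.2 (sc v s s.2)) := by
  have e1 : ∀ s ∈ 𝓢, ENNReal.ofReal (2 ^ s.1.1 / 2 ^ t.1.1) *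
        ∫⁻ x in cube (sc v s) (1 / 2 / 2 ^ s.1.1), H (Function.update x s.2 (sc v s s.2)) =
      ENNReal.ofReal (1 / 2 ^ t.1.1) *
        ∫⁻ y in SQ.Edge.sq (s.2.removeNth (sc v s)) (1 / 2 / 2 ^ s.1.1),
          H (s.2.insertNth (sc v s s.2) y) := by
    intro s _
    rw [lintegral_square s hH, ← mul_assoc, ← ENNReal.ofReal_mul (by positivity)]
    congr 2
    field_simp
  rw [Finset.sum_congr rfl e1, ← Finset.mul_sum, lintegral_square t hH]
  gcongr
  have hsub : SQ.Edge.sq (t.2.removeNth (sc v t)) (1 / 2 / 2 ^ t.1.1) ⊆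
      ⋃ s ∈ 𝓢, {y | (t.2.insertNth (sc v t t.2) y : V) ∈ squ v s} := by
    intro y hy
    obtain ⟨s, hs, h1⟩ := mem_iUnion₂.1 (h.cov (mem_of_mem_sq hy))
    exact mem_iUnion₂.2 ⟨s, hs, h1⟩
  refine (lintegral_mono_set hsub).trans ((lint_biUnion_le 𝓢 _ _).trans ?_)
  refine Finset.sum_le_sum fun s hs => ?_
  obtain ⟨⟨m, a⟩, k⟩ := s
  have hc := cop_of_sub (h.sub _ hs)
  have hk : k = t.2 := hc.1
  subst hk
  have e2 : sc v ((m, a), t.2) t.2 = sc v t t.2 := sc_eq_of_cop hc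
  simp only [e2]
  refine lintegral_mono_set fun y hy => ?_
  refine mem_sq_of_mem (s := ((m, a), t.2)) ?_
  simp only [e2]
  exact hy

/-! ### upper semicontinuity -/

/-- a nonnegative upper semicontinuous function on a closed set, extended by zero -/
theorem usc_indicator {X : Type*} [TopologicalSpace X] {F : Set X} (hF : IsClosed F) {f : X → ℝ}
    (hf : UpperSemicontinuousOn f F) (h0 : ∀ x ∈ F, 0 ≤ f x) :
    UpperSemicontinuous (F.indicator f) := by
  intro x y hy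
  by_cases hx : x ∈ F
  · rw [indicator_of_mem hx] at hy
    have h1 : ∀ᶠ x' in 𝓝[F] x, f x' < y := hf x hx y hy
    rw [eventually_nhdsWithin_iff] at h1
    filter_upwards [h1] with x' hx'
    by_cases h : x' ∈ F
    · rw [indicator_of_mem h]; exact hx' h
    · rw [indicator_of_notMem h]; exact (h0 x hx).trans_lt hy
  · rw [indicator_of_notMem hx] at hy
    filter_upwards [hF.isOpen_compl.mem_nhds hx] with x' hx'
    rw [indicator_of_notMem hx']
    exact hy

/-- local Lipschitz bounds `g s` on the squares, for the distance function `cost` -/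
structure FaceB (v : V) (𝓢 : Finset (Idx × Fin 3)) (cost : V → V → ℝ)
    (g : Idx × Fin 3 → V → ℝ) : Prop where
  usc : ∀ s ∈ 𝓢, UpperSemicontinuousOn (g s) (squ v s)
  nonneg : ∀ s ∈ 𝓢, ∀ θ ∈ squ v s, 0 ≤ g s θ
  lip : ∀ s ∈ 𝓢, ∀ θ ∈ squ v s, ∀ᶠ θ' in 𝓝[squ v s] θ, cost θ' θ ≤ g s θ * dist θ' θ

theorem isClosed_squ (v : V) (s : Idx × Fin 3) : IsClosed (squ v s) := by
  have h1 : squ v s = {x | x s.2 = v s.2 + s.1.2 s.2 / 2 ^ s.1.1} ∩
      ⋂ k, {x | k ≠ s.2 → v k + s.1.2 k / 2 ^ s.1.1 ≤ x k ∧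
        x k ≤ v k + (s.1.2 k + 1) / 2 ^ s.1.1} := by
    ext x
    simp only [squ, mem_ofPred_eq, mem_inter_iff, mem_iInter]
  rw [h1]
  refine (isClosed_eq (continuous_apply _) continuous_const).inter (isClosed_iInter fun k => ?_)
  by_cases hk : k = s.2
  · have : {x : V | k ≠ s.2 → v k + s.1.2 k / 2 ^ s.1.1 ≤ x k ∧
        x k ≤ v k + (s.1.2 k + 1) / 2 ^ s.1.1} = univ := by
      ext x; simp [hk]
    rw [this]; exact isClosed_univ
  · have : {x : V | k ≠ s.2 → v k + s.1.2 k / 2 ^ s.1.1 ≤ x k ∧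
        x k ≤ v k + (s.1.2 k + 1) / 2 ^ s.1.1} =
        {x | v k + s.1.2 k / 2 ^ s.1.1 ≤ x k} ∩ {x | x k ≤ v k + (s.1.2 k + 1) / 2 ^ s.1.1} := by
      ext x; simp [hk]
    rw [this]
    exact (isClosed_le continuous_const (continuous_apply _)).inter
      (isClosed_le (continuous_apply _) continuous_const)

variable {cost : V → V → ℝ} {g : Idx × Fin 3 → V → ℝ}

theorem FaceB.gsum_usc (h : FaceB v 𝓢 cost g) : UpperSemicontinuous (gsum v 𝓢 g) :=
  upperSemicontinuous_sum fun s hs => usc_indicator (isClosed_squ v s) (h.usc s hs) (h.nonneg s hs)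

theorem FaceB.ind_nonneg (h : FaceB v 𝓢 cost g) (hs : s ∈ 𝓢) (θ : V) :
    0 ≤ (squ v s).indicator (g s) θ := indicator_nonneg (h.nonneg s hs) θ

theorem FaceB.gsum_nonneg (h : FaceB v 𝓢 cost g) (θ : V) : 0 ≤ gsum v 𝓢 g θ :=
  Finset.sum_nonneg fun _ hs => h.ind_nonneg hs θ

theorem FaceB.le_gsum (h : FaceB v 𝓢 cost g) (hs : s ∈ 𝓢) {θ : V} (hθ : θ ∈ squ v s) :
    g s θ ≤ gsum v 𝓢 g θ := by
  have h1 := Finset.single_le_sum (f := fun s => (squ v s).indicator (g s) θ)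
    (fun s hs => h.ind_nonneg hs θ) hs
  simp only [indicator_of_mem hθ] at h1
  exact h1

/-- the local bound on the whole boundary -/
theorem FaceB.eventually_le (h : FaceB v 𝓢 cost g) {S : Set V} (hS : S ⊆ ⋃ s ∈ 𝓢, squ v s)
    (θ : V) : ∀ᶠ θ' in 𝓝[S] θ, cost θ' θ ≤ gsum v 𝓢 g θ * dist θ' θ := by
  have h1 : ∀ s ∈ 𝓢, ∀ᶠ θ' in 𝓝[S] θ, θ' ∈ squ v s → cost θ' θ ≤ gsum v 𝓢 g θ * dist θ' θ := by
    intro s hs
    by_cases hθ : θ ∈ squ v s
    · have h2 := h.lip s hs θ hθ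
      rw [eventually_nhdsWithin_iff] at h2
      refine nhdsWithin_le_nhds ?_
      filter_upwards [h2] with θ' h3 h4
      exact (h3 h4).trans (mul_le_mul_of_nonneg_right (h.le_gsum hs hθ) dist_nonneg)
    · refine nhdsWithin_le_nhds ?_
      filter_upwards [(isClosed_squ v s).isOpen_compl.mem_nhds hθ] with θ' h3 h4
      exact absurd h4 h3
  filter_upwards [(Filter.eventually_all_finset 𝓢).2 h1, self_mem_nhdsWithin] with θ' h2 h3
  obtain ⟨s, hs, h4⟩ := mem_iUnion₂.1 (hS h3)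
  exact h2 s hs h4

/-- almost every point of the thick square is over the relative interior -/
theorem ae_update_mem_rel (v : V) (s : Idx × Fin 3) :
    ∀ᵐ x : V, x ∈ cube (sc v s) (1 / 2 / 2 ^ s.1.1) →
      Function.update x s.2 (sc v s s.2) ∈ rel v s := by
  have h1 : ∀ (k : Fin 3) (b : ℝ), ∀ᵐ x : V, x k ≠ b := by
    intro k b
    have h0 : volume {f : V | f k = b} = 0 :=
      Measure.pi_hyperplane (fun _ : Fin 3 => (volume : Measure ℝ)) k b
    rw [ae_iff]
    simpa using h0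
  have h2 : ∀ k : Fin 3, ∀ᵐ x : V, |x k - sc v s k| ≠ 1 / 2 / 2 ^ s.1.1 := by
    intro k
    filter_upwards [h1 k (sc v s k + 1 / 2 / 2 ^ s.1.1), h1 k (sc v s k - 1 / 2 / 2 ^ s.1.1)]
      with x ha hb hc
    rcases (abs_eq (by positivity)).1 hc with h | h
    · exact ha (by linarith)
    · exact hb (by linarith)
  filter_upwards [ae_all_iff.2 h2] with x hx hxc
  refine (mem_rel_iff v s _).1 ⟨by rw [Function.update_self], fun l hl => ?_⟩
  rw [Function.update_of_ne hl]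
  exact lt_of_le_of_ne (hxc l) (hx l)

theorem fInt_gsum (H : BdT v q 𝓢) (hs : s ∈ 𝓢) :
    ∫⁻ x in cube (sc v s) (1 / 2 / 2 ^ s.1.1),
      ENNReal.ofReal (gsum v 𝓢 g (Function.update x s.2 (sc v s s.2)) ^ p) = fInt p v s (g s) := by
  unfold fInt
  refine setLIntegral_congr_fun_ae (SQ.isClosed_cube _ _).measurableSet ?_
  filter_upwards [ae_update_mem_rel v s] with x hx hxc
  have h1 := hx hxc
  have h2 : gsum v 𝓢 g (Function.update x s.2 (sc v s s.2)) =
      g s (Function.update x s.2 (sc v s s.2)) := by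
    unfold gsum
    rw [Finset.sum_eq_single s]
    · exact indicator_of_mem (rel_sub h1) _
    · intro s' hs' hne
      refine indicator_of_notMem (fun h3 => hne ?_) _
      exact (H.eq_of_rel hs hs' h1 h3).symm
    · exact fun h3 => absurd hs h3
  rw [h2]

/-- the face of a side -/
theorem exists_side_face (v : V) (q : Idx) (b : Fin 3 × Bool) :
    ∃ t, FaceOf t q ∧ t.2 = b.1 ∧ sc v t = _root_.P073.H950.Chart.sideC v q b := by
  have e2 : (1:ℝ) / 2 ^ q.1 / 2 = 1 / 2 / 2 ^ q.1 := by ring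
  have e3 : (1:ℝ) / 2 ^ q.1 = 1 / 2 / 2 ^ q.1 + 1 / 2 / 2 ^ q.1 := by ring
  rcases b with ⟨k, b⟩
  cases b
  · refine ⟨(q, k), ⟨rfl, Or.inl rfl, fun _ _ => rfl⟩, rfl, ?_⟩
    funext j
    simp only [sc, _root_.P073.H950.Chart.sideC, _root_.P073.H950.Chart.ctr, Pi.add_apply, Pi.smul_apply,
      _root_.P073.H950.sg, smul_eq_mul, e2]
    by_cases hj : j = k
    · subst hj
      simp only [if_true, SQ.ev, Pi.single_eq_same, Bool.false_eq_true, if_false]
      rw [add_div]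
      ring
    · simp only [if_neg hj, SQ.ev, Pi.single_eq_of_ne hj, mul_zero, add_zero]
  · refine ⟨((q.1, Function.update q.2 k (q.2 k + 1)), k), ⟨rfl, Or.inr ?_, fun j hj => ?_⟩, rfl, ?_⟩
    · exact Function.update_self _ _ _
    · exact Function.update_of_ne hj _ _
    · funext j
      simp only [sc, _root_.P073.H950.Chart.sideC, _root_.P073.H950.Chart.ctr, Pi.add_apply, Pi.smul_apply,
        _root_.P073.H950.sg, smul_eq_mul, e2, if_true]
      by_cases hj : j = k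
      · subst hj
        simp only [if_true, SQ.ev, Pi.single_eq_same, Function.update_self]
        push_cast
        rw [add_div, add_div, e3]
        ring
      · simp only [if_neg hj, SQ.ev, Pi.single_eq_of_ne hj, mul_zero, add_zero,
          Function.update_of_ne hj]

/-- **the integral over the shell** -/
theorem FaceB.lintegral_shell_le (H : BdT v q 𝓢) (h : FaceB v 𝓢 cost g) (p : ℝ) :
    ∫⁻ z in (_root_.P073.H950.Chart.dya v q).sh,
      ENNReal.ofReal (gsum v 𝓢 g ((_root_.P073.H950.Chart.dya v q).ang z) ^ p) ≤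
      6 * ∑ s ∈ 𝓢, ENNReal.ofReal (2 ^ s.1.1 / 2 ^ q.1) * fInt p v s (g s) := by
  classical
  have hm : Measurable fun θ => ENNReal.ofReal (gsum v 𝓢 g θ ^ p) :=
    (h.gsum_usc.measurable.pow_const p).ennreal_ofReal
  refine (_root_.P073.H950.Chart.lintegral_ang_le v q hm).trans ?_
  have key : ∀ b : Fin 3 × Bool,
      ∫⁻ x in cube (_root_.P073.H950.Chart.sideC v q b) (1 / 2 ^ q.1 / 2),
        ENNReal.ofReal (gsum v 𝓢 g (Function.update x b.1
          (_root_.P073.H950.Chart.sideC v q b b.1)) ^ p) ≤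
      ∑ s ∈ 𝓢, ENNReal.ofReal (2 ^ s.1.1 / 2 ^ q.1) * fInt p v s (g s) := by
    intro b
    obtain ⟨t, ht, h1, h2⟩ := exists_side_face v q b
    have e : (1:ℝ) / 2 ^ q.1 / 2 = 1 / 2 / 2 ^ t.1.1 := by rw [ht.1]; ring
    rw [← h1, ← h2, e]
    refine ((H.sqT ht).lintegral_le hm).trans ?_
    refine (Finset.sum_le_sum_of_subset (Finset.filter_subset _ _)).trans
      (Finset.sum_le_sum fun s hs => ?_)
    rw [fInt_gsum H hs, ht.1]
  refine (Finset.sum_le_sum fun b _ => key b).trans ?_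
  rw [Finset.sum_const, Finset.card_univ, Fintype.card_prod, Fintype.card_fin, Fintype.card_bool,
    nsmul_eq_mul]
  norm_num

end Vale.Agent.P073.H233
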