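import Vale.Agent.P073.H267.Geo1

/-!
# P073, block H233: no hanging vertices in the squares whose neighbourhood has tiles of one size

Used by the sharp estimates over the plates.
-/

open Set Metric Topology Filter

namespace Vale.Agent.P073.H233

open _root_.P073 _root_.P073.Net _root_.P073.PA691 _root_.P073.TM
open Vale.Agent.P073.St (V)
open Vale.Agent.P073.H471 Vale.Agent.P073.H267

variable {Λ : Set V} {ρ : V → ℝ} {w : V} {K : BoxCx Λ w}

/-- a cell of the tiling with a point in the closed cube `(m, z)` has the generation `m`, if all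
cubes of this generation around `(m, z)` are tiles -/
theorem cell_gen {m : ℕ} {z : Fin 3 → ℤ}
    (ht : ∀ z' : Fin 3 → ℤ, (∀ j, z j - 2 ≤ z' j ∧ z' j ≤ z j + 1) → IsTile ρ w m z')
    {σ : Face} (hσ : IsCell ρ w σ) {y : V} (hy : y ∈ σ.cl w) (hyz : y ∈ dyc w m z) :
    σ.m = m := by
  obtain ⟨a, ha⟩ := hσ.2
  have h1 : y ∈ closure (dyo w σ.m (σ.cube a)) :=
    dyc_sub_closure _ _ _ (Face.cl_sub_cube w σ a hy)
  have h2 : (0:ℝ) < 1 / 2 ^ m := by positivity
  obtain ⟨x, hx, hd⟩ := Metric.mem_closure_iff.1 h1 _ h2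
  have hm : (0:ℝ) < 2 ^ m := by positivity
  -- the cube of generation `m` which contains `x`
  have h3 : ∀ j, -(1 / 2 ^ m) < x j - y j ∧ x j - y j < 1 / 2 ^ m := fun j => by
    have h4 : |(x - y) j| ≤ ‖x - y‖ := norm_le_pi_norm (x - y) j
    rw [dist_comm, dist_eq_norm] at hd
    have h5 := abs_lt.1 (h4.trans_lt hd)
    exact h5
  have h4 : ∀ j, z j - 1 ≤ ⌊(x j - w j) * 2 ^ m⌋ ∧ ⌊(x j - w j) * 2 ^ m⌋ ≤ z j + 1 := fun j => by
    obtain ⟨e1, e2⟩ := hyz j
    obtain ⟨e3, e4⟩ := h3 j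
    have e5 : (z j : ℝ) ≤ (y j - w j) * 2 ^ m := by
      rw [← div_le_iff₀ hm]; linarith
    have e6 : (y j - w j) * 2 ^ m ≤ z j + 1 := by
      rw [← le_div_iff₀ hm]; linarith
    have e7 : -1 < (x j - y j) * 2 ^ m := by
      rw [← div_lt_iff₀ hm, neg_div]; exact e3
    have e8 : (x j - y j) * 2 ^ m < 1 := by
      rw [← lt_div_iff₀ hm]; exact e4
    have e9 : (x j - w j) * 2 ^ m = (x j - y j) * 2 ^ m + (y j - w j) * 2 ^ m := by ring
    constructor
    · rw [Int.le_floor]; push_cast; linarith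
    · have : (⌊(x j - w j) * 2 ^ m⌋ : ℝ) < z j + 2 := (Int.floor_le _).trans_lt (by linarith)
      have h7 : ⌊(x j - w j) * 2 ^ m⌋ < z j + 2 := by exact_mod_cast this
      omega
  have h5 : x ∈ dyc w m fun j => ⌊(x j - w j) * 2 ^ m⌋ := fun j => by
    have e1 := Int.floor_le ((x j - w j) * 2 ^ m)
    have e2 := (Int.lt_floor_add_one ((x j - w j) * 2 ^ m)).le
    rw [← le_div_iff₀ hm] at e2
    rw [← div_le_iff₀ hm] at e1
    constructor <;> linarith
  exact (tile_eq ha (ht _ fun j => ⟨by have := (h4 j).1; omega, (h4 j).2⟩) hx h5).1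

/-- **no hanging vertices** on the sides of a square with such a neighbourhood -/
theorem deep_noHang (C : Cells ρ w K) {l : Fin 3} {m : ℕ} {z : Fin 3 → ℤ}
    (ht : ∀ z' : Fin 3 → ℤ, (∀ j, z j - 2 ≤ z' j ∧ z' j ≤ z j + 1) → IsTile ρ w m z')
    {s : K.S} (hn : K.nrm s = l) (hlo : ∀ j, K.slo s j = w j + z j / 2 ^ m)
    (hhi : ∀ j, j ≠ l → K.shi s j = w j + (z j + 1) / 2 ^ m) : ∀ H : Hang K, H.s ≠ s := by
  rintro H rfl
  have hm : (0:ℝ) < 2 ^ m := by positivity
  have hs : ∀ j, w j + (z j : ℝ) / 2 ^ m ≤ w j + (z j + 1) / 2 ^ m := fun j => by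
    have : (z j : ℝ) / 2 ^ m ≤ (z j + 1) / 2 ^ m := by gcongr; linarith
    linarith
  -- the vertex is in the cube
  have hy : K.w H.i ∈ dyc w m z := by
    intro j
    by_cases hj : j = K.nrm H.s
    · subst hj
      rw [H.nrm, hlo]
      exact ⟨le_rfl, hs _⟩
    by_cases hk : j = H.k
    · subst hk
      rw [H.side]
      split_ifs
      · rw [hhi _ (by rw [← hn]; exact hj)]
        exact ⟨hs _, le_rfl⟩
      · rw [hlo]
        exact ⟨le_rfl, hs _⟩
    · have hl : j = H.l := by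
        have h1 := H.k_n
        have h2 := H.l_n
        have h3 := H.k_l
        revert hj hk h1 h2 h3
        generalize K.nrm H.s = a
        generalize H.k = b
        generalize H.l = c
        revert j a b c
        decide
      subst hl
      have h1 := H.lo
      have h2 := H.hi
      rw [hlo] at h1
      rw [hhi _ (by rw [← hn]; exact H.l_n)] at h2
      exact ⟨h1.le, h2.le⟩
  have h1 : (C.fW H.i).m = m := cell_gen ht (C.cellW H.i)
    (y := K.w H.i) (by rw [C.w_eq]; exact Face.lo_mem_cl _ _) hy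
  -- its coordinate is an integer
  have h2 := H.lo
  have h3 := H.hi
  rw [hlo] at h2
  rw [hhi _ (by rw [← hn]; exact H.l_n)] at h3
  have h4 : K.w H.i H.l = w H.l + (C.fW H.i).z H.l / 2 ^ m := by
    rw [C.w_eq, Face.lo_apply, h1]
  rw [h4] at h2 h3
  have h5 : (z H.l : ℝ) / 2 ^ m < (C.fW H.i).z H.l / 2 ^ m := by linarith
  have h6 : ((C.fW H.i).z H.l : ℝ) / 2 ^ m < (z H.l + 1) / 2 ^ m := by linarith
  rw [div_lt_div_iff_of_pos_right hm] at h5 h6
  have h7 : z H.l < (C.fW H.i).z H.l := by exact_mod_cast h5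
  have h8 : (C.fW H.i).z H.l < z H.l + 1 := by exact_mod_cast h6
  omega

end Vale.Agent.P073.H233
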