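import Vale.Agent.P073.H193.CellQ

/-!
# P073, block H233, [OSC-F], part C: the oscillation on a square face from the cone estimates

* `FStar.Est.osc_le`: the oscillation is at most `55 C₁ ∑ b`;
* `bsum_le_of_num`: `∑ b` is at most the total length of the edges of the face, up to a constant.
-/

open Set Metric Topology Filter
open scoped ENNReal

namespace Vale.Agent.P073.H233

open _root_.P073
open Vale.Agent.P073.St (V)
open Vale.Agent.P073.H73 (Mesh sqr onSeg)
open Vale.Agent.P073.H193 (Edges edges Cyc le_perim)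
open Vale.Agent.P073.H155 (vv ce seg_vv norm_vv sum_ce)
open Vale.Agent.P073.H304 (Small)
open _root_.P073.H142 (FStar Num)
open _root_.P073.H155 (cn)
open _root_.P073.H950 (bsum)
open _root_.P073.Net (len)

variable {Ω : Set V} {M : Mesh Ω} {k : M.κ}

/-- **the oscillation on a square face** from the cone estimates: around the scaled boundary, then
radially over the edge with the smallest slope -/
theorem est_osc {T : FStar (edges M) k} {a : V} {l : Fin 3} {σ : ℝ} (hσ : 0 < σ)
    (hF : M.F k = sqr a l σ) {C₁ : ℝ} {b : (edges M).ε → ℝ} {g : V → V} (hC₁ : 0 ≤ C₁)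
    (hb : ∀ e, (edges M).seg e ⊆ M.F k → 0 ≤ b e) (H : T.Est C₁ b g) :
    ∀ x ∈ M.F k, ∀ y ∈ M.F k, ‖g x - g y‖ ≤ 55 * C₁ * bsum M k b := by
  set n := T.C.n + 1 with hn
  set B := bsum M k b with hB
  set e : ℕ → (edges M).ε := fun j => ce T.C j with he
  set v : ℕ → V := vv T.C with hv
  set per : ℝ := ∑ j ∈ Finset.range n, ‖(edges M).b (e j) - (edges M).a (e j)‖ with hper
  have hsub : ∀ j, (edges M).seg (e j) ⊆ M.F k := fun j => T.C.sub _
  have hseg : ∀ j, (edges M).seg (e j) = segment ℝ (v j) (v (j + 1)) := fun j => seg_vv T.C j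
  have hpos : ∀ j, 0 < ‖(edges M).b (e j) - (edges M).a (e j)‖ := fun j =>
    _root_.P073.H142.elen_pos (edges M) (e j)
  have hper1 : 2 * σ ≤ per := by
    have := le_perim T hσ hF
    rwa [← sum_ce T.C fun e => ‖(edges M).b e - (edges M).a e‖] at this
  have hper2 : per ≤ 12 * σ := by
    have := _root_.P073.H950.perim_face T hσ hF
    rwa [← sum_ce T.C fun e => ‖(edges M).b e - (edges M).a e‖] at this
  have hBsum : ∑ j ∈ Finset.range n, b (e j) = B := sum_ce T.C b
  have hbj : ∀ j, 0 ≤ b (e j) := fun j => hb _ (hsub j)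
  have hB0 : 0 ≤ B := by
    rw [← hBsum]
    exact Finset.sum_nonneg fun j _ => hbj j
  obtain ⟨hO, hrho, hR⟩ := T.sq a l σ hσ hF
  -- the constants
  have hcon : ∀ j, T.con C₁ b (e j) =
      C₁ * (b (e j) / ‖(edges M).b (e j) - (edges M).a (e j)‖ + B / σ) := by
    intro j
    unfold FStar.con
    rw [hrho, hB]
    rfl
  have hcon0 : ∀ j, 0 ≤ T.con C₁ b (e j) := fun j => T.con_nonneg hC₁ hb (hsub j)
  set c : ℕ → ℝ := fun j => T.con C₁ b (e j) * ‖(edges M).b (e j) - (edges M).a (e j)‖ with hc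
  have hc0 : ∀ j, 0 ≤ c j := fun j => mul_nonneg (hcon0 j) (hpos j).le
  have hcj : ∀ j, c j = C₁ * (b (e j) +
      ‖(edges M).b (e j) - (edges M).a (e j)‖ * (B / σ)) := by
    intro j
    have := (hpos j).ne'
    simp only [hc]
    rw [hcon j]
    field_simp
  have hcsum : ∑ j ∈ Finset.range n, c j ≤ 13 * C₁ * B := by
    have h1 : ∑ j ∈ Finset.range n, c j = C₁ * (B + per * (B / σ)) := by
      rw [Finset.sum_congr rfl fun j _ => hcj j, ← Finset.mul_sum, Finset.sum_add_distrib, hBsum,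
        hper, Finset.sum_mul]
    rw [h1]
    have h2 : per * (B / σ) ≤ 12 * B := by
      calc per * (B / σ) ≤ 12 * σ * (B / σ) := by gcongr
        _ = 12 * B := by field_simp
    nlinarith [mul_le_mul_of_nonneg_left h2 hC₁]
  -- the best edge
  obtain ⟨m, hm, hbest⟩ : ∃ m ∈ Finset.range n,
      b (e m) * per ≤ ‖(edges M).b (e m) - (edges M).a (e m)‖ * B := by
    refine Finset.exists_le_of_sum_le ⟨0, Finset.mem_range.2 (by omega)⟩ (le_of_eq ?_)
    rw [← Finset.sum_mul, ← Finset.sum_mul, hBsum, ← hper, mul_comm]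
  rw [Finset.mem_range] at hm
  have hconm : T.con C₁ b (e m) * σ ≤ 3 / 2 * C₁ * B := by
    rw [hcon m]
    have hp := hpos m
    have h1 : b (e m) / ‖(edges M).b (e m) - (edges M).a (e m)‖ ≤ B / (2 * σ) := by
      rw [div_le_div_iff₀ hp (by positivity)]
      calc b (e m) * (2 * σ) ≤ b (e m) * per := mul_le_mul_of_nonneg_left hper1 (hbj m)
        _ ≤ _ := hbest
        _ = _ := mul_comm _ _
    calc C₁ * (b (e m) / ‖(edges M).b (e m) - (edges M).a (e m)‖ + B / σ) * σ ≤
          C₁ * (B / (2 * σ) + B / σ) * σ := by gcongr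
      _ = 3 / 2 * C₁ * B := by field_simp; ring
  -- one point
  have key : ∀ x ∈ M.F k, ‖g x - g T.O‖ ≤ 55 / 2 * C₁ * B := by
    intro x hx
    obtain ⟨j, hj, t, ht, z, hz, rfl⟩ := T.star.exists_cn hx
    have hz' : z ∈ (edges M).seg (e j) := by rw [hseg]; exact hz
    set φ : V → V := fun z => g (T.O + t • (z - T.O)) with hφ
    have hmem : ∀ i, ∀ z ∈ (edges M).seg (e i),
        T.O + t • (z - T.O) ∈ coneSetAt T.O ((edges M).seg (e i)) := fun i z hz =>
      ⟨t, ht, z, hz, rfl⟩
    have hedge : ∀ i, ∀ z ∈ (edges M).seg (e i), ∀ z' ∈ (edges M).seg (e i),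
        ‖φ z - φ z'‖ ≤ c i := by
      intro i z hz z' hz'
      refine (H.glob (hsub i) _ (hmem i z hz) _ (hmem i z' hz')).trans ?_
      simp only [hc]
      refine mul_le_mul_of_nonneg_left ?_ (hcon0 i)
      have e1 : T.O + t • (z - T.O) - (T.O + t • (z' - T.O)) = t • (z - z') := by module
      rw [e1, norm_smul, Real.norm_of_nonneg ht.1]
      have e2 : ‖z - z'‖ ≤ ‖(edges M).b (e i) - (edges M).a (e i)‖ := by
        have h1 : z ∈ segment ℝ ((edges M).a (e i)) ((edges M).b (e i)) := hz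
        have h2 : z' ∈ segment ℝ ((edges M).a (e i)) ((edges M).b (e i)) := hz'
        rw [segment_eq_image'] at h1 h2
        obtain ⟨s, hs, rfl⟩ := h1
        obtain ⟨s', hs', rfl⟩ := h2
        have e3 : (edges M).a (e i) + s • ((edges M).b (e i) - (edges M).a (e i)) -
            ((edges M).a (e i) + s' • ((edges M).b (e i) - (edges M).a (e i))) =
            (s - s') • ((edges M).b (e i) - (edges M).a (e i)) := by module
        rw [e3, norm_smul, Real.norm_eq_abs]
        have : |s - s'| ≤ 1 := abs_le.2 ⟨by linarith [hs.1, hs'.2], by linarith [hs.2, hs'.1]⟩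
        exact mul_le_of_le_one_left (norm_nonneg _) this
      calc t * ‖z - z'‖ ≤ 1 * ‖z - z'‖ := mul_le_mul_of_nonneg_right ht.2 (norm_nonneg _)
        _ ≤ _ := by rw [one_mul]; exact e2
    have hl : ∀ i, v i ∈ (edges M).seg (e i) := fun i => by
      rw [hseg]; exact left_mem_segment ℝ _ _
    have hr : ∀ i, v (i + 1) ∈ (edges M).seg (e i) := fun i => by
      rw [hseg]; exact right_mem_segment ℝ _ _
    have hchain : ∀ i, ‖φ (v i) - φ (v 0)‖ ≤ ∑ i' ∈ Finset.range i, c i' := by
      intro i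
      induction i with
      | zero => simp
      | succ i ih =>
        rw [Finset.sum_range_succ]
        have h1 := hedge i _ (hr i) _ (hl i)
        have h2 := norm_sub_le_norm_sub_add_norm_sub (φ (v (i + 1))) (φ (v i)) (φ (v 0))
        linarith
    have hpart : ∀ i, i < n → ∑ i' ∈ Finset.range i, c i' + c i ≤ 13 * C₁ * B := by
      intro i hi
      rw [← Finset.sum_range_succ]
      refine (Finset.sum_le_sum_of_subset_of_nonneg (fun x hx => ?_)
        fun j _ _ => hc0 j).trans hcsum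
      rw [Finset.mem_range] at hx ⊢
      omega
    have h1 : ‖φ z - φ (v 0)‖ ≤ 13 * C₁ * B := by
      have h2 := hedge j z hz' _ (hl j)
      have h3 := norm_sub_le_norm_sub_add_norm_sub (φ z) (φ (v j)) (φ (v 0))
      linarith [hchain j, hpart j hj]
    have h2 : ‖φ (v m) - φ (v 0)‖ ≤ 13 * C₁ * B := by
      linarith [hchain m, hpart m hm, hc0 m]
    have h3 : ‖φ (v m) - g T.O‖ ≤ 3 / 2 * C₁ * B := by
      have hOm : T.O ∈ coneSetAt T.O ((edges M).seg (e m)) :=
        ⟨0, ⟨le_rfl, zero_le_one⟩, v m, hl m, by rw [zero_smul, add_zero]⟩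
      refine (H.glob (hsub m) _ (hmem m _ (hl m)) _ hOm).trans (le_trans ?_ hconm)
      refine mul_le_mul_of_nonneg_left ?_ (hcon0 m)
      rw [add_sub_cancel_left, norm_smul, Real.norm_of_nonneg ht.1]
      have h4 := T.star.R m hm.le
      rw [hR] at h4
      calc t * ‖v m - T.O‖ ≤ 1 * ‖v m - T.O‖ :=
            mul_le_mul_of_nonneg_right ht.2 (norm_nonneg _)
        _ ≤ σ := by rw [one_mul]; exact h4
    have h4 : ‖φ z - g T.O‖ ≤ ‖φ z - φ (v 0)‖ + ‖φ (v m) - φ (v 0)‖ + ‖φ (v m) - g T.O‖ := by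
      have h5 := norm_sub_le_norm_sub_add_norm_sub (φ z) (φ (v 0)) (g T.O)
      have h6 := norm_sub_le_norm_sub_add_norm_sub (φ (v 0)) (φ (v m)) (g T.O)
      rw [norm_sub_rev (φ (v 0)) (φ (v m))] at h6
      linarith
    show ‖φ z - g T.O‖ ≤ _
    nlinarith
  intro x hx y hy
  have h1 := key x hx
  have h2 := key y hy
  have h3 := norm_sub_le_norm_sub_add_norm_sub (g x) (g T.O) (g y)
  rw [norm_sub_rev (g T.O) (g y)] at h3
  linarith

/-- the sum of the numbers of a face -/
theorem bsum_le_of_num {h : V → V} {D₀ ε B : ℝ} {b : (edges M).ε → ℝ} (hN : Num k h D₀ ε b)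
    (hD₀ : 0 ≤ D₀) (hε : 0 ≤ ε) (hB0 : 0 ≤ B)
    (hB : ∃ E : Finset (V × V), (∀ e, H304.IsEdge M e → segment ℝ e.1 e.2 ⊆ M.F k → e ∈ E) ∧
      ∑ e ∈ E, len (onSeg h e) (Icc 0 1) ≤ ENNReal.ofReal B) :
    bsum M k b ≤ D₀ * (B + ((edges M).fin_face k).toFinset.card * ε) := by
  obtain ⟨E, hE, hEs⟩ := hB
  obtain ⟨t, ht, -, hb⟩ := hN.le
  set T := ((edges M).fin_face k).toFinset with hT
  have hTm : ∀ e ∈ T, (edges M).seg e ⊆ M.F k := fun e he => _root_.P073.H950.mem_fin_face he
  have hlsum : ∑ e ∈ T, len (onSeg h ((edges M).a e, (edges M).b e)) (Icc 0 1) ≤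
      ENNReal.ofReal B := by
    refine le_trans ?_ hEs
    classical
    set φ : (edges M).ε → V × V := fun e => ((edges M).a e, (edges M).b e) with hφ
    have hinj : Function.Injective φ := fun e e' hee => by
      apply Subtype.ext
      exact hee
    have himg : ∑ x ∈ T.image φ, len (onSeg h x) (Icc 0 1) =
        ∑ e ∈ T, len (onSeg h ((edges M).a e, (edges M).b e)) (Icc 0 1) :=
      Finset.sum_image (fun e _ e' _ hee => hinj hee)
    rw [← himg]
    refine Finset.sum_le_sum_of_subset fun x hx => ?_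
    obtain ⟨e, he, rfl⟩ := Finset.mem_image.1 hx
    exact hE _ (_root_.P073.H950.isEdge_iff.2 (Or.inl e.2)) (hTm e he)
  have h1 : ENNReal.ofReal (bsum M k b) ≤
      ENNReal.ofReal (D₀ * (B + T.card * ε)) := by
    unfold bsum
    rw [ENNReal.ofReal_sum_of_nonneg fun e he => hN.nonneg e (hTm e he)]
    calc ∑ e ∈ T, ENNReal.ofReal (b e) ≤ ∑ e ∈ T, ENNReal.ofReal D₀ *
          (len (onSeg h ((edges M).a e, (edges M).b e)) (Icc 0 1) + ENNReal.ofReal ε) :=
          Finset.sum_le_sum fun e he => (hb e (hTm e he)).trans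
            (mul_le_mul_right (add_le_add le_rfl (ENNReal.ofReal_le_ofReal ht)) _)
      _ = ENNReal.ofReal D₀ * (∑ e ∈ T,
          len (onSeg h ((edges M).a e, (edges M).b e)) (Icc 0 1) + T.card * ENNReal.ofReal ε) := by
          rw [← Finset.mul_sum, Finset.sum_add_distrib, Finset.sum_const, nsmul_eq_mul]
      _ ≤ ENNReal.ofReal D₀ * (ENNReal.ofReal B + ENNReal.ofReal (T.card * ε)) := by
          refine mul_le_mul_right (add_le_add hlsum (le_of_eq ?_)) _
          rw [ENNReal.ofReal_mul (Nat.cast_nonneg _), ENNReal.ofReal_natCast]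
      _ = _ := by
          rw [ENNReal.ofReal_mul hD₀, ENNReal.ofReal_add hB0 (by positivity)]
  exact (ENNReal.ofReal_le_ofReal_iff (by positivity)).1 h1

end Vale.Agent.P073.H233
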