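import Vale.Agent.P073.H233.Tail3E

/-!
# P073, block H233, [K3-TAIL], part F: the collapse of the last map, on each face and each cell
-/

open Set Metric Topology Filter MeasureTheory
open scoped ENNReal

namespace Vale.Agent.P073.H233

open _root_.P073 _root_.P073.Net _root_.P073.PA691 _root_.P073.TM
open Vale.Agent.P073.St (V)
open Vale.Agent.P073.SQ (cube ev)
open Vale.Agent.P073.AB (Idx squ)
open Vale.Agent.P073.H471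
open Vale.Agent.P073.H212 (IsSoft)
open Vale.Agent.P073.H73 (Mesh sqr onSeg)
open Vale.Agent.P073.H193 (Edges edges)
open Vale.Agent.P073.H304 (LipBd Cst Nb IsEdge Small)
open _root_.P073.H142 (FStar Num AdC)

variable {Ω Λ : Set V} {M : Mesh Ω} {w : V} {K : BoxCx Λ w} {S : Rad K} {W : Wid K S}
  {B : Boxes W} {X : PSet K} {R : Fac K} {Φ : ConHomeo Λ Λ} {μ : ℝ}

/-- a larger constant -/
theorem FaceOK3.mono {h f : V → V} {C₁ C₁' D₀ ε : ℝ} {k : M.κ}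
    (H : FaceOK3 B X h f C₁ D₀ ε k) (hC : C₁ ≤ C₁') : FaceOK3 B X h f C₁' D₀ ε k := by
  obtain ⟨T, b, h1, h2, h3⟩ := H
  refine ⟨T, b, h1, h2, fun e he x hx => (h3 e he x hx).mono ?_ Subset.rfl⟩
  have h5 := T.con_nonneg zero_le_one (fun e he => (h2 e he).le) he
  rw [← mul_one C₁, ← mul_one C₁', T.con_mul, T.con_mul]
  exact mul_le_mul_of_nonneg_right hC h5

/-- **faces of protected cells**: `h` multiplies all distances by `q` -/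
theorem faceEst_of_prot {h g : V → V} {C₁ D₀ D₁ ε q : ℝ} {k : M.κ} (hε : 0 < ε) (hq : 0 < q)
    (hD₀ : 1 ≤ D₀) (hD₁ : D₁ ≤ C₁) (hC₁ : 0 ≤ C₁)
    (hh : ∀ x ∈ M.F k, ∀ y ∈ M.F k, ‖h x - h y‖ = q * ‖x - y‖)
    (hg : ∀ x ∈ M.F k, ∀ y ∈ M.F k, ‖g x - g y‖ ≤ D₁ * ‖h x - h y‖) :
    FaceEst h g C₁ D₀ ε k := by
  obtain ⟨T⟩ := _root_.P073.H142.exists_fstar (edges M) k
  have hpos : ∀ e, 0 < q * ‖(edges M).b e - (edges M).a e‖ := fun e =>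
    mul_pos hq (_root_.P073.H142.elen_pos (edges M) e)
  refine ⟨T, fun e => q * ‖(edges M).b e - (edges M).a e‖, ⟨fun e _ => (hpos e).le,
    ⟨0, hε.le, fun e he a l σ hσ _ => by positivity, fun e he => ?_⟩⟩,
    fun e he x hx => ?_⟩
  · rw [ENNReal.ofReal_zero, add_zero]
    have h1 := dist_le_len h ((edges M).a e, (edges M).b e)
    rw [hh _ (he (right_mem_segment ℝ _ _)) _ (he (left_mem_segment ℝ _ _))] at h1
    refine h1.trans ?_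
    calc len (onSeg h ((edges M).a e, (edges M).b e)) (Icc 0 1) =
          1 * len (onSeg h ((edges M).a e, (edges M).b e)) (Icc 0 1) := (one_mul _).symm
      _ ≤ _ := by
        refine mul_le_mul_left ?_ _
        rw [← ENNReal.ofReal_one]
        exact ENNReal.ofReal_le_ofReal hD₀
  · filter_upwards [self_mem_nhdsWithin] with y hy
    have h1 := hg y (T.cone_sub he hy) x (T.cone_sub he hx)
    rw [hh y (T.cone_sub he hy) x (T.cone_sub he hx)] at h1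
    refine h1.trans ?_
    have h2 : C₁ * q ≤ T.con C₁ (fun e => q * ‖(edges M).b e - (edges M).a e‖) e := by
      unfold FStar.con
      rw [mul_div_assoc, div_self (_root_.P073.H142.elen_pos (edges M) e).ne', mul_one]
      refine mul_le_mul_of_nonneg_left (le_add_of_nonneg_right ?_) hC₁
      exact div_nonneg (Finset.sum_nonneg fun e _ => (hpos e).le) T.rho_pos.le
    calc D₁ * (q * ‖y - x‖) ≤ C₁ * (q * ‖y - x‖) :=
          mul_le_mul_of_nonneg_right hD₁ (by positivity)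
      _ = C₁ * q * ‖y - x‖ := by ring
      _ ≤ _ := mul_le_mul_of_nonneg_right h2 (norm_nonneg _)

section ok

variable {α : Type*} {f h : V → V} {F : α → Set V} {N t : α → ℝ} {a : α} {P : Set M.ι}
  {D₀ : ℝ}

/-- **(edge)**, edges which are not in protected cells -/
theorem EdgeOK3.len_le' {v : ℝ} {e : (edges M).ε}
    (H : EdgeOK3 B X P h f D₀ v e) (hD₀ : 0 ≤ D₀) (hw : 0 ≤ v)
    (HS : Small3 W X R f F N t) (HΦ : IsSoft B μ R Φ) (hμ : 0 ≤ μ) (hμ1 : μ ≤ 1)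
    (hF : (edges M).seg e ⊆ F a) (ht0 : 0 ≤ t a) (ht : t a ≤ v) :
    (∃ i ∈ P, (edges M).seg e ⊆ M.Q i) ∨ EdgeEst h f D₀ v e Φ := by
  unfold EdgeEst
  have e8 : ENNReal.ofReal 8 = 8 := by norm_num
  rcases H with h1 | h1 | h1
  · exact Or.inl h1
  · right
    refine (len_le_of_lip (h := h) (c := 4) (by norm_num) fun x hx y hy => ?_).trans ?_
    · refine (HΦ.lip _ _).trans ?_
      rw [h1 hx, h1 hy]
    · refine le_add_right (mul_le_mul_left (ENNReal.ofReal_le_ofReal ?_) _)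
      linarith
  · right
    refine (InZone.len HS HΦ hμ hμ1 (e := ((edges M).a e, (edges M).b e)) hF ht0 h1).trans ?_
    rw [mul_add, ← mul_assoc, ← e8, ← ENNReal.ofReal_mul (by norm_num), add_assoc,
      ← ENNReal.ofReal_mul (by norm_num), ← ENNReal.ofReal_add (by positivity) (by positivity)]
    refine add_le_add (mul_le_mul_left (ENNReal.ofReal_le_ofReal ?_) _)
      (ENNReal.ofReal_le_ofReal ?_)
    · linarith
    · linarith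

/-- the field `edge` of `Last3` from `EdgeOK3` -/
theorem EdgeOK3.ev {v : ℝ} {e : (edges M).ε} {k : M.κ}
    (H : EdgeOK3 B X P h f D₀ v e) (hD₀ : 0 ≤ D₀) (hw : 0 < v) (hμ : 0 ≤ μ) (hμ1 : μ ≤ 1)
    (hF : (edges M).seg e ⊆ M.F k) : (∃ i ∈ P, (edges M).seg e ⊆ M.Q i) ∨
    Ev B X μ M f (.inl k) (EdgeEst h f D₀ v e) := by
  by_cases hP : ∃ i ∈ P, (edges M).seg e ⊆ M.Q i
  · exact Or.inl hP
  · refine Or.inr ⟨v, hw, fun R N t Φ h0 ht HS HΦ => ?_⟩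
    have he' : (edges M).seg e ⊆ FQ M (.inl k) := hF
    exact (H.len_le' hD₀ hw.le HS HΦ hμ hμ1 he' h0.le ht).resolve_left hP

/-- **(osc)**, faces which are not in protected cells -/
theorem OscOK3.osc' {L L₀ : ℝ} {k : M.κ} (H : OscOK3 B X P h f L k)
    (hL : 0 ≤ L) (hL₀ : 0 ≤ L₀)
    (hh : ∀ x ∈ M.F k, ∀ y ∈ M.F k, ‖h x - h y‖ ≤ L₀)
    (HS : Small3 W X R f F N t) (HΦ : IsSoft B μ R Φ) (hμ : 0 ≤ μ) (hμ1 : μ ≤ 1)
    (hF : M.F k ⊆ F a) (ht : t a ≤ L₀) :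
    (∃ i ∈ P, M.F k ⊆ M.Q i) ∨
    ∀ x ∈ M.F k, ∀ y ∈ M.F k, ‖Φ.toFun (f x) - Φ.toFun (f y)‖ ≤ 4 * L₀ + 4 * L := by
  rcases H with h1 | h1 | h1 | h1
  · exact Or.inl h1
  · refine Or.inr fun x hx y hy => ?_
    have h2 := HΦ.lip (f x) (f y)
    rw [h1 hx, h1 hy] at h2
    rw [h1 hx, h1 hy]
    have h3 := hh x hx y hy
    linarith
  · refine Or.inr fun x hx y hy => ?_
    have h2 := HΦ.lip (f x) (f y)
    have h3 := h1 x hx y hy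
    linarith
  · refine Or.inr fun x hx y hy => ?_
    have h2 := InZone.osc HS HΦ hμ hμ1 hF hL h1 x hx y hy
    linarith

/-- the field `osc` of `Last3` from `OscOK3` -/
theorem OscOK3.ev {L L₀ : ℝ} {k : M.κ} (H : OscOK3 B X P h f L k)
    (hL : 0 ≤ L) (hL₀ : 0 < L₀)
    (hh : ∀ x ∈ M.F k, ∀ y ∈ M.F k, ‖h x - h y‖ ≤ L₀) (hμ : 0 ≤ μ) (hμ1 : μ ≤ 1) :
    (∃ i ∈ P, M.F k ⊆ M.Q i) ∨ Ev B X μ M f (.inl k) (OscEst f k (4 * L₀ + 4 * L)) := by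
  by_cases hP : ∃ i ∈ P, M.F k ⊆ M.Q i
  · exact Or.inl hP
  · refine Or.inr ⟨L₀, hL₀, fun R N t Φ h0 ht HS HΦ => ?_⟩
    exact (H.osc' (a := .inl k) hL hL₀.le hh HS HΦ hμ hμ1 Subset.rfl ht).resolve_left hP

end ok

/-- the estimates on the face `k` after the collapse -/
structure OutF (M : Mesh Ω) (w : V) (Ps : M.ι → ConHomeo Λ Λ → Prop)
    (Qs : ConHomeo Λ Λ → Prop) (h f : V → V) (η c₀ : ℝ)
    (J₀ : Set (ℕ × (Fin 3 → ℤ))) (P Z : Set M.ι) (Y : Set M.κ) (ε : M.κ → ℝ)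
    (om : (edges M).ε → ℝ) (C₁ C₁' D₀ : ℝ) (k : M.κ)
    (Φ : ConHomeo Λ Λ) : Prop where
  face : (∃ i ∈ Z, M.F k ⊆ M.Q i) → (∃ i ∈ P, M.F k ⊆ M.Q i) ∨
    ∀ c, Adm M Y C₁ C₁' (M.F k) c →
    FaceEst h (fun x => Φ.toFun (f x)) (8 * c) D₀ (ε k) k
  edge : ∀ e ∈ {e | (edges M).seg e ⊆ M.F k}, (∃ i ∈ P, (edges M).seg e ⊆ M.Q i) ∨
    EdgeEst h f D₀ (om e) e Φ
  elip : ∀ e ∈ {e | (edges M).seg e ⊆ M.F k}, h '' (edges M).seg e ⊆ Nb w J₀ η →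
    (∃ i ∈ P, (edges M).seg e ⊆ M.Q i) ∨
    ∀ c, Adm M Y C₁ C₁' ((edges M).seg e) c → ∀ ℓ : ℝ, 0 ≤ ℓ →
    len (onSeg h ((edges M).a e, (edges M).b e)) (Icc 0 1) ≤ ENNReal.ofReal ℓ →
    ∀ x ∈ (edges M).seg e, ∀ y ∈ (edges M).seg e,
      ‖Φ.toFun (f x) - Φ.toFun (f y)‖ ≤
        8 * c * D₀ * ((ℓ + ε k) / ‖(edges M).b e - (edges M).a e‖) * ‖x - y‖
  osc : ∀ i ∈ {i | M.F k ⊆ M.Q i}, i ∉ P → ∀ c, Adm M Y C₁ C₁' (M.Q i) c →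
    ((∃ i' ∈ P, M.F k ⊆ M.Q i') ∨ (∃ i' ∈ Z, M.F k ⊆ M.Q i') ∨
      ∃ L, (∀ b > 0, FHyp M h i k b → L ≤ c * b) ∧ OscEst f k L Φ) ∨
    (i ∉ Z ∧ ∀ Φ, Qs Φ → Ps i Φ)

/-- the estimates on the cell `i` after the collapse -/
structure OutC (M : Mesh Ω) (w : V) (ρ : V → ℝ) (p : ℝ) (h f : V → V)
    (J₀ J : Set (ℕ × (Fin 3 → ℤ))) (P Z : Set M.ι) (Y : Set M.κ) (ε : M.κ → ℝ)
    (A C₁ C₁' D₀ D₁ : ℝ) (i : M.ι) (Φ : ConHomeo Λ Λ) : Prop where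
  prot : i ∈ P → ∀ x ∈ M.Q i, ∀ y ∈ M.Q i,
    ‖Φ.toFun (f x) - Φ.toFun (f y)‖ ≤ 8 * D₁ * ‖h x - h y‖
  lip : FullJ w ρ J₀ J → i ∉ P → i ∉ Z → ∀ c, Adm M Y C₁ C₁' (M.Q i) c →
    H193.LipOn M h (fun x => Φ.toFun (f x)) i (8 * c)
  cell : i ∈ Z → ∀ c, Adm M Y C₁ C₁' (M.Q i) c →
    DrawnOut p h (fun x => Φ.toFun (f x)) (dC p A c D₀) ε i ∧
      H193.LipOn M h (fun x => Φ.toFun (f x)) i (lC p A c D₀)

theorem adm_pos {Y : Set M.κ} {C₁ C₁' c : ℝ} {A : Set V} (h1 : 0 < C₁) (h2 : 0 < C₁')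
    (H : Adm M Y C₁ C₁' A c) : 0 < c := by
  rcases H with rfl | ⟨rfl, -⟩
  exacts [h2, h1]

section last

variable {Ps : M.ι → ConHomeo Λ Λ → Prop} {Qs : ConHomeo Λ Λ → Prop} {p η c₀ : ℝ} {ρ : V → ℝ}
  {h : V → V} {J₀ J : Set (ℕ × (Fin 3 → ℤ))} {P Z : Set M.ι} {Y : Set M.κ} {ε : M.κ → ℝ}
  {om εL : (edges M).ε → ℝ} {lam osc : M.ι → ℝ} {A C₁ C₁' D₀ D₁ : ℝ} {f : V → V}

/-- **the faces** -/
theorem Last3.ev_face
    (L : Last3 B X μ Ps Qs p η c₀ ρ h J₀ J P Z Y ε om εL lam A C₁ C₁' D₀ D₁ f)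
    (T : Tol M h ε om εL lam osc) (hf : ContinuousOn f Ω) (hε : ∀ k, 0 < ε k)
    (hC₁ : 0 < C₁) (hC₁' : 0 < C₁') (hD₀ : 1 ≤ D₀) (hμ : 0 ≤ μ) (hμ1 : μ ≤ 1)
    (k : M.κ) : Ev B X μ M f (.inl k)
      (OutF M w Ps Qs h f η c₀ J₀ P Z Y ε om C₁ C₁' D₀ k) := by
  have hk : M.F k ⊆ Ω := H193.mesh_sub M k
  have e1 : Ev B X μ M f (.inl k) fun Φ => (∃ i ∈ Z, M.F k ⊆ M.Q i) →
      (∃ i ∈ P, M.F k ⊆ M.Q i) ∨ ∀ c, Adm M Y C₁ C₁' (M.F k) c →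
      FaceEst h (fun x => Φ.toFun (f x)) (8 * c) D₀ (ε k) k := by
    refine Ev.imp fun hz => ?_
    rcases L.face k hz with h0 | h1
    · exact Ev.of_true fun Φ => Or.inl h0
    refine Ev.mono (Ev.adm fun c hc => ?_) fun Φ h => Or.inr h
    have hc0 := adm_pos hC₁ hC₁' hc
    obtain ⟨t₀, h0, h1⟩ := exists_faceEst h hc0 (h1 c hc) (hf.mono hk)
    exact ⟨t₀, h0, fun R N t Φ _ ht HS HΦ => h1 (.inl k) Subset.rfl HS HΦ hμ hμ1 ht⟩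
  have e2 : Ev B X μ M f (.inl k) fun Φ => ∀ e ∈ {e | (edges M).seg e ⊆ M.F k},
      (∃ i ∈ P, (edges M).seg e ⊆ M.Q i) ∨ EdgeEst h f D₀ (om e) e Φ := by
    refine Ev.finite ((edges M).fin_face k) fun e he => ?_
    rcases L.edge k e he with h0 | h1
    · exact Ev.of_true fun Φ => Or.inl h0
    · exact h1.mono fun Φ h => Or.inr h
  have e3 : Ev B X μ M f (.inl k) fun Φ => ∀ e ∈ {e | (edges M).seg e ⊆ M.F k},
      h '' (edges M).seg e ⊆ Nb w J₀ η → (∃ i ∈ P, (edges M).seg e ⊆ M.Q i) ∨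
      ∀ c, Adm M Y C₁ C₁' ((edges M).seg e) c → ∀ ℓ : ℝ, 0 ≤ ℓ →
      len (onSeg h ((edges M).a e, (edges M).b e)) (Icc 0 1) ≤ ENNReal.ofReal ℓ →
      ∀ x ∈ (edges M).seg e, ∀ y ∈ (edges M).seg e,
        ‖Φ.toFun (f x) - Φ.toFun (f y)‖ ≤
          8 * c * D₀ * ((ℓ + ε k) / ‖(edges M).b e - (edges M).a e‖) * ‖x - y‖ := by
    refine Ev.finite ((edges M).fin_face k) fun e he => Ev.imp fun hN => ?_
    rcases L.elip k e he hN with h0 | h1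
    · exact Ev.of_true fun Φ => Or.inl h0
    refine Ev.mono (Ev.adm fun c hc => ?_) fun Φ h => Or.inr h
    have hc0 := adm_pos hC₁ hC₁' hc
    obtain ⟨t₀, h0, h2⟩ := exists_elip hc0 (by linarith : 0 ≤ D₀) (hε k) (h1 c hc)
      (hf.mono ((edges M).seg_sub_Ω e))
    exact ⟨t₀, h0, fun R N t Φ _ ht HS HΦ ℓ hℓ hlen x hx y hy =>
      h2 (.inl k) he HS HΦ hμ hμ1 ht ℓ hℓ hlen x hx y hy⟩
  have e4 : Ev B X μ M f (.inl k) fun Φ => ∀ i ∈ {i | M.F k ⊆ M.Q i}, i ∉ P →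
      ∀ c, Adm M Y C₁ C₁' (M.Q i) c → ((∃ i' ∈ P, M.F k ⊆ M.Q i') ∨
      (∃ i' ∈ Z, M.F k ⊆ M.Q i') ∨
      ∃ L, (∀ b > 0, FHyp M h i k b → L ≤ c * b) ∧ OscEst f k L Φ) ∨
      (i ∉ Z ∧ ∀ Φ, Qs Φ → Ps i Φ) := by
    refine Ev.finite (finite_cells_face M k) fun i hi => Ev.imp fun hP => Ev.adm fun c hc => ?_
    by_cases hiZ : i ∈ Z
    · exact Ev.of_true fun Φ => Or.inl (Or.inr (Or.inl ⟨i, hiZ, hi⟩))
    rcases L.osc i hP hiZ c hc with h1 | h1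
    · rcases h1 k hi with h2 | h2 | ⟨l, h2, h3⟩
      · exact Ev.of_true fun Φ => Or.inl (Or.inl h2)
      · exact Ev.of_true fun Φ => Or.inl (Or.inr (Or.inl h2))
      · exact h3.mono fun Φ h => Or.inl (Or.inr (Or.inr ⟨l, h2, h⟩))
    · exact Ev.of_true fun Φ => Or.inr ⟨hiZ, h1⟩
  exact (e1.and (e2.and (e3.and e4))).mono fun Φ hΦ => ⟨hΦ.1, hΦ.2.1, hΦ.2.2.1, hΦ.2.2.2⟩

/-- **the cells** -/
theorem Last3.ev_cell
    (L : Last3 B X μ Ps Qs p η c₀ ρ h J₀ J P Z Y ε om εL lam A C₁ C₁' D₀ D₁ f)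
    (T : Tol M h ε om εL lam osc) (hf : ContinuousOn f Ω) (hε : ∀ k, 0 < ε k) (hp : 2 < p)
    (hC₁ : 0 < C₁) (hC₁' : 0 < C₁') (hD₀ : 1 ≤ D₀) (hD₁ : 0 < D₁) (hμ : 0 ≤ μ) (hμ1 : μ ≤ 1)
    (hdiag : ∀ i ∈ P, ∃ q > 0, ∀ x ∈ M.Q i, ∀ y ∈ M.Q i, ‖h x - h y‖ = q * ‖x - y‖)
    (i : M.ι) : Ev B X μ M f (.inr i)
      (OutC M w ρ p h f J₀ J P Z Y ε A C₁ C₁' D₀ D₁ i) := by
  have hi : M.Q i ⊆ Ω := M.sub i
  have e0 : Ev B X μ M f (.inr i) fun Φ => i ∈ P → ∀ x ∈ M.Q i, ∀ y ∈ M.Q i,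
      ‖Φ.toFun (f x) - Φ.toFun (f y)‖ ≤ 8 * D₁ * ‖h x - h y‖ := by
    refine Ev.imp fun hP => ?_
    obtain ⟨q, hq, hh⟩ := hdiag i hP
    refine ⟨D₁ * q, mul_pos hD₁ hq, fun R N t Φ h0 ht HS HΦ x hx y hy => ?_⟩
    have h2 := cell_lip (a := .inr i) (mul_nonneg hD₁.le hq.le)
      (L.prot i hP q hq hh) (hf.mono hi) Subset.rfl HS HΦ hμ hμ1 ht x hx y hy
    rw [hh x hx y hy]
    refine h2.trans (le_of_eq ?_)
    ring
  have e1 : Ev B X μ M f (.inr i) fun Φ => FullJ w ρ J₀ J → i ∉ P → i ∉ Z →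
      ∀ c, Adm M Y C₁ C₁' (M.Q i) c → H193.LipOn M h (fun x => Φ.toFun (f x)) i (8 * c) := by
    refine Ev.imp fun hJ => Ev.imp fun hP => Ev.imp fun hZ => Ev.adm fun c hc => ?_
    have hc0 := adm_pos hC₁ hC₁' hc
    refine ⟨c * lam i, mul_pos hc0 (T.lam_pos i), fun R N t Φ h0 ht HS HΦ l hl hh => ?_⟩
    have h1 : lam i ≤ l := T.lam_le i l (H193.own_cell hh)
    have h2 := cell_lip (a := .inr i) (mul_nonneg hc0.le hl.le)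
      (L.lip hJ i hP hZ c hc l hl hh) (hf.mono hi) Subset.rfl HS HΦ hμ hμ1
      (ht.trans (mul_le_mul_of_nonneg_left h1 hc0.le))
    intro x hx y hy
    refine (h2 x hx y hy).trans (le_of_eq ?_)
    ring
  have e2 : Ev B X μ M f (.inr i) fun Φ => i ∈ Z → ∀ c, Adm M Y C₁ C₁' (M.Q i) c →
      DrawnOut p h (fun x => Φ.toFun (f x)) (dC p A c D₀) ε i ∧
        H193.LipOn M h (fun x => Φ.toFun (f x)) i (lC p A c D₀) := by
    refine Ev.imp fun hZ => Ev.adm fun c hc => ?_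
    have hc0 := adm_pos hC₁ hC₁' hc
    obtain ⟨t₀, h0, h1⟩ := exists_cell hp hc0 hD₀ hε (T.lam_le i)
      (fun e he => T.εL_le e i he) (L.cell i hZ c hc) (hf.mono hi)
    exact ⟨t₀, h0, fun R N t Φ _ ht HS HΦ => h1 (.inr i) Subset.rfl HS HΦ hμ hμ1 ht⟩
  exact (e0.and (e1.and e2)).mono fun Φ hΦ => ⟨hΦ.1, hΦ.2.1, hΦ.2.2⟩

end last

end Vale.Agent.P073.H233
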