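import Vale.Agent.P073.H233.DMor
import Vale.Agent.P073.AB.Part86

/-!
# P073, H233 (CONE3-LP): oscillation on the boundary of a dyadic cube

The boundary of the dyadic cube `q` is tiled by finitely many dyadic squares of arbitrary sizes; the
oscillation of a continuous function on the boundary is controlled by its oscillations on the
squares (`p > 2`).
-/

open Set MeasureTheory Metric Topology Filter
open scoped ENNReal

namespace Vale.Agent.P073.H233

open Vale.Agent.P073.St (V)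
open Vale.Agent.P073.AB Vale.Agent.P073.AB.P86
open P073.Net (dyc dyo)

/-- the plane of the square `t` -/
noncomputable def emb (v : V) (t : Idx × Fin 3) (z : ℝ × ℝ) : V := fun k =>
  v k + if k = t.2 then (t.1.2 t.2 : ℝ) / 2 ^ t.1.1 else if k = t.2 + 1 then z.1 else z.2

/-- the plane coordinates -/
noncomputable def prj (v : V) (t : Idx × Fin 3) (x : V) : ℝ × ℝ :=
  (x (t.2 + 1) - v (t.2 + 1), x (t.2 + 2) - v (t.2 + 2))

theorem f3a (k l : Fin 3) : l = k ∨ l = k + 1 ∨ l = k + 2 := by revert k l; decide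

theorem f3b (k : Fin 3) : k + 1 ≠ k := by revert k; decide

theorem f3c (k : Fin 3) : k + 2 ≠ k := by revert k; decide

theorem f3d (k : Fin 3) : k + 2 ≠ k + 1 := by revert k; decide

variable {v : V} {t s : Idx × Fin 3} {z : ℝ × ℝ}

theorem emb_0 : emb v t z t.2 = v t.2 + t.1.2 t.2 / 2 ^ t.1.1 := by simp [emb]

theorem emb_1 : emb v t z (t.2 + 1) = v (t.2 + 1) + z.1 := by
  unfold emb
  rw [if_neg (f3b _), if_pos rfl]

theorem emb_2 : emb v t z (t.2 + 2) = v (t.2 + 2) + z.2 := by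
  unfold emb
  rw [if_neg (f3c _), if_neg (f3d _)]

theorem prj_emb : prj v t (emb v t z) = z := by
  unfold prj
  rw [emb_1, emb_2, add_sub_cancel_left, add_sub_cancel_left]

theorem emb_prj {x : V} (hx : x ∈ squ v t) : emb v t (prj v t x) = x := by
  funext k
  rcases f3a t.2 k with rfl | rfl | rfl
  · rw [emb_0, hx.1]
  · rw [emb_1]; unfold prj; ring
  · rw [emb_2]; unfold prj; ring

theorem continuous_emb : Continuous (emb v t) := by
  unfold emb
  refine continuous_pi fun k => continuous_const.add ?_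
  split_ifs
  · exact continuous_const
  · exact continuous_fst
  · exact continuous_snd

/-- the planar index of a square -/
def pl (s : Idx × Fin 3) : D2 := (s.1.1, s.1.2 (s.2 + 1), s.1.2 (s.2 + 2))

theorem sd_pl (s : Idx × Fin 3) : sd (pl s) = 1 / 2 ^ s.1.1 := rfl

theorem mem_sq_iff : z ∈ sq (cr (pl s)) (sd (pl s)) ↔
    (((s.1.2 (s.2 + 1) : ℝ) / 2 ^ s.1.1 ≤ z.1 ∧ z.1 ≤ (s.1.2 (s.2 + 1) + 1) / 2 ^ s.1.1) ∧
      ((s.1.2 (s.2 + 2) : ℝ) / 2 ^ s.1.1 ≤ z.2 ∧ z.2 ≤ (s.1.2 (s.2 + 2) + 1) / 2 ^ s.1.1)) := by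
  rw [div_add_one, div_add_one]
  exact Iff.rfl

/-- the squares `s` of the plane of `t` -/
def Cop (t s : Idx × Fin 3) : Prop :=
  s.2 = t.2 ∧ (s.1.2 s.2 : ℝ) / 2 ^ s.1.1 = t.1.2 t.2 / 2 ^ t.1.1

theorem emb_mem_squ (h : Cop t s) : emb v t z ∈ squ v s ↔ z ∈ sq (cr (pl s)) (sd (pl s)) := by
  obtain ⟨h1, h2⟩ := h
  rw [mem_sq_iff]
  constructor
  · rintro ⟨-, h4⟩
    have a := h4 (s.2 + 1) (f3b _)
    have b := h4 (s.2 + 2) (f3c _)
    rw [h1, emb_1, ← h1] at a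
    rw [h1, emb_2, ← h1] at b
    exact ⟨⟨by linarith [a.1], by linarith [a.2]⟩, ⟨by linarith [b.1], by linarith [b.2]⟩⟩
  · rintro ⟨a, b⟩
    refine ⟨?_, fun k hk => ?_⟩
    · rw [h2, h1, emb_0]
    · rcases f3a s.2 k with rfl | rfl | rfl
      · exact absurd rfl hk
      · have e : emb v t z (s.2 + 1) = v (s.2 + 1) + z.1 := by rw [h1, emb_1]
        rw [e]
        constructor <;> linarith [a.1, a.2]
      · have e : emb v t z (s.2 + 2) = v (s.2 + 2) + z.2 := by rw [h1, emb_2]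
        rw [e]
        constructor <;> linarith [b.1, b.2]

/-- the open square -/
def osq (a : ℝ × ℝ) (r : ℝ) : Set (ℝ × ℝ) := Ioo a.1 (a.1 + r) ×ˢ Ioo a.2 (a.2 + r)

theorem emb_mem_rel (h : Cop t s) (hz : z ∈ osq (cr (pl s)) (sd (pl s))) : emb v t z ∈ rel v s := by
  obtain ⟨h1, h2⟩ := h
  have e1 : (cr (pl s)).1 + sd (pl s) = ((s.1.2 (s.2 + 1) : ℝ) + 1) / 2 ^ s.1.1 := by
    rw [div_add_one]; rfl
  have e2 : (cr (pl s)).2 + sd (pl s) = ((s.1.2 (s.2 + 2) : ℝ) + 1) / 2 ^ s.1.1 := by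
    rw [div_add_one]; rfl
  obtain ⟨⟨a1, a2⟩, ⟨b1, b2⟩⟩ := hz
  rw [e1] at a2
  rw [e2] at b2
  have a1 : (s.1.2 (s.2 + 1) : ℝ) / 2 ^ s.1.1 < z.1 := a1
  have b1 : (s.1.2 (s.2 + 2) : ℝ) / 2 ^ s.1.1 < z.2 := b1
  refine ⟨?_, fun k hk => ?_⟩
  · rw [h2, h1, emb_0]
  · rcases f3a s.2 k with rfl | rfl | rfl
    · exact absurd rfl hk
    · have e : emb v t z (s.2 + 1) = v (s.2 + 1) + z.1 := by rw [h1, emb_1]
      rw [e]
      constructor <;> linarith
    · have e : emb v t z (s.2 + 2) = v (s.2 + 2) + z.2 := by rw [h1, emb_2]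
      rw [e]
      constructor <;> linarith

theorem cop_of_sub (h : squ v s ⊆ squ v t) : Cop t s := by
  have hp : (0:ℝ) < 1 / 2 ^ s.1.1 := by positivity
  have h1 : (fun k => v k + s.1.2 k / 2 ^ s.1.1 : V) ∈ squ v s :=
    ⟨rfl, fun j _ => ⟨le_rfl, by rw [div_add_one]; linarith⟩⟩
  have h2 : (fun k => if k = s.2 then v k + s.1.2 k / 2 ^ s.1.1 else
      v k + (s.1.2 k + 1) / 2 ^ s.1.1 : V) ∈ squ v s := by
    refine ⟨by simp, fun j hj => ?_⟩
    simp only [if_neg hj]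
    exact ⟨by rw [div_add_one]; linarith, le_rfl⟩
  have h3 := (h h1).1
  have h4 := (h h2).1
  have hk : s.2 = t.2 := by
    by_contra hne
    have hne' : t.2 ≠ s.2 := fun e => hne e.symm
    simp only [if_neg hne'] at h4
    rw [div_add_one] at h4
    linarith
  refine ⟨hk, ?_⟩
  rw [hk]
  linarith

theorem hs_pl_sub (h : squ v s ⊆ squ v t) : hs (pl s) ⊆ hs (pl t) := by
  have hc := cop_of_sub h
  obtain ⟨h1, h2⟩ := squ_ineq (v := v) hc.1 h
  obtain ⟨⟨m, a⟩, k⟩ := s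
  obtain ⟨⟨m', a'⟩, k'⟩ := t
  obtain ⟨hk, -⟩ := hc
  have hk : k = k' := hk
  subst hk
  have a1 := h2 (k + 1) (f3b _)
  have b1 := h2 (k + 2) (f3c _)
  rw [hs_eq, hs_eq]
  refine prod_mono (Ico_subset_Ico a1.1 ?_) (Ico_subset_Ico b1.1 ?_)
  · have := a1.2
    rw [div_add_one, div_add_one] at this
    exact this
  · have := b1.2
    rw [div_add_one, div_add_one] at this
    exact this

end Vale.Agent.P073.H233
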