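import Vale.Agent.P073.H233.FaceInt
import Vale.Agent.P073.AB.Sum308d

/-!
# P073, H233 (CONE3-LP): the energy of a drawn cell

A dyadic cube `q` whose boundary is tiled by dyadic squares of arbitrary sizes.  The caps of the
thick circles, with the nesting ranks, have a local `ℓ¹` Lipschitz bound `K` with
`∫_q K ^ p ≤ C (R ∑_s ∫_s g_s ^ p + R ∑_s r_s ^ (2 - p) A_s ^ p + R ^ (3 - p) w ^ p)`.
-/

open Set MeasureTheory Metric Topology Filter
open scoped ENNReal

namespace Vale.Agent.P073.H233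

open Vale.Agent.P073.St (V)
open Vale.Agent.P073.SQ (ev cube)
open Vale.Agent.P073.AB Vale.Agent.P073.AB.P86
open P073.Net (dyc dyo)
open _root_.P073 (ConSphere)
open _root_.P073.H267
open _root_.P073.H950
open _root_.P073.H950.Chart (dya)

variable {v : V} {𝓢 : Finset (Idx × Fin 3)} {p : ℝ} {q : Idx} {cost : V → V → ℝ}
  {g : Idx × Fin 3 → V → ℝ}

/-- the angular part of the bound -/
noncomputable def angK (v : V) (q : Idx) (𝓢 : Finset (Idx × Fin 3)) (g : Idx × Fin 3 → V → ℝ) :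
    V → ℝ :=
  (dya v q).sh.indicator fun z => gsum v 𝓢 g ((dya v q).ang z)

theorem angK_usc (h : FaceB v 𝓢 cost g) : UpperSemicontinuous (angK v q 𝓢 g) :=
  usc_indicator (dya v q).isCompact_sh.isClosed
    ((h.gsum_usc.comp (Chart.continuous_ang_dya v q)).upperSemicontinuousOn _)
    fun _ _ => h.gsum_nonneg _

theorem angK_nonneg (h : FaceB v 𝓢 cost g) (z : V) : 0 ≤ angK v q 𝓢 g z :=
  indicator_nonneg (fun _ _ => h.gsum_nonneg _) z

theorem lintegral_angK (H : BdT v q 𝓢) (h : FaceB v 𝓢 cost g) (hp : 0 < p) (B : Set V) :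
    ∫⁻ z in B, ENNReal.ofReal (angK v q 𝓢 g z ^ p) ≤
      6 * ∑ s ∈ 𝓢, ENNReal.ofReal (2 ^ s.1.1 / 2 ^ q.1) * fInt p v s (g s) := by
  refine le_trans ?_ (h.lintegral_shell_le H p)
  have hm : MeasurableSet (dya v q).sh := (dya v q).isCompact_sh.measurableSet
  rw [← lintegral_indicator hm]
  refine (setLIntegral_le_lintegral _ _).trans (lintegral_mono fun z => ?_)
  by_cases hz : z ∈ (dya v q).sh
  · unfold angK
    rw [indicator_of_mem hz, indicator_of_mem hz]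
  · unfold angK
    rw [indicator_of_notMem hz, indicator_of_notMem hz, Real.zero_rpow hp.ne', ENNReal.ofReal_zero]

theorem add_rpow_le2 {a b : ℝ} (ha : 0 ≤ a) (hb : 0 ≤ b) (hp : 1 ≤ p) :
    (a + b) ^ p ≤ 2 ^ (p - 1) * (a ^ p + b ^ p) := by
  have := NNReal.rpow_add_le_mul_rpow_add_rpow ⟨a, ha⟩ ⟨b, hb⟩ hp
  exact_mod_cast this

section

variable {J : Type*} [Fintype J] {m : ℕ} (D : Circles 2 (dyc v q.1 q.2 \ dyo v q.1 q.2) J m)
  {w : ℝ}

/-- **the local bound** in a drawn cell -/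
theorem cell_local (hw : 0 ≤ w) (H : BdT v q 𝓢)
    (h : FaceB v 𝓢 (fun θ' θ => ∑ c, w * |D.s c θ' - D.s c θ|) g) {z : V}
    (hz : z ∈ dyc v q.1 q.2) :
    ∀ᶠ y in 𝓝[dyc v q.1 q.2] z, ∑ c, w * |(dya v q).lev D c y - (dya v q).lev D c z| ≤
      (6 * angK v q 𝓢 g z + 2 * (w * (4 * m + 1) * (4 * 2 ^ q.1))) * dist y z := by
  classical
  have key : ∀ τ : Bool, ∀ᶠ y in 𝓝[dyc v q.1 q.2] z,
      ∑ c with D.typ c = τ, w * |(dya v q).lev D c y - (dya v q).lev D c z| ≤
      (3 * angK v q 𝓢 g z + w * (4 * m + 1) * (4 * 2 ^ q.1)) * dist y z := by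
    intro τ
    refine Chart.eventually_sum_dya_le D τ (fun _ => hw) hw (fun _ => le_rfl) hz
      (angK_nonneg h z) fun hsh => ?_
    have e : angK v q 𝓢 g z = gsum v 𝓢 g ((dya v q).ang z) := indicator_of_mem hsh _
    rw [e]
    filter_upwards [h.eventually_le H.bd_eq.le ((dya v q).ang z)] with θ hθ
    refine le_trans ?_ hθ
    exact Finset.sum_le_sum_of_subset_of_nonneg (Finset.filter_subset _ _)
      fun c _ _ => mul_nonneg hw (abs_nonneg _)
  filter_upwards [key true, key false] with y h1 h2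
  have e : ∑ c, w * |(dya v q).lev D c y - (dya v q).lev D c z| =
      (∑ c with D.typ c = true, w * |(dya v q).lev D c y - (dya v q).lev D c z|) +
      ∑ c with D.typ c = false, w * |(dya v q).lev D c y - (dya v q).lev D c z| := by
    rw [← Finset.sum_filter_add_sum_filter_not Finset.univ (fun c => D.typ c = true)]
    congr 1
    refine Finset.sum_congr ?_ fun _ _ => rfl
    ext c
    simp
  rw [e]
  linarith

end

/-- the constant -/
noncomputable def cp (p : ℝ) : ℝ :=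
  2 ^ (p - 1) * 6 ^ p * 6 + 2 ^ (p - 1) * 2 ^ (p - 1) * ((96 * mor p) ^ p + 72 ^ p)

theorem cp_pos (hp : 2 < p) : 0 < cp p := by
  unfold cp
  have h1 := mor_pos hp
  positivity

/-- the roofs -/
theorem roof_le (hp : 2 < p) {R Z w b : ℝ} (hR : 0 < R) (hZ : 0 ≤ Z) (hw : 0 ≤ w) (hb0 : 0 ≤ b)
    (hb : b ≤ 96 * mor p * (R ^ (1 - 2 / p) * Z ^ (1 / p)) / R + 72 * w / R) :
    b ^ p * R ^ 3 ≤ 2 ^ (p - 1) * (((96 * mor p) ^ p + 72 ^ p) * (R * Z + R ^ (3 - p) * w ^ p)) := by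
  have hp0 : 0 < p := by linarith
  have hm := mor_pos hp
  have hx : 0 ≤ 96 * mor p * (R ^ (1 - 2 / p) * Z ^ (1 / p)) / R := by positivity
  have hy : 0 ≤ 72 * w / R := by positivity
  have h1 : b ^ p ≤ 2 ^ (p - 1) * ((96 * mor p * (R ^ (1 - 2 / p) * Z ^ (1 / p)) / R) ^ p +
      (72 * w / R) ^ p) :=
    (Real.rpow_le_rpow hb0 hb hp0.le).trans (add_rpow_le2 hx hy (by linarith))
  have e1 : (96 * mor p * (R ^ (1 - 2 / p) * Z ^ (1 / p)) / R) ^ p * R ^ 3 =
      (96 * mor p) ^ p * (R * Z) := by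
    have e3 : 96 * mor p * (R ^ (1 - 2 / p) * Z ^ (1 / p)) / R =
        (96 * mor p) * (R ^ (-(2 / p)) * Z ^ (1 / p)) := by
      have : R ^ (1 - 2 / p) / R = R ^ (-(2 / p)) := by
        rw [← Real.rpow_sub_one hR.ne']
        congr 1
        ring
      rw [← this]
      ring
    have e3' : (R ^ (-(2 / p)) * Z ^ (1 / p)) ^ p = R ^ (-(2 / p) * p) * Z := by
      rw [Real.mul_rpow (by positivity) (by positivity), ← Real.rpow_mul hR.le,
        ← Real.rpow_mul hZ, one_div_mul_cancel hp0.ne', Real.rpow_one]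
    rw [e3, Real.mul_rpow (x := 96 * mor p) (by positivity) (by positivity), e3']
    have e4 : -(2 / p) * p = -2 := by field_simp
    rw [e4]
    have e5 : R ^ (-2 : ℝ) * R ^ 3 = R := by
      rw [← Real.rpow_natCast R 3, ← Real.rpow_add hR]
      norm_num
    calc (96 * mor p) ^ p * (R ^ (-2 : ℝ) * Z) * R ^ 3
        = (96 * mor p) ^ p * ((R ^ (-2 : ℝ) * R ^ 3) * Z) := by ring
      _ = _ := by rw [e5]
  have e2 : (72 * w / R) ^ p * R ^ 3 = 72 ^ p * (R ^ (3 - p) * w ^ p) := by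
    rw [Real.div_rpow (by positivity) hR.le, Real.mul_rpow (by norm_num) hw,
      Real.rpow_sub hR]
    have : R ^ (3:ℝ) = R ^ 3 := Real.rpow_natCast R 3
    rw [this]
    field_simp
  have h2 : b ^ p * R ^ 3 ≤ 2 ^ (p - 1) * ((96 * mor p) ^ p * (R * Z) +
      72 ^ p * (R ^ (3 - p) * w ^ p)) := by
    rw [← e1, ← e2, ← add_mul, ← mul_assoc]
    exact mul_le_mul_of_nonneg_right h1 (by positivity)
  refine h2.trans (mul_le_mul_of_nonneg_left ?_ (by positivity))
  have a1 : 0 ≤ (96 * mor p) ^ p := by positivity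
  have a2 : (0:ℝ) ≤ 72 ^ p := by positivity
  have a3 : 0 ≤ R * Z := by positivity
  have a4 : 0 ≤ R ^ (3 - p) * w ^ p := by positivity
  nlinarith [mul_nonneg a1 a4, mul_nonneg a2 a3]

theorem volume_dyc' (v : V) (q : Idx) :
    volume (dyc v q.1 q.2) = ENNReal.ofReal ((1 / 2 ^ q.1 : ℝ) ^ 3) := by
  rw [S308.volume_dyc]
  congr 1
  rw [div_pow, one_pow, ← pow_mul, mul_comm, pow_mul]
  norm_num

/-- **the integral** -/
theorem lintegral_cell_le (hp : 2 < p) (H : BdT v q 𝓢) (h : FaceB v 𝓢 cost g) {Z w b : ℝ}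
    (hZ : 0 ≤ Z) (hw : 0 ≤ w) (hb0 : 0 ≤ b)
    (hb : b ≤ 96 * mor p * ((1 / 2 ^ q.1 : ℝ) ^ (1 - 2 / p) * Z ^ (1 / p)) / (1 / 2 ^ q.1) +
      72 * w / (1 / 2 ^ q.1)) :
    ∫⁻ z in dyc v q.1 q.2, ENNReal.ofReal ((6 * angK v q 𝓢 g z + b) ^ p) ≤
      ENNReal.ofReal (cp p) * ((∑ s ∈ 𝓢, ENNReal.ofReal (2 ^ s.1.1 / 2 ^ q.1) * fInt p v s (g s)) +
        ENNReal.ofReal ((1 / 2 ^ q.1) * Z + (1 / 2 ^ q.1 : ℝ) ^ (3 - p) * w ^ p)) := by
  have hp0 : 0 < p := by linarith
  have hm := mor_pos hp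
  set R : ℝ := 1 / 2 ^ q.1 with hR
  have hR0 : 0 < R := by positivity
  set SS := ∑ s ∈ 𝓢, ENNReal.ofReal (2 ^ s.1.1 / 2 ^ q.1) * fInt p v s (g s) with hSS
  have h1 : ∀ z, ENNReal.ofReal ((6 * angK v q 𝓢 g z + b) ^ p) ≤
      ENNReal.ofReal (2 ^ (p - 1) * 6 ^ p) * ENNReal.ofReal (angK v q 𝓢 g z ^ p) +
        ENNReal.ofReal (2 ^ (p - 1) * b ^ p) := by
    intro z
    have ha := angK_nonneg (q := q) h z
    rw [← ENNReal.ofReal_mul (by positivity), ← ENNReal.ofReal_add (by positivity) (by positivity)]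
    refine ENNReal.ofReal_le_ofReal ?_
    refine (add_rpow_le2 (by positivity) hb0 (by linarith)).trans (le_of_eq ?_)
    rw [Real.mul_rpow (by norm_num) ha]
    ring
  have hmeas : Measurable fun z => ENNReal.ofReal (2 ^ (p - 1) * 6 ^ p) *
      ENNReal.ofReal (angK v q 𝓢 g z ^ p) :=
    (((angK_usc h).measurable.pow_const p).ennreal_ofReal).const_mul _
  calc ∫⁻ z in dyc v q.1 q.2, ENNReal.ofReal ((6 * angK v q 𝓢 g z + b) ^ p)
      ≤ ∫⁻ z in dyc v q.1 q.2, (ENNReal.ofReal (2 ^ (p - 1) * 6 ^ p) *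
          ENNReal.ofReal (angK v q 𝓢 g z ^ p) + ENNReal.ofReal (2 ^ (p - 1) * b ^ p)) :=
        lintegral_mono h1
    _ = ENNReal.ofReal (2 ^ (p - 1) * 6 ^ p) * (∫⁻ z in dyc v q.1 q.2,
          ENNReal.ofReal (angK v q 𝓢 g z ^ p)) +
          ENNReal.ofReal (2 ^ (p - 1) * b ^ p) * ENNReal.ofReal (R ^ 3) := by
        rw [lintegral_add_left hmeas, lintegral_const, Measure.restrict_apply_univ,
          lintegral_const_mul' _ _ ENNReal.ofReal_ne_top, volume_dyc']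
    _ ≤ ENNReal.ofReal (2 ^ (p - 1) * 6 ^ p) * (6 * SS) +
          ENNReal.ofReal (2 ^ (p - 1) * (2 ^ (p - 1) * (((96 * mor p) ^ p + 72 ^ p) *
            (R * Z + R ^ (3 - p) * w ^ p)))) := by
        refine add_le_add (mul_le_mul_right (lintegral_angK H h hp0 _) _) ?_
        rw [← ENNReal.ofReal_mul (by positivity)]
        refine ENNReal.ofReal_le_ofReal ?_
        rw [mul_assoc]
        exact mul_le_mul_of_nonneg_left (roof_le hp hR0 hZ hw hb0 hb) (by positivity)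
    _ ≤ ENNReal.ofReal (cp p) * SS +
          ENNReal.ofReal (cp p) * ENNReal.ofReal (R * Z + R ^ (3 - p) * w ^ p) := by
        have hT : 0 ≤ R * Z + R ^ (3 - p) * w ^ p := by positivity
        refine add_le_add ?_ ?_
        · rw [← mul_assoc]
          refine mul_le_mul_left ?_ _
          have e6 : (6 : ℝ≥0∞) = ENNReal.ofReal 6 := by simp
          rw [e6, ← ENNReal.ofReal_mul (by positivity)]
          refine ENNReal.ofReal_le_ofReal ?_
          unfold cp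
          have : 0 ≤ 2 ^ (p - 1) * 2 ^ (p - 1) * ((96 * mor p) ^ p + 72 ^ p) := by positivity
          linarith
        · rw [← ENNReal.ofReal_mul (cp_pos hp).le]
          refine ENNReal.ofReal_le_ofReal ?_
          have e7 : 2 ^ (p - 1) * (2 ^ (p - 1) * (((96 * mor p) ^ p + 72 ^ p) *
              (R * Z + R ^ (3 - p) * w ^ p))) = (2 ^ (p - 1) * 2 ^ (p - 1) *
              ((96 * mor p) ^ p + 72 ^ p)) * (R * Z + R ^ (3 - p) * w ^ p) := by ring
          rw [e7]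
          refine mul_le_mul_of_nonneg_right ?_ hT
          unfold cp
          have : 0 ≤ (2:ℝ) ^ (p - 1) * 6 ^ p * 6 := by positivity
          linarith
    _ = _ := (mul_add _ _ _).symm

end Vale.Agent.P073.H233
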