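import Vale.Agent.P073.H233.Line

/-!
# P073, H233 (CONE3-LP): discrete Morrey inequality, chains of squares
-/

open Set MeasureTheory Metric Topology
open scoped ENNReal

namespace Vale.Agent.P073.H233

variable {ι : Type*}

/-- the average of the oscillations over the lines of one square through the next square -/
noncomputable def lam (T : ℕ → Finset ι) (r A : ι → ℝ) (R : ℕ → ℝ) (j : ℕ) : ℝ :=
  (∑ i ∈ T j, r i * A i) / R (j + 1)

/-- a chain of squares `sq (b j) (R j)`, `j ≤ J`; the last one has oscillation `≤ E` -/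
structure Chn (w : ℝ × ℝ → ℝ) (a : ι → ℝ × ℝ) (r A : ι → ℝ) (J : ℕ) (T : ℕ → Finset ι)
    (b : ℕ → ℝ × ℝ) (R : ℕ → ℝ) (E : ℝ) : Prop where
  cov : ∀ j < J, Cov w (T j) a r A (b j) (R j)
  nest1 : ∀ j < J, Icc (b (j + 1)).1 ((b (j + 1)).1 + R (j + 1)) ⊆ Icc (b j).1 ((b j).1 + R j)
  nest2 : ∀ j < J, Icc (b (j + 1)).2 ((b (j + 1)).2 + R (j + 1)) ⊆ Icc (b j).2 ((b j).2 + R j)
  pos : ∀ j, 0 < R j
  last : ∀ x ∈ sq (b J) (R J), ∀ y ∈ sq (b J) (R J), |w x - w y| ≤ E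

variable {w : ℝ × ℝ → ℝ} {a : ι → ℝ × ℝ} {r A : ι → ℝ} {J : ℕ} {T : ℕ → Finset ι}
  {b : ℕ → ℝ × ℝ} {R : ℕ → ℝ} {E : ℝ}

theorem Chn.lam_nonneg (H : Chn w a r A J T b R E) {j : ℕ} (hj : j < J) : 0 ≤ lam T r A R j :=
  div_nonneg (Finset.sum_nonneg fun i hi => mul_nonneg ((H.cov j hj).r0 i hi) ((H.cov j hj).A0 i hi))
    (H.pos _).le

/-- the good point of the square `j + 1` -/
theorem Chn.exists_pt (H : Chn w a r A J T b R E) {θ : ℝ × ℝ} (hθ : θ ∈ sq (b J) (R J)) :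
    ∀ k j, j + 1 + k = J → ∃ z ∈ sq (b (j + 1)) (R (j + 1)),
      rowSum (T j) a r A z.2 ≤ lam T r A R j ∧ colSum (T j) a r A z.1 ≤ lam T r A R j ∧
      |w z - w θ| ≤ E + ∑ i ∈ Finset.Ico j (J - 1), (lam T r A R i + lam T r A R (i + 1)) := by
  intro k
  induction k with
  | zero =>
    intro j hj
    have hjJ : j < J := by omega
    have hC := H.cov j hjJ
    obtain ⟨t, ht, ht1⟩ := exists_indicator_sum_le (T j) (c := fun i => (a i).2) hC.r0 hC.A0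
      (u := (b (j + 1)).2) (H.pos (j + 1))
    obtain ⟨s, hs, hs1⟩ := exists_indicator_sum_le (T j) (c := fun i => (a i).1) hC.r0 hC.A0
      (u := (b (j + 1)).1) (H.pos (j + 1))
    have hz : (s, t) ∈ sq (b (j + 1)) (R (j + 1)) := ⟨hs, ht⟩
    refine ⟨(s, t), hz, ht1, hs1, ?_⟩
    have e : j + 1 = J := by omega
    have e2 : J - 1 = j := by omega
    rw [e2, Finset.Ico_self, Finset.sum_empty, add_zero]
    exact H.last _ (e ▸ hz) _ hθ
  | succ k ih =>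
    intro j hj
    obtain ⟨z', hz', hr', hc', hw'⟩ := ih (j + 1) (by omega)
    have hjJ : j < J := by omega
    have hj1 : j + 1 < J := by omega
    have hC := H.cov j hjJ
    have hC1 := H.cov (j + 1) hj1
    obtain ⟨t, ht, ht1⟩ := exists_indicator_sum_le (T j) (c := fun i => (a i).2) hC.r0 hC.A0
      (u := (b (j + 1)).2) (H.pos (j + 1))
    obtain ⟨s, hs, hs1⟩ := exists_indicator_sum_le (T j) (c := fun i => (a i).1) hC.r0 hC.A0
      (u := (b (j + 1)).1) (H.pos (j + 1))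
    have hz : (s, t) ∈ sq (b (j + 1)) (R (j + 1)) := ⟨hs, ht⟩
    refine ⟨(s, t), hz, ht1, hs1, ?_⟩
    -- along the row `t` of the square `j`
    have hz1 : z'.1 ∈ Icc (b (j + 1)).1 ((b (j + 1)).1 + R (j + 1)) := H.nest1 (j + 1) hj1 hz'.1
    have hz2 : z'.2 ∈ Icc (b (j + 1)).2 ((b (j + 1)).2 + R (j + 1)) := H.nest2 (j + 1) hj1 hz'.2
    have h1 : |w (s, t) - w (z'.1, t)| ≤ lam T r A R j :=
      (hC.row (H.nest2 j hjJ ht) (H.nest1 j hjJ hs) (H.nest1 j hjJ hz1)).trans ht1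
    have h2 : |w (z'.1, t) - w (z'.1, z'.2)| ≤ lam T r A R (j + 1) :=
      (hC1.col hz1 ht hz2).trans hc'
    have h3 : ∑ i ∈ Finset.Ico j (J - 1), (lam T r A R i + lam T r A R (i + 1)) =
        (lam T r A R j + lam T r A R (j + 1)) +
          ∑ i ∈ Finset.Ico (j + 1) (J - 1), (lam T r A R i + lam T r A R (i + 1)) := by
      rw [Finset.sum_eq_sum_Ico_succ_bot (by omega)]
    rw [h3]
    have h4 : |w (s, t) - w θ| ≤ |w (s, t) - w (z'.1, t)| + |w (z'.1, t) - w (z'.1, z'.2)|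
        + |w z' - w θ| := by
      have e1 := abs_sub_le (w (s, t)) (w (z'.1, t)) (w θ)
      have e2 := abs_sub_le (w (z'.1, t)) (w z') (w θ)
      have e3 : w (z'.1, z'.2) = w z' := rfl
      rw [e3]
      linarith
    linarith

/-- from the square `0` to a point of the last square -/
theorem Chn.exists_pt' (H : Chn w a r A J T b R E) (hJ : 0 < J) {θ : ℝ × ℝ}
    (hθ : θ ∈ sq (b J) (R J)) {L : ℝ} (hL : ∑ i ∈ Finset.range J, lam T r A R i ≤ L) :
    ∃ z ∈ sq (b 0) (R 0), rowSum (T 0) a r A z.2 ≤ L ∧ colSum (T 0) a r A z.1 ≤ L ∧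
      |w z - w θ| ≤ E + 2 * L := by
  obtain ⟨z, hz, h1, h2, h3⟩ := H.exists_pt hθ (J - 1) 0 (by omega)
  have h0 : ∀ i ∈ Finset.range J, 0 ≤ lam T r A R i := fun i hi =>
    H.lam_nonneg (Finset.mem_range.1 hi)
  have hl0 : lam T r A R 0 ≤ L :=
    (Finset.single_le_sum h0 (Finset.mem_range.2 hJ)).trans hL
  refine ⟨z, ⟨H.nest1 0 hJ hz.1, H.nest2 0 hJ hz.2⟩, h1.trans hl0, h2.trans hl0, h3.trans ?_⟩
  have h4 : ∑ i ∈ Finset.Ico 0 (J - 1), (lam T r A R i + lam T r A R (i + 1)) ≤ 2 * L := by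
    rw [Finset.sum_add_distrib]
    have e1 : ∑ i ∈ Finset.Ico 0 (J - 1), lam T r A R i ≤ L := by
      refine le_trans (Finset.sum_le_sum_of_subset_of_nonneg ?_ fun i hi _ => h0 i hi) hL
      intro i hi
      rw [Finset.mem_Ico] at hi
      exact Finset.mem_range.2 (by omega)
    have e2 : ∑ i ∈ Finset.Ico 0 (J - 1), lam T r A R (i + 1) ≤ L := by
      have e3 : ∑ i ∈ Finset.Ico 0 (J - 1), lam T r A R (i + 1) =
          ∑ i ∈ Finset.Ico 1 J, lam T r A R i := by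
        rw [Finset.sum_Ico_add' (fun i => lam T r A R i) 0 (J - 1) 1]
        congr 2
        omega
      rw [e3]
      refine le_trans (Finset.sum_le_sum_of_subset_of_nonneg ?_ fun i hi _ => h0 i hi) hL
      intro i hi
      rw [Finset.mem_Ico] at hi
      exact Finset.mem_range.2 (by omega)
    linarith
  linarith

/-- **two chains with the same first square** -/
theorem Chn.abs_sub_le {J' : ℕ} {T' : ℕ → Finset ι} {b' : ℕ → ℝ × ℝ} {R' : ℕ → ℝ} {E' : ℝ}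
    (H : Chn w a r A J T b R E) (H' : Chn w a r A J' T' b' R' E') (hJ : 0 < J) (hJ' : 0 < J')
    (hT : T' 0 = T 0) (hb : b' 0 = b 0) (hR : R' 0 = R 0) {θ θ' : ℝ × ℝ}
    (hθ : θ ∈ sq (b J) (R J)) (hθ' : θ' ∈ sq (b' J') (R' J')) {L : ℝ}
    (hL : ∑ i ∈ Finset.range J, lam T r A R i ≤ L)
    (hL' : ∑ i ∈ Finset.range J', lam T' r A R' i ≤ L) :
    |w θ - w θ'| ≤ E + E' + 6 * L := by
  obtain ⟨z, hz, h1, h2, h3⟩ := H.exists_pt' hJ hθ hL
  obtain ⟨z', hz', h1', h2', h3'⟩ := H'.exists_pt' hJ' hθ' hL'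
  rw [hT] at h1' h2'
  rw [hb, hR] at hz'
  have h4 : |w (z.1, z.2) - w (z'.1, z.2)| ≤ L := ((H.cov 0 hJ).row hz.2 hz.1 hz'.1).trans h1
  have h5 : |w (z'.1, z.2) - w (z'.1, z'.2)| ≤ L :=
    ((H.cov 0 hJ).col hz'.1 hz.2 hz'.2).trans h2'
  have e1 : |w θ - w θ'| ≤ |w z - w θ| + |w (z.1, z.2) - w (z'.1, z.2)| +
      |w (z'.1, z.2) - w (z'.1, z'.2)| + |w z' - w θ'| := by
    have f1 := _root_.abs_sub_le (w θ) (w z) (w θ')
    have f2 := _root_.abs_sub_le (w (z.1, z.2)) (w (z'.1, z.2)) (w θ')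
    have f3 := _root_.abs_sub_le (w (z'.1, z.2)) (w (z'.1, z'.2)) (w θ')
    have g1 : w (z.1, z.2) = w z := rfl
    have g2 : w (z'.1, z'.2) = w z' := rfl
    rw [g1] at f2 ⊢
    rw [g2] at f3 ⊢
    rw [abs_sub_comm (w θ) (w z)] at f1
    linarith
  linarith

end Vale.Agent.P073.H233
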