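import Vale.Agent.P073.H233.Dy2

/-!
# P073, H233 (CONE3-LP): the discrete Morrey inequality
-/

open Set MeasureTheory Metric Topology
open scoped ENNReal

namespace Vale.Agent.P073.H233

/-- the constant -/
noncomputable def mor (p : ℝ) : ℝ := 2 + 12 / (1 - (1 / 2 : ℝ) ^ (1 - 2 / p))

theorem half_rpow_lt_one {p : ℝ} (hp : 2 < p) : (1 / 2 : ℝ) ^ (1 - 2 / p) < 1 := by
  refine Real.rpow_lt_one (by norm_num) (by norm_num) ?_
  have : 2 / p < 1 := (div_lt_one (by linarith)).2 hp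
  linarith

theorem mor_pos {p : ℝ} (hp : 2 < p) : 0 < mor p := by
  unfold mor
  have := half_rpow_lt_one hp
  have h1 : 0 < 12 / (1 - (1 / 2 : ℝ) ^ (1 - 2 / p)) := div_pos (by norm_num) (by linarith)
  linarith

/-- the energy -/
noncomputable def Zen (p : ℝ) (𝓕 : Finset D2) (A : D2 → ℝ) : ℝ := ∑ F ∈ 𝓕, sd F ^ (2 - p) * A F ^ p

variable {p : ℝ} {Q : D2} {𝓕 : Finset D2} {A : D2 → ℝ}

theorem Zen_nonneg (hA : ∀ F ∈ 𝓕, 0 ≤ A F) : 0 ≤ Zen p 𝓕 A :=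
  Finset.sum_nonneg fun F hF => mul_nonneg (Real.rpow_nonneg (sd_pos F).le _)
    (Real.rpow_nonneg (hA F hF) _)

/-- Hölder -/
theorem sum_mul_le (hp : 2 < p) {T : Finset D2} (hT : T ⊆ 𝓕) (hA : ∀ F ∈ 𝓕, 0 ≤ A F) {R : ℝ}
    (hR : 0 < R) (h : ∑ F ∈ T, sd F ^ 2 ≤ R ^ 2) :
    ∑ F ∈ T, sd F * A F ≤ R ^ (2 - 2 / p) * Zen p 𝓕 A ^ (1 / p) := by
  have hp0 : 0 < p := by linarith
  have hpq : (p / (p - 1)).HolderConjugate p := by
    have h1 : p.HolderConjugate (p / (p - 1)) := by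
      have := Real.HolderConjugate.conjExponent (p := p) (by linarith)
      exact this
    exact h1.symm
  have hT0 : ∀ F ∈ T, 0 ≤ A F := fun F hF => hA F (hT hF)
  have e1 : ∀ F ∈ T, sd F * A F =
      (sd F ^ (2 / (p / (p - 1)))) * (sd F ^ ((2 - p) / p) * A F) := by
    intro F _
    have hs := sd_pos F
    rw [← mul_assoc, ← Real.rpow_add hs]
    have : 2 / (p / (p - 1)) + (2 - p) / p = 1 := by
      field_simp
      ring
    rw [this, Real.rpow_one]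
  rw [Finset.sum_congr rfl e1]
  have h1 := Real.inner_le_Lp_mul_Lq_of_nonneg T hpq
    (f := fun F => sd F ^ (2 / (p / (p - 1)))) (g := fun F => sd F ^ ((2 - p) / p) * A F)
    (fun F _ => Real.rpow_nonneg (sd_pos F).le _)
    (fun F hF => mul_nonneg (Real.rpow_nonneg (sd_pos F).le _) (hT0 F hF))
  refine h1.trans ?_
  have hq0 : 0 < p / (p - 1) := div_pos hp0 (by linarith)
  have e2 : ∑ F ∈ T, (sd F ^ (2 / (p / (p - 1)))) ^ (p / (p - 1)) = ∑ F ∈ T, sd F ^ 2 := by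
    refine Finset.sum_congr rfl fun F _ => ?_
    rw [← Real.rpow_mul (sd_pos F).le, div_mul_cancel₀ _ hq0.ne']
    exact Real.rpow_natCast _ 2
  have e3 : ∑ F ∈ T, (sd F ^ ((2 - p) / p) * A F) ^ p ≤ Zen p 𝓕 A := by
    have : ∀ F ∈ T, (sd F ^ ((2 - p) / p) * A F) ^ p = sd F ^ (2 - p) * A F ^ p := by
      intro F hF
      rw [Real.mul_rpow (Real.rpow_nonneg (sd_pos F).le _) (hT0 F hF),
        ← Real.rpow_mul (sd_pos F).le, div_mul_cancel₀ _ hp0.ne']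
    rw [Finset.sum_congr rfl this]
    exact Finset.sum_le_sum_of_subset_of_nonneg hT fun F hF _ =>
      mul_nonneg (Real.rpow_nonneg (sd_pos F).le _) (Real.rpow_nonneg (hA F hF) _)
  rw [e2]
  have e4 : (∑ F ∈ T, sd F ^ 2) ^ (1 / (p / (p - 1))) ≤ R ^ (2 - 2 / p) := by
    have e5 : R ^ (2 - 2 / p) = (R ^ 2) ^ (1 / (p / (p - 1))) := by
      rw [← Real.rpow_natCast R 2, ← Real.rpow_mul hR.le]
      congr 1
      push_cast
      field_simp
    rw [e5]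
    exact Real.rpow_le_rpow (Finset.sum_nonneg fun F _ => by positivity) h
      (by positivity)
  have e6 : (∑ F ∈ T, (sd F ^ ((2 - p) / p) * A F) ^ p) ^ (1 / p) ≤ Zen p 𝓕 A ^ (1 / p) :=
    Real.rpow_le_rpow (Finset.sum_nonneg fun F hF => Real.rpow_nonneg
      (mul_nonneg (Real.rpow_nonneg (sd_pos F).le _) (hT0 F hF)) _) e3 (by positivity)
  exact mul_le_mul e4 e6 (Real.rpow_nonneg (Finset.sum_nonneg fun F hF => Real.rpow_nonneg
      (mul_nonneg (Real.rpow_nonneg (sd_pos F).le _) (hT0 F hF)) _) _)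
    (Real.rpow_nonneg hR.le _)

/-- one oscillation -/
theorem osc_le (hp : 2 < p) (hA : ∀ F ∈ 𝓕, 0 ≤ A F) {F : D2} (hF : F ∈ 𝓕) {R : ℝ}
    (hR : sd F ≤ R) : A F ≤ R ^ (1 - 2 / p) * Zen p 𝓕 A ^ (1 / p) := by
  have hp0 : 0 < p := by linarith
  have hs := sd_pos F
  have h1 : sd F ^ (2 - p) * A F ^ p ≤ Zen p 𝓕 A :=
    Finset.single_le_sum (f := fun F => sd F ^ (2 - p) * A F ^ p)
      (fun F hF => mul_nonneg (Real.rpow_nonneg (sd_pos F).le _) (Real.rpow_nonneg (hA F hF) _)) hF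
  have h2 : (sd F ^ (2 - p) * A F ^ p) ^ (1 / p) ≤ Zen p 𝓕 A ^ (1 / p) :=
    Real.rpow_le_rpow (mul_nonneg (Real.rpow_nonneg hs.le _) (Real.rpow_nonneg (hA F hF) _)) h1
      (by positivity)
  have h3 : (sd F ^ (2 - p) * A F ^ p) ^ (1 / p) = sd F ^ ((2 - p) * (1 / p)) * A F := by
    rw [Real.mul_rpow (Real.rpow_nonneg hs.le _) (Real.rpow_nonneg (hA F hF) _),
      ← Real.rpow_mul hs.le, ← Real.rpow_mul (hA F hF), mul_one_div_cancel hp0.ne', Real.rpow_one]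
  rw [h3] at h2
  have h4 : A F = sd F ^ (1 - 2 / p) * (sd F ^ ((2 - p) * (1 / p)) * A F) := by
    rw [← mul_assoc, ← Real.rpow_add hs]
    have : (1 - 2 / p) + (2 - p) * (1 / p) = 0 := by
      field_simp
      ring
    rw [this, Real.rpow_zero, one_mul]
  have h5 : (0:ℝ) ≤ 1 - 2 / p := by
    have : 2 / p < 1 := (div_lt_one (by linarith)).2 hp
    linarith
  rw [h4]
  exact mul_le_mul (Real.rpow_le_rpow hs.le hR h5) h2
    (mul_nonneg (Real.rpow_nonneg hs.le _) (hA F hF)) (Real.rpow_nonneg (hs.le.trans hR) _)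

theorem sd_anc (q : D2) (m : ℕ) : sd (anc q m) = 1 / 2 ^ m := rfl

theorem anc_top (H : Tlg Q 𝓕) {F : D2} (hF : F ∈ 𝓕) : anc F Q.1 = Q :=
  (eq_att (H.sub F hF (cr_mem F))).symm

/-- the chain of the ancestors of a tile -/
theorem chn (H : Tlg Q 𝓕) {w : ℝ × ℝ → ℝ} (hw : ContinuousOn w (sq (cr Q) (sd Q)))
    (hA : ∀ F ∈ 𝓕, 0 ≤ A F)
    (hosc : ∀ F ∈ 𝓕, ∀ x ∈ sq (cr F) (sd F), ∀ y ∈ sq (cr F) (sd F), |w x - w y| ≤ A F)
    {F₀ : D2} (hF : F₀ ∈ 𝓕) :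
    Chn w cr sd A (F₀.1 - Q.1) (fun j => inn 𝓕 (anc F₀ (Q.1 + j)))
      (fun j => cr (anc F₀ (Q.1 + j))) (fun j => sd (anc F₀ (Q.1 + j))) (A F₀) := by
  have hg := H.gen F₀ hF
  have hsub : ∀ j ≤ F₀.1 - Q.1, hs (anc F₀ (Q.1 + j)) ⊆ hs Q := by
    intro j _
    exact hs_sub_of_mem (mem_hs_att _ _) (H.sub F₀ hF (cr_mem F₀)) (Nat.le_add_right _ _)
  have hsucc : ∀ j < F₀.1 - Q.1, hs (anc F₀ (Q.1 + (j + 1))) ⊆ hs (anc F₀ (Q.1 + j)) := by
    intro j _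
    exact hs_sub_of_mem (mem_hs_att _ _) (mem_hs_att _ _)
      (show Q.1 + j ≤ Q.1 + (j + 1) by omega)
  refine ⟨fun j hj => ⟨cov_anc H hF (Nat.le_add_right _ _) (by omega),
    hw.mono (sq_sub_sq (hsub j hj.le)), fun i hi => hA i (inn_sub _ hi),
    fun i _ => (sd_pos i).le, fun i hi => hosc i (inn_sub _ hi)⟩,
    fun j hj => (icc_sub (hsucc j hj)).1, fun j hj => (icc_sub (hsucc j hj)).2,
    fun j => sd_pos _, ?_⟩
  have e : Q.1 + (F₀.1 - Q.1) = F₀.1 := by omega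
  intro x hx y hy
  have e2 : anc F₀ (Q.1 + (F₀.1 - Q.1)) = F₀ := by rw [e, anc_self]
  simp only [e2] at hx hy
  exact hosc F₀ hF x hx y hy

theorem sum_lam_le (hp : 2 < p) (H : Tlg Q 𝓕) (hA : ∀ F ∈ 𝓕, 0 ≤ A F) (F₀ : D2) (J : ℕ) :
    ∑ j ∈ Finset.range J, lam (fun j => inn 𝓕 (anc F₀ (Q.1 + j))) sd A
      (fun j => sd (anc F₀ (Q.1 + j))) j ≤
      2 / (1 - (1 / 2 : ℝ) ^ (1 - 2 / p)) * (sd Q ^ (1 - 2 / p) * Zen p 𝓕 A ^ (1 / p)) := by
  have hp0 : 0 < p := by linarith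
  set α : ℝ := 1 - 2 / p with hα
  set Z : ℝ := Zen p 𝓕 A ^ (1 / p) with hZ
  have hZ0 : 0 ≤ Z := Real.rpow_nonneg (Zen_nonneg hA) _
  have h1 : ∀ j, lam (fun j => inn 𝓕 (anc F₀ (Q.1 + j))) sd A
      (fun j => sd (anc F₀ (Q.1 + j))) j ≤ 2 * (sd Q ^ α * Z) * ((1 / 2 : ℝ) ^ α) ^ j := by
    intro j
    unfold lam
    rw [div_le_iff₀ (sd_pos _)]
    have hR : 0 < sd (anc F₀ (Q.1 + j)) := sd_pos _
    have h2 := sum_mul_le hp (inn_sub (𝓕 := 𝓕) (anc F₀ (Q.1 + j))) hA hR (sum_sq_inn_le H _)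
    refine h2.trans (le_of_eq ?_)
    have e1 : sd (anc F₀ (Q.1 + (j + 1))) = sd (anc F₀ (Q.1 + j)) / 2 := by
      rw [sd_anc, sd_anc, ← Nat.add_assoc, pow_succ]
      field_simp
    have e2 : sd (anc F₀ (Q.1 + j)) = sd Q * (1 / 2) ^ j := by
      rw [sd_anc]
      unfold sd
      rw [pow_add]
      field_simp
      rw [← mul_pow]
      norm_num
    have e3 : sd (anc F₀ (Q.1 + j)) ^ (2 - 2 / p) =
        sd (anc F₀ (Q.1 + j)) ^ α * sd (anc F₀ (Q.1 + j)) := by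
      conv_rhs => rw [← Real.rpow_one (sd (anc F₀ (Q.1 + j)))]
      rw [Real.rpow_one, ← Real.rpow_add_one hR.ne']
      congr 1
      rw [hα]
      ring
    have e4 : sd (anc F₀ (Q.1 + j)) ^ α = sd Q ^ α * ((1 / 2 : ℝ) ^ α) ^ j := by
      rw [e2, Real.mul_rpow (sd_pos Q).le (by positivity)]
      congr 1
      rw [← Real.rpow_natCast, ← Real.rpow_natCast, ← Real.rpow_mul (by norm_num),
        ← Real.rpow_mul (by norm_num), mul_comm]
    rw [e3, e4, e1]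
    ring
  refine (Finset.sum_le_sum fun j _ => h1 j).trans ?_
  rw [← Finset.mul_sum]
  have hx0 : (0:ℝ) ≤ (1 / 2 : ℝ) ^ α := Real.rpow_nonneg (by norm_num) _
  have hx1 : (1 / 2 : ℝ) ^ α < 1 := half_rpow_lt_one hp
  have h3 : ∑ j ∈ Finset.range J, ((1 / 2 : ℝ) ^ α) ^ j ≤ 1 / (1 - (1 / 2 : ℝ) ^ α) := by
    have := Summable.sum_le_tsum (Finset.range J) (fun j _ => pow_nonneg hx0 j)
      (summable_geometric_of_lt_one hx0 hx1)
    rwa [tsum_geometric_of_lt_one hx0 hx1, ← one_div] at this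
  have h4 : 0 ≤ 2 * (sd Q ^ α * Z) :=
    mul_nonneg zero_le_two (mul_nonneg (Real.rpow_nonneg (sd_pos Q).le _) hZ0)
  refine (mul_le_mul_of_nonneg_left h3 h4).trans (le_of_eq ?_)
  ring

/-- **Discrete Morrey inequality.** A dyadic square `Q` tiled by finitely many dyadic squares of
arbitrary sizes; a continuous function with oscillation `≤ A F` on the square `F`; `p > 2`. -/
theorem morrey (hp : 2 < p) (H : Tlg Q 𝓕) {w : ℝ × ℝ → ℝ}
    (hw : ContinuousOn w (sq (cr Q) (sd Q))) (hA : ∀ F ∈ 𝓕, 0 ≤ A F)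
    (hosc : ∀ F ∈ 𝓕, ∀ x ∈ sq (cr F) (sd F), ∀ y ∈ sq (cr F) (sd F), |w x - w y| ≤ A F)
    {x y : ℝ × ℝ} (hx : x ∈ sq (cr Q) (sd Q)) (hy : y ∈ sq (cr Q) (sd Q)) :
    |w x - w y| ≤ mor p * (sd Q ^ (1 - 2 / p) * Zen p 𝓕 A ^ (1 / p)) := by
  have hp0 : 0 < p := by linarith
  have hZ : 0 ≤ sd Q ^ (1 - 2 / p) * Zen p 𝓕 A ^ (1 / p) :=
    mul_nonneg (Real.rpow_nonneg (sd_pos Q).le _) (Real.rpow_nonneg (Zen_nonneg hA) _)
  have hlt := half_rpow_lt_one hp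
  have hd : 0 ≤ 12 / (1 - (1 / 2 : ℝ) ^ (1 - 2 / p)) := div_nonneg (by norm_num) (by linarith)
  by_cases hQ : Q ∈ 𝓕
  · have h1 := (hosc Q hQ x hx y hy).trans (osc_le hp hA hQ le_rfl)
    refine h1.trans ?_
    have : 1 ≤ mor p := by unfold mor; linarith
    nlinarith
  · have hgen : ∀ F ∈ 𝓕, Q.1 < F.1 := by
      intro F hF
      refine lt_of_le_of_ne (H.gen F hF) fun h => hQ ?_
      have h1 : anc F Q.1 = Q := anc_top H hF
      rw [h, anc_self] at h1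
      rwa [← h1]
    -- every point is in a tile
    have hcl : sq (cr Q) (sd Q) ⊆ ⋃ F ∈ 𝓕, sq (cr F) (sd F) := by
      rw [← closure_hs]
      refine closure_minimal (H.cov.trans ?_)
        (isClosed_biUnion_finset fun F _ => isClosed_Icc.prod isClosed_Icc)
      exact iUnion₂_mono fun F _ => hs_sub F
    obtain ⟨F, hF, hxF⟩ := mem_iUnion₂.1 (hcl hx)
    obtain ⟨G, hG, hyG⟩ := mem_iUnion₂.1 (hcl hy)
    have hsdF : sd F ≤ sd Q := by
      unfold sd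
      exact one_div_le_one_div_of_le (by positivity)
        (pow_le_pow_right₀ (by norm_num) (hgen F hF).le)
    have hsdG : sd G ≤ sd Q := by
      unfold sd
      exact one_div_le_one_div_of_le (by positivity)
        (pow_le_pow_right₀ (by norm_num) (hgen G hG).le)
    have hFe : anc F (Q.1 + (F.1 - Q.1)) = F := by
      rw [show Q.1 + (F.1 - Q.1) = F.1 by have := hgen F hF; omega, anc_self]
    have hGe : anc G (Q.1 + (G.1 - Q.1)) = G := by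
      rw [show Q.1 + (G.1 - Q.1) = G.1 by have := hgen G hG; omega, anc_self]
    have e0 : anc G (Q.1 + 0) = anc F (Q.1 + 0) := by
      rw [Nat.add_zero, anc_top H hF, anc_top H hG]
    have key := Chn.abs_sub_le (chn H hw hA hosc hF) (chn H hw hA hosc hG)
      (by have := hgen F hF; omega) (by have := hgen G hG; omega)
      (by simp only [e0]) (by simp only [e0]) (by simp only [e0])
      (θ := x) (θ' := y) (by simp only [hFe]; exact hxF) (by simp only [hGe]; exact hyG)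
      (sum_lam_le hp H hA F _) (sum_lam_le hp H hA G _)
    refine key.trans ?_
    have h1 := osc_le hp hA hF hsdF
    have h2 := osc_le hp hA hG hsdG
    have e : 6 * (2 / (1 - (1 / 2 : ℝ) ^ (1 - 2 / p)) *
        (sd Q ^ (1 - 2 / p) * Zen p 𝓕 A ^ (1 / p))) =
        12 / (1 - (1 / 2 : ℝ) ^ (1 - 2 / p)) * (sd Q ^ (1 - 2 / p) * Zen p 𝓕 A ^ (1 / p)) := by
      ring
    rw [e]
    unfold mor
    nlinarith

end Vale.Agent.P073.H233
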