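import Vale.Agent.P073.H233.Chain
import Mathlib.MeasureTheory.Measure.Lebesgue.Complex
import Mathlib.MeasureTheory.Measure.Prod
import Mathlib.Analysis.MeanInequalities
import Mathlib.Analysis.SpecialFunctions.Pow.Real

/-!
# P073, H233 (CONE3-LP): dyadic squares of the plane
-/

open Set MeasureTheory Metric Topology
open scoped ENNReal

namespace Vale.Agent.P073.H233

/-- index of a dyadic square of the plane -/
abbrev D2 := ℕ × ℤ × ℤ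

/-- the lower left corner -/
noncomputable def cr (q : D2) : ℝ × ℝ := ((q.2.1 : ℝ) / 2 ^ q.1, (q.2.2 : ℝ) / 2 ^ q.1)

/-- the side -/
noncomputable def sd (q : D2) : ℝ := 1 / 2 ^ q.1

/-- the half open square -/
def hs (q : D2) : Set (ℝ × ℝ) := {z | ⌊(2:ℝ) ^ q.1 * z.1⌋ = q.2.1 ∧ ⌊(2:ℝ) ^ q.1 * z.2⌋ = q.2.2}

/-- the square of generation `m` at `z` -/
noncomputable def att (m : ℕ) (z : ℝ × ℝ) : D2 := (m, ⌊(2:ℝ) ^ m * z.1⌋, ⌊(2:ℝ) ^ m * z.2⌋)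

theorem sd_pos (q : D2) : 0 < sd q := by unfold sd; positivity

theorem mem_hs_att (m : ℕ) (z : ℝ × ℝ) : z ∈ hs (att m z) := ⟨rfl, rfl⟩

theorem eq_att {q : D2} {z : ℝ × ℝ} (h : z ∈ hs q) : q = att q.1 z := by
  obtain ⟨h1, h2⟩ := h
  unfold att
  rw [h1, h2]

theorem floor_iff {m : ℕ} {x : ℝ} {i : ℤ} :
    ⌊(2:ℝ) ^ m * x⌋ = i ↔ x ∈ Ico ((i:ℝ) / 2 ^ m) ((i:ℝ) / 2 ^ m + 1 / 2 ^ m) := by
  have h2 : (0:ℝ) < 2 ^ m := by positivity
  rw [Int.floor_eq_iff, mem_Ico, div_le_iff₀ h2, ← add_div, lt_div_iff₀ h2, mul_comm x]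

theorem hs_eq (q : D2) :
    hs q = Ico (cr q).1 ((cr q).1 + sd q) ×ˢ Ico (cr q).2 ((cr q).2 + sd q) := by
  ext z
  exact and_congr floor_iff floor_iff

theorem hs_sub (q : D2) : hs q ⊆ sq (cr q) (sd q) := by
  rw [hs_eq]
  exact prod_mono Ico_subset_Icc_self Ico_subset_Icc_self

theorem closure_hs (q : D2) : closure (hs q) = sq (cr q) (sd q) := by
  rw [hs_eq, closure_prod_eq, closure_Ico, closure_Ico]
  · rfl
  · have := sd_pos q; linarith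
  · have := sd_pos q; linarith

theorem cr_mem (q : D2) : cr q ∈ hs q := by
  rw [hs_eq]
  have := sd_pos q
  exact ⟨⟨le_rfl, by linarith⟩, ⟨le_rfl, by linarith⟩⟩

theorem floor_of_floor {m j : ℕ} (h : j ≤ m) {x y : ℝ} (hxy : ⌊(2:ℝ) ^ m * x⌋ = ⌊(2:ℝ) ^ m * y⌋) :
    ⌊(2:ℝ) ^ j * x⌋ = ⌊(2:ℝ) ^ j * y⌋ := by
  obtain ⟨d, rfl⟩ := Nat.exists_eq_add_of_le h
  have key : ∀ x : ℝ, ⌊(2:ℝ) ^ j * x⌋ = ⌊(2:ℝ) ^ (j + d) * x⌋ / (2 ^ d : ℕ) := by
    intro x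
    have e : (2:ℝ) ^ j * x = ((2:ℝ) ^ (j + d) * x) / ((2 ^ d : ℕ) : ℝ) := by
      push_cast
      rw [pow_add]
      field_simp
    rw [e, Int.floor_div_natCast]
  rw [key, key, hxy]

theorem hs_sub_of_mem {q q' : D2} {z : ℝ × ℝ} (hz : z ∈ hs q) (hz' : z ∈ hs q')
    (h : q'.1 ≤ q.1) : hs q ⊆ hs q' := by
  rintro y ⟨h1, h2⟩
  exact ⟨(floor_of_floor h (h1.trans hz.1.symm)).trans hz'.1,
    (floor_of_floor h (h2.trans hz.2.symm)).trans hz'.2⟩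

theorem sq_sub_sq {q q' : D2} (h : hs q ⊆ hs q') : sq (cr q) (sd q) ⊆ sq (cr q') (sd q') := by
  rw [← closure_hs, ← closure_hs]
  exact closure_mono h

theorem icc_sub {q q' : D2} (h : hs q ⊆ hs q') :
    Icc (cr q).1 ((cr q).1 + sd q) ⊆ Icc (cr q').1 ((cr q').1 + sd q') ∧
      Icc (cr q).2 ((cr q).2 + sd q) ⊆ Icc (cr q').2 ((cr q').2 + sd q') := by
  have h1 := sq_sub_sq h
  have h0 := sd_pos q
  have hc : cr q ∈ sq (cr q) (sd q) := ⟨⟨le_rfl, by linarith⟩, ⟨le_rfl, by linarith⟩⟩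
  constructor
  · intro x hx
    exact (h1 (show (x, (cr q).2) ∈ sq (cr q) (sd q) from ⟨hx, hc.2⟩)).1
  · intro x hx
    exact (h1 (show ((cr q).1, x) ∈ sq (cr q) (sd q) from ⟨hc.1, hx⟩)).2

theorem volume_hs (q : D2) : volume (hs q) = ENNReal.ofReal (sd q ^ 2) := by
  rw [hs_eq, Measure.volume_eq_prod, Measure.prod_prod, Real.volume_Ico, Real.volume_Ico,
    ← ENNReal.ofReal_mul (by have := sd_pos q; linarith)]
  congr 1
  ring

theorem measurableSet_hs (q : D2) : MeasurableSet (hs q) := by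
  rw [hs_eq]
  exact measurableSet_Ico.prod measurableSet_Ico

/-- the ancestor of generation `m` -/
noncomputable def anc (q : D2) (m : ℕ) : D2 := att m (cr q)

theorem hs_sub_anc {q : D2} {m : ℕ} (h : m ≤ q.1) : hs q ⊆ hs (anc q m) :=
  hs_sub_of_mem (cr_mem q) (mem_hs_att m (cr q)) h

theorem anc_self (q : D2) : anc q q.1 = q := (eq_att (cr_mem q)).symm

/-- a tiling of the dyadic square `Q` by finitely many dyadic squares -/
structure Tlg (Q : D2) (𝓕 : Finset D2) : Prop where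
  gen : ∀ F ∈ 𝓕, Q.1 ≤ F.1
  sub : ∀ F ∈ 𝓕, hs F ⊆ hs Q
  cov : hs Q ⊆ ⋃ F ∈ 𝓕, hs F
  dis : ∀ F ∈ 𝓕, ∀ G ∈ 𝓕, (hs F ∩ hs G).Nonempty → F = G

variable {Q : D2} {𝓕 : Finset D2}

open Classical in
/-- the squares of the tiling in a square -/
noncomputable def inn (𝓕 : Finset D2) (q : D2) : Finset D2 := 𝓕.filter fun F => hs F ⊆ hs q

theorem inn_sub (q : D2) : inn 𝓕 q ⊆ 𝓕 := by
  classical
  exact Finset.filter_subset _ _

theorem mem_inn {q F : D2} : F ∈ inn 𝓕 q ↔ F ∈ 𝓕 ∧ hs F ⊆ hs q := by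
  classical
  simp [inn]

theorem sum_sq_inn_le (H : Tlg Q 𝓕) (q : D2) : ∑ F ∈ inn 𝓕 q, sd F ^ 2 ≤ sd q ^ 2 := by
  have h1 : ∑ F ∈ inn 𝓕 q, ENNReal.ofReal (sd F ^ 2) ≤ ENNReal.ofReal (sd q ^ 2) := by
    rw [← volume_hs q]
    calc ∑ F ∈ inn 𝓕 q, ENNReal.ofReal (sd F ^ 2) = ∑ F ∈ inn 𝓕 q, volume (hs F) :=
          Finset.sum_congr rfl fun F _ => (volume_hs F).symm
      _ = volume (⋃ F ∈ inn 𝓕 q, hs F) := by
          rw [measure_biUnion_finset ?_ fun F _ => measurableSet_hs F]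
          intro F hF G hG hne
          by_contra hnd
          exact hne (H.dis F (inn_sub q hF) G (inn_sub q hG)
            (Set.not_disjoint_iff_nonempty_inter.1 hnd))
      _ ≤ volume (hs q) := measure_mono (iUnion₂_subset fun F hF => (mem_inn.1 hF).2)
  rw [← ENNReal.ofReal_sum_of_nonneg fun F _ => by positivity] at h1
  exact (ENNReal.ofReal_le_ofReal_iff (by positivity)).1 h1

/-- the ancestors of a tile are covered by the tiles in them -/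
theorem cov_anc (H : Tlg Q 𝓕) {F₀ : D2} (hF : F₀ ∈ 𝓕) {m : ℕ} (hQ : Q.1 ≤ m) (hm : m ≤ F₀.1) :
    sq (cr (anc F₀ m)) (sd (anc F₀ m)) ⊆ ⋃ F ∈ inn 𝓕 (anc F₀ m), sq (cr F) (sd F) := by
  rw [← closure_hs]
  refine closure_minimal ?_ ?_
  · intro z hz
    have hzQ : z ∈ hs Q := by
      have h1 : cr F₀ ∈ hs Q := H.sub F₀ hF (cr_mem F₀)
      have h2 : cr F₀ ∈ hs (anc F₀ m) := mem_hs_att _ _
      exact hs_sub_of_mem h2 h1 hQ hz
    obtain ⟨F, hF', hzF⟩ := mem_iUnion₂.1 (H.cov hzQ)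
    rcases le_or_gt m F.1 with h | h
    · exact mem_iUnion₂.2 ⟨F, mem_inn.2 ⟨hF', hs_sub_of_mem hzF hz h⟩, hs_sub F hzF⟩
    · exfalso
      have h1 : hs (anc F₀ m) ⊆ hs F := hs_sub_of_mem hz hzF h.le
      have h2 : F₀ = F := H.dis F₀ hF F hF' ⟨cr F₀, cr_mem F₀, h1 (mem_hs_att _ _)⟩
      rw [← h2] at h
      omega
  · exact isClosed_biUnion_finset fun F _ => isClosed_Icc.prod isClosed_Icc

end Vale.Agent.P073.H233
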