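import Mathlib.MeasureTheory.Measure.Lebesgue.Basic
import Mathlib.MeasureTheory.Integral.Average
import Mathlib.Topology.Connected.Basic
import Mathlib.Analysis.Convex.Topology

/-!
# P073, H233 (CONE3-LP): discrete Morrey inequality, lines

A square of the plane is covered by finitely many smaller closed squares `Fs i`; the oscillation of the
continuous function `w` on `Fs i` is at most `A i`.
-/

open Set MeasureTheory Metric Topology
open scoped ENNReal

namespace Vale.Agent.P073.H233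

/-- **connected cover**: the oscillation on a connected set is at most the sum of the
oscillations on the pieces of a finite cover -/
theorem abs_sub_le_of_cover {X ι : Type*} [TopologicalSpace X] {K : Set X} (hK : IsPreconnected K)
    {w : X → ℝ} (hw : ContinuousOn w K) (T : Finset ι) {C : ι → Set X} {A : ι → ℝ}
    (hA0 : ∀ i ∈ T, 0 ≤ A i) (hcov : K ⊆ ⋃ i ∈ T, C i)
    (hA : ∀ i ∈ T, ∀ x ∈ K, x ∈ C i → ∀ y ∈ K, y ∈ C i → |w x - w y| ≤ A i)
    {x y : X} (hx : x ∈ K) (hy : y ∈ K) : |w x - w y| ≤ ∑ i ∈ T, A i := by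
  have h1 : IsPreconnected (w '' K) := hK.image w hw
  have h2 : uIcc (w y) (w x) ⊆ w '' K := by
    have := h1.ordConnected
    exact this.uIcc_subset (mem_image_of_mem _ hy) (mem_image_of_mem _ hx)
  have h3 : w '' K ⊆ ⋃ i ∈ T, w '' (K ∩ C i) := by
    rintro _ ⟨z, hz, rfl⟩
    obtain ⟨i, hi⟩ := mem_iUnion.1 (hcov hz)
    obtain ⟨hiT, hzi⟩ := mem_iUnion.1 hi
    exact mem_iUnion₂.2 ⟨i, hiT, mem_image_of_mem _ ⟨hz, hzi⟩⟩
  have h4 : ∀ i ∈ T, volume (w '' (K ∩ C i)) ≤ ENNReal.ofReal (A i) := by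
    intro i hi
    refine (Real.volume_le_diam _).trans ?_
    refine Metric.ediam_le ?_
    rintro _ ⟨a, ⟨haK, ha⟩, rfl⟩ _ ⟨b, ⟨hbK, hb⟩, rfl⟩
    rw [edist_dist, Real.dist_eq]
    exact ENNReal.ofReal_le_ofReal (hA i hi a haK ha b hbK hb)
  have h5 : ENNReal.ofReal |w x - w y| ≤ ENNReal.ofReal (∑ i ∈ T, A i) := by
    calc ENNReal.ofReal |w x - w y| = volume (uIcc (w y) (w x)) := by
          rw [uIcc, Real.volume_Icc, max_sub_min_eq_abs, abs_sub_comm]
      _ ≤ volume (w '' K) := measure_mono h2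
      _ ≤ volume (⋃ i ∈ T, w '' (K ∩ C i)) := measure_mono h3
      _ ≤ ∑ i ∈ T, volume (w '' (K ∩ C i)) := measure_biUnion_finset_le _ _
      _ ≤ ∑ i ∈ T, ENNReal.ofReal (A i) := Finset.sum_le_sum h4
      _ = _ := (ENNReal.ofReal_sum_of_nonneg hA0).symm
  exact (ENNReal.ofReal_le_ofReal_iff (Finset.sum_nonneg hA0)).1 h5

/-- closed square with lower left corner `a` and side `r` -/
def sq (a : ℝ × ℝ) (r : ℝ) : Set (ℝ × ℝ) := Icc a.1 (a.1 + r) ×ˢ Icc a.2 (a.2 + r)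

variable {ι : Type*}

open Classical in
/-- the sum of the oscillations along the row `t` -/
noncomputable def rowSum (T : Finset ι) (a : ι → ℝ × ℝ) (r A : ι → ℝ) (t : ℝ) : ℝ :=
  ∑ i ∈ T, (Icc (a i).2 ((a i).2 + r i)).indicator (fun _ => A i) t

open Classical in
/-- the sum of the oscillations along the column `t` -/
noncomputable def colSum (T : Finset ι) (a : ι → ℝ × ℝ) (r A : ι → ℝ) (t : ℝ) : ℝ :=
  ∑ i ∈ T, (Icc (a i).1 ((a i).1 + r i)).indicator (fun _ => A i) t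

/-- the data: squares `sq (a i) (r i)`, `i ∈ T`, cover the square `sq b R`; oscillations `A i` -/
structure Cov (w : ℝ × ℝ → ℝ) (T : Finset ι) (a : ι → ℝ × ℝ) (r A : ι → ℝ) (b : ℝ × ℝ) (R : ℝ) :
    Prop where
  cov : sq b R ⊆ ⋃ i ∈ T, sq (a i) (r i)
  cont : ContinuousOn w (sq b R)
  A0 : ∀ i ∈ T, 0 ≤ A i
  r0 : ∀ i ∈ T, 0 ≤ r i
  osc : ∀ i ∈ T, ∀ x ∈ sq (a i) (r i), ∀ y ∈ sq (a i) (r i), |w x - w y| ≤ A i

variable {w : ℝ × ℝ → ℝ} {T : Finset ι} {a : ι → ℝ × ℝ} {r A : ι → ℝ} {b : ℝ × ℝ} {R : ℝ}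

theorem Cov.row (H : Cov w T a r A b R) {t x y : ℝ} (ht : t ∈ Icc b.2 (b.2 + R))
    (hx : x ∈ Icc b.1 (b.1 + R)) (hy : y ∈ Icc b.1 (b.1 + R)) :
    |w (x, t) - w (y, t)| ≤ rowSum T a r A t := by
  classical
  set K : Set (ℝ × ℝ) := Icc b.1 (b.1 + R) ×ˢ {t} with hK
  have hKc : IsPreconnected K := isPreconnected_Icc.prod isPreconnected_singleton
  have hKs : K ⊆ sq b R := fun z hz => ⟨hz.1, by rw [show z.2 = t from hz.2]; exact ht⟩
  have hcov : K ⊆ ⋃ i ∈ T.filter (fun i => t ∈ Icc (a i).2 ((a i).2 + r i)), sq (a i) (r i) := by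
    intro z hz
    obtain ⟨i, hi, hzi⟩ := mem_iUnion₂.1 (H.cov (hKs hz))
    refine mem_iUnion₂.2 ⟨i, Finset.mem_filter.2 ⟨hi, ?_⟩, hzi⟩
    rw [← show z.2 = t from hz.2]
    exact hzi.2
  have := abs_sub_le_of_cover hKc (H.cont.mono hKs)
    (T.filter (fun i => t ∈ Icc (a i).2 ((a i).2 + r i))) (C := fun i => sq (a i) (r i)) (A := A)
    (fun i hi => H.A0 i (Finset.mem_filter.1 hi).1) hcov
    (fun i hi x _ hx y _ hy => H.osc i (Finset.mem_filter.1 hi).1 x hx y hy)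
    (x := (x, t)) (y := (y, t)) ⟨hx, rfl⟩ ⟨hy, rfl⟩
  refine this.trans (le_of_eq ?_)
  unfold rowSum
  rw [Finset.sum_filter]
  refine Finset.sum_congr rfl fun i _ => ?_
  by_cases h : t ∈ Icc (a i).2 ((a i).2 + r i)
  · rw [if_pos h, indicator_of_mem h]
  · rw [if_neg h, indicator_of_notMem h]

theorem Cov.col (H : Cov w T a r A b R) {t x y : ℝ} (ht : t ∈ Icc b.1 (b.1 + R))
    (hx : x ∈ Icc b.2 (b.2 + R)) (hy : y ∈ Icc b.2 (b.2 + R)) :
    |w (t, x) - w (t, y)| ≤ colSum T a r A t := by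
  classical
  set K : Set (ℝ × ℝ) := {t} ×ˢ Icc b.2 (b.2 + R) with hK
  have hKc : IsPreconnected K := isPreconnected_singleton.prod isPreconnected_Icc
  have hKs : K ⊆ sq b R := fun z hz => ⟨by rw [show z.1 = t from hz.1]; exact ht, hz.2⟩
  have hcov : K ⊆ ⋃ i ∈ T.filter (fun i => t ∈ Icc (a i).1 ((a i).1 + r i)), sq (a i) (r i) := by
    intro z hz
    obtain ⟨i, hi, hzi⟩ := mem_iUnion₂.1 (H.cov (hKs hz))
    refine mem_iUnion₂.2 ⟨i, Finset.mem_filter.2 ⟨hi, ?_⟩, hzi⟩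
    rw [← show z.1 = t from hz.1]
    exact hzi.1
  have := abs_sub_le_of_cover hKc (H.cont.mono hKs)
    (T.filter (fun i => t ∈ Icc (a i).1 ((a i).1 + r i))) (C := fun i => sq (a i) (r i)) (A := A)
    (fun i hi => H.A0 i (Finset.mem_filter.1 hi).1) hcov
    (fun i hi x _ hx y _ hy => H.osc i (Finset.mem_filter.1 hi).1 x hx y hy)
    (x := (t, x)) (y := (t, y)) ⟨rfl, hx⟩ ⟨rfl, hy⟩
  refine this.trans (le_of_eq ?_)
  unfold colSum
  rw [Finset.sum_filter]
  refine Finset.sum_congr rfl fun i _ => ?_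
  by_cases h : t ∈ Icc (a i).1 ((a i).1 + r i)
  · rw [if_pos h, indicator_of_mem h]
  · rw [if_neg h, indicator_of_notMem h]

/-- an average choice of a point for a finite sum of indicators of intervals -/
theorem exists_indicator_sum_le (T : Finset ι) {c : ι → ℝ} {r A : ι → ℝ} (hr : ∀ i ∈ T, 0 ≤ r i)
    (hA : ∀ i ∈ T, 0 ≤ A i) {u ρ : ℝ} (hρ : 0 < ρ) :
    ∃ t ∈ Icc u (u + ρ), ∑ i ∈ T, (Icc (c i) (c i + r i)).indicator (fun _ => A i) t ≤
      (∑ i ∈ T, r i * A i) / ρ := by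
  classical
  set f : ℝ → ℝ := fun t => ∑ i ∈ T, (Icc (c i) (c i + r i)).indicator (fun _ => A i) t with hf
  have hint : ∀ i ∈ T, Integrable ((Icc (c i) (c i + r i)).indicator fun _ => A i)
      (volume.restrict (Icc u (u + ρ))) := by
    intro i _
    refine (integrable_const (A i)).indicator measurableSet_Icc
  have hvol : volume (Icc u (u + ρ)) = ENNReal.ofReal ρ := by
    rw [Real.volume_Icc]; congr 1; ring
  have hv0 : volume (Icc u (u + ρ)) ≠ 0 := by
    rw [hvol]; exact (ENNReal.ofReal_pos.2 hρ).ne'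
  have hv1 : volume (Icc u (u + ρ)) ≠ ⊤ := by rw [hvol]; exact ENNReal.ofReal_ne_top
  have hfi : IntegrableOn f (Icc u (u + ρ)) volume := integrable_finsetSum T hint
  obtain ⟨t, ht, hle⟩ := exists_le_setAverage hv0 hv1 hfi
  refine ⟨t, ht, hle.trans ?_⟩
  rw [setAverage_eq, measureReal_def, hvol, ENNReal.toReal_ofReal hρ.le, smul_eq_mul,
    inv_mul_eq_div]
  gcongr
  rw [integral_finsetSum T hint]
  refine Finset.sum_le_sum fun i hi => ?_
  rw [integral_indicator measurableSet_Icc, integral_const, smul_eq_mul]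
  refine mul_le_mul_of_nonneg_right ?_ (hA i hi)
  rw [measureReal_def, Measure.restrict_restrict measurableSet_Icc, Measure.restrict_apply_univ]
  refine ENNReal.toReal_le_of_le_ofReal (hr i hi) ?_
  refine (measure_mono inter_subset_left).trans (le_of_eq ?_)
  rw [Real.volume_Icc]; congr 1; ring

end Vale.Agent.P073.H233
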