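import Vale.Agent.P073.H31.FSq
import Vale.Agent.P073.H926.AffCell
import Vale.Agent.P073.H880.Met3

/-!
# P073, block H233, [OSC-F], part A: paths in a square and finitely many conical functions

* `exists_chain`: a path which is covered by finitely many closed sets is a chain of at most as many
  pieces, the ends of each piece lie in one of the sets;
* `AffCov F u 𝒯 T`: finitely many convex closed sets cover `F`, the functions `u` are affine on the
  segments in these sets; `exists_affCov`: squares and conical functions;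
* `exists_pts`: a path of small cost can be replaced by a short chain of segments.
-/

open Set Metric Topology Filter
open scoped ENNReal

namespace Vale.Agent.P073.H233

open _root_.P073
open _root_.P073.H880 (dsum dsum_nonneg cvar)
open Vale.Agent.P073.St (V)
open Vale.Agent.P073.H73 (sqr)

section chain

variable {α ι : Type*} [TopologicalSpace α]

/-- **the chain of a path**: the last exit times -/
theorem exists_chain {γ : ℝ → α} {b : ℝ} {T : ι → Set α} :
    ∀ (m : ℕ) (𝒯 : Finset ι) (a : ℝ), 𝒯.card ≤ m → a ≤ b → ContinuousOn γ (Icc a b) →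
      (∀ j ∈ 𝒯, IsClosed (T j)) → (∀ t ∈ Icc a b, ∃ j ∈ 𝒯, γ t ∈ T j) →
      ∃ (n : ℕ) (s : ℕ → ℝ), n ≤ m ∧ s 0 = a ∧ s n = b ∧ (∀ i < n, s i ≤ s (i + 1)) ∧
        (∀ i ≤ n, s i ∈ Icc a b) ∧
        ∀ i < n, ∃ j ∈ 𝒯, γ (s i) ∈ T j ∧ γ (s (i + 1)) ∈ T j := by
  classical
  intro m
  induction m with
  | zero =>
    intro 𝒯 a hc hab _ _ hcov
    obtain ⟨j, hj, _⟩ := hcov a (left_mem_Icc.2 hab)
    have : 𝒯 = ∅ := Finset.card_eq_zero.1 (Nat.le_zero.1 hc)
    rw [this] at hj
    exact absurd hj (Finset.notMem_empty j)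
  | succ m ih =>
    intro 𝒯 a hc hab hγ hT hcov
    obtain ⟨j, hj, hja⟩ := hcov a (left_mem_Icc.2 hab)
    set S : Set ℝ := Icc a b ∩ γ ⁻¹' T j with hS
    have hSc : IsClosed S := hγ.preimage_isClosed_of_isClosed isClosed_Icc (hT j hj)
    have hScpt : IsCompact S := isCompact_Icc.of_isClosed_subset hSc inter_subset_left
    have hSne : S.Nonempty := ⟨a, left_mem_Icc.2 hab, hja⟩
    obtain ⟨hcI, hcT⟩ := hScpt.sSup_mem hSne
    set c := sSup S with hcdef
    have hlast : ∀ t ∈ S, t ≤ c := fun t ht => le_csSup hScpt.bddAbove ht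
    rcases eq_or_lt_of_le hcI.2 with hcb | hcb
    · refine ⟨1, fun i => if i = 0 then a else b, by omega, by simp, by simp, ?_, ?_, ?_⟩
      · intro i hi
        obtain rfl : i = 0 := by omega
        simpa using hab
      · intro i _
        by_cases h : i = 0
        · simp [h, hab]
        · simp [h, hab]
      · intro i hi
        obtain rfl : i = 0 := by omega
        refine ⟨j, hj, by simpa using hja, ?_⟩
        rw [hcb] at hcT
        simpa using hcT
    · have hsub : Icc c b ⊆ Icc a b := Icc_subset_Icc_left hcI.1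
      have hcl : IsClosed (⋃ i ∈ 𝒯.erase j, T i) :=
        (𝒯.erase j).finite_toSet.isClosed_biUnion fun i hi =>
          hT i (Finset.mem_of_mem_erase (Finset.mem_coe.1 hi))
      have hcl' : IsClosed (Icc c b ∩ γ ⁻¹' (⋃ i ∈ 𝒯.erase j, T i)) :=
        (hγ.mono hsub).preimage_isClosed_of_isClosed isClosed_Icc hcl
      have hIoc : Ioc c b ⊆ Icc c b ∩ γ ⁻¹' (⋃ i ∈ 𝒯.erase j, T i) := by
        intro t ht
        have ht' : t ∈ Icc c b := Ioc_subset_Icc_self ht
        obtain ⟨i, hi, hti⟩ := hcov t (hsub ht')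
        have hij : i ≠ j := by
          rintro rfl
          exact absurd (hlast t ⟨hsub ht', hti⟩) (not_le.2 ht.1)
        exact ⟨ht', mem_iUnion₂.2 ⟨i, Finset.mem_erase.2 ⟨hij, hi⟩, hti⟩⟩
      have hall : Icc c b ⊆ Icc c b ∩ γ ⁻¹' (⋃ i ∈ 𝒯.erase j, T i) := by
        have h1 := hcl'.closure_subset_iff.2 hIoc
        rwa [closure_Ioc hcb.ne] at h1
      have hcov' : ∀ t ∈ Icc c b, ∃ i ∈ 𝒯.erase j, γ t ∈ T i := by
        intro t ht
        obtain ⟨i, hi, hti⟩ := mem_iUnion₂.1 (hall ht).2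
        exact ⟨i, hi, hti⟩
      obtain ⟨n, s, hn, hs0, hsn, hmono, hmem, hpair⟩ := ih (𝒯.erase j) c
        (by rw [Finset.card_erase_of_mem hj]; omega) hcb.le (hγ.mono hsub)
        (fun i hi => hT i (Finset.mem_of_mem_erase hi)) hcov'
      refine ⟨n + 1, fun i => if i = 0 then a else s (i - 1), by omega, by simp, ?_, ?_, ?_, ?_⟩
      · simpa using hsn
      · intro i hi
        rcases Nat.eq_zero_or_pos i with rfl | hi0
        · simpa [hs0] using hcI.1
        · obtain ⟨i', rfl⟩ : ∃ i', i = i' + 1 := ⟨i - 1, by omega⟩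
          simpa using hmono i' (by omega)
      · intro i hi
        rcases Nat.eq_zero_or_pos i with rfl | hi0
        · simp [hab]
        · obtain ⟨i', rfl⟩ : ∃ i', i = i' + 1 := ⟨i - 1, by omega⟩
          simpa using hsub (hmem i' (by omega))
      · intro i hi
        rcases Nat.eq_zero_or_pos i with rfl | hi0
        · refine ⟨j, hj, by simpa using hja, ?_⟩
          simpa [hs0] using hcT
        · obtain ⟨i', rfl⟩ : ∃ i', i = i' + 1 := ⟨i - 1, by omega⟩
          obtain ⟨k, hk, h1, h2⟩ := hpair i' (by omega)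
          exact ⟨k, Finset.mem_of_mem_erase hk, by simpa using h1, by simpa using h2⟩

end chain

/-! ### Affine covers -/

section cov

variable {κ : Type*} {E : Type*} [NormedAddCommGroup E] [NormedSpace ℝ E]

/-- finitely many convex closed sets which cover `F`, `u` is affine on the segments in these sets -/
structure AffCov {ι : Type*} (F : Set E) (u : κ → E → ℝ) (𝒯 : Finset ι) (T : ι → Set E) :
    Prop where
  closed : ∀ j ∈ 𝒯, IsClosed (T j)
  sub : ∀ j ∈ 𝒯, T j ⊆ F
  convex : ∀ j ∈ 𝒯, Convex ℝ (T j)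
  cover : ∀ x ∈ F, ∃ j ∈ 𝒯, x ∈ T j
  aff : ∀ j ∈ 𝒯, ∀ i, ∀ x ∈ T j, ∀ y ∈ T j, ∀ τ ∈ Icc (0:ℝ) 1,
    u i (AffineMap.lineMap x y τ) = u i x + τ * (u i y - u i x)

/-- **squares and conical functions** -/
theorem exists_affCov [Fintype κ] {a : V} {l : Fin 3} {σ : ℝ} (hσ : 0 < σ) {u : κ → V → ℝ}
    (hu : ∀ i, ConicalOn (u i) (sqr a l σ)) :
    ∃ (𝒯 : Finset (Finset (H579.P →ᵃ[ℝ] ℝ))) (T : Finset (H579.P →ᵃ[ℝ] ℝ) → Set V),
      AffCov (sqr a l σ) u 𝒯 T := by
  classical
  have hmaps : MapsTo (FW31.sqf a l σ) H31.Rct (sqr a l σ) := fun z hz => FW31.sqf_mem hσ.le hz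
  have hcon : ConicalOn (fun z i => u i (FW31.sqf a l σ z)) H31.Rct := by
    intro z hz
    refine conicalWithinAt_pi (H31.locCone_Rct.conicalSet z hz) fun i => ?_
    exact ((hu i).comp (FW31.conicalOn_sqf H31.locCone_Rct.conicalSet) hmaps
      FW31.continuous_sqf.continuousOn) z hz
  have hconv : Convex ℝ H31.Rct := (convex_Icc 0 1).prod (convex_Icc 0 1)
  obtain ⟨L, -, -, hL⟩ := H926.exists_lines H31.isCompact_Rct hconv H31.locCone_Rct hcon ∅ ∅
    one_pos
  refine ⟨L.powerset, fun τ => FW31.sqf a l σ '' H926.cellA H31.Rct L τ, ⟨?_, ?_, ?_, ?_, ?_⟩⟩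
  · intro τ _
    exact ((H926.isCompact_cellA H31.isCompact_Rct).image FW31.continuous_sqf).isClosed
  · rintro τ - _ ⟨z, hz, rfl⟩
    exact hmaps (H926.cellA_subset hz)
  · rintro τ - _ ⟨x, hx, rfl⟩ _ ⟨y, hy, rfl⟩ α β hα hβ hαβ
    refine ⟨AffineMap.lineMap x y β, ?_, ?_⟩
    · have := (H926.convex_cellA hconv) hx hy hα hβ hαβ
      rw [AffineMap.lineMap_apply_module, show (1 - β) = α by linarith]
      exact this
    · rw [FW31.sqf_affine, AffineMap.lineMap_apply_module, show (1 - β) = α by linarith]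
  · intro x hx
    have h1 : FW31.sqi a l σ x ∈ H31.Rct := FW31.sqi_mem hσ hx
    obtain ⟨τ, hτ, hz⟩ := H926.SgnOn.exists_cellA (C := H31.Rct) (L := L)
      (S := {FW31.sqi a l σ x}) (fun l' _ => by
        rcases le_total 0 (l' (FW31.sqi a l σ x)) with h | h
        · exact Or.inl fun z hz => by rw [mem_singleton_iff.1 hz]; exact h
        · exact Or.inr fun z hz => by rw [mem_singleton_iff.1 hz]; exact h)
      (singleton_subset_iff.2 h1)
    exact ⟨τ, hτ, FW31.sqi a l σ x, hz rfl, FW31.sqf_sqi hσ hx⟩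
  · rintro τ - i _ ⟨x, hx, rfl⟩ _ ⟨y, hy, rfl⟩ t ht
    obtain ⟨⟨A, hA⟩, -, -⟩ := hL (H926.cellA H31.Rct L τ) H926.cellA_subset H926.sgnOn_cellA
    have hm : AffineMap.lineMap x y t ∈ H926.cellA H31.Rct L τ :=
      (H926.convex_cellA hconv).lineMap_mem hx hy ht
    have e : ∀ z ∈ H926.cellA H31.Rct L τ, u i (FW31.sqf a l σ z) = A z i := fun z hz =>
      congrFun (hA hz) i
    rw [← FW31.sqf_affine, e _ hm, e x hx, e y hy, AffineMap.apply_lineMap,
      AffineMap.lineMap_apply_module]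
    simp only [Pi.add_apply, Pi.smul_apply, smul_eq_mul]
    ring

variable {F : Set E} {u : κ → E → ℝ} {ι : Type*} {𝒯 : Finset ι} {T : ι → Set E}

/-- **paths of small cost**: a chain of few segments of the same cost -/
theorem AffCov.exists_pts [Fintype κ] (H : AffCov F u 𝒯 T) {γ : ℝ → E} {a b L : ℝ} (hab : a ≤ b)
    (hγ : ContinuousOn γ (Icc a b)) (hm : ∀ t ∈ Icc a b, γ t ∈ F) (hL : 0 ≤ L)
    (hc : cvar (fun s t => ENNReal.ofReal (dsum u (γ s) (γ t))) a b ≤ ENNReal.ofReal L) :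
    ∃ (n : ℕ) (q : ℕ → E), n ≤ 𝒯.card ∧ q 0 = γ a ∧ q n = γ b ∧ (∀ i ≤ n, q i ∈ F) ∧
      (∀ i < n, ∃ j ∈ 𝒯, q i ∈ T j ∧ q (i + 1) ∈ T j) ∧
      ∑ i ∈ Finset.range n, dsum u (q i) (q (i + 1)) ≤ L := by
  obtain ⟨n, s, hn, hs0, hsn, hmono, hmem, hpair⟩ := exists_chain 𝒯.card 𝒯 a le_rfl hab hγ
    H.closed fun t ht => H.cover _ (hm t ht)
  refine ⟨n, fun i => γ (s i), hn, congrArg γ hs0, congrArg γ hsn, fun i hi => hm _ (hmem i hi),
    hpair, ?_⟩
  have h1 := (H880.sum_le_cvar' (c := fun s t => ENNReal.ofReal (dsum u (γ s) (γ t)))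
    (a := a) (b := b) hmono hmem).trans hc
  rw [← ENNReal.ofReal_sum_of_nonneg fun i _ => dsum_nonneg _ _ _] at h1
  exact (ENNReal.ofReal_le_ofReal_iff hL).1 h1

/-- the total change of `u` on a segment -/
theorem AffCov.dsum_seg [Fintype κ] (H : AffCov F u 𝒯 T) {j : ι} (hj : j ∈ 𝒯) {p q : E}
    (hp : p ∈ T j) (hq : q ∈ T j) (hpq : p ≠ q) {x y : E} (hx : x ∈ segment ℝ p q)
    (hy : y ∈ segment ℝ p q) : dsum u x y = dsum u p q / ‖q - p‖ * ‖y - x‖ := by
  rw [segment_eq_image_lineMap] at hx hy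
  obtain ⟨s, hs, rfl⟩ := hx
  obtain ⟨t, ht, rfl⟩ := hy
  have h0 : ‖q - p‖ ≠ 0 := norm_ne_zero_iff.2 (sub_ne_zero.2 hpq.symm)
  have e1 : ‖(AffineMap.lineMap p q t : E) - AffineMap.lineMap p q s‖ = |t - s| * ‖q - p‖ := by
    rw [AffineMap.lineMap_apply, AffineMap.lineMap_apply, vsub_eq_sub, vadd_eq_add, vadd_eq_add,
      add_sub_add_right_eq_sub, ← sub_smul, norm_smul, Real.norm_eq_abs]
  have e2 : dsum u (AffineMap.lineMap p q s : E) (AffineMap.lineMap p q t) =
      |t - s| * dsum u p q := by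
    unfold dsum
    rw [Finset.mul_sum]
    refine Finset.sum_congr rfl fun i _ => ?_
    rw [H.aff j hj i p hp q hq s hs, H.aff j hj i p hp q hq t ht,
      show u i p + t * (u i q - u i p) - (u i p + s * (u i q - u i p)) =
        (t - s) * (u i q - u i p) by ring, abs_mul]
  rw [e1, e2]
  field_simp

end cov

end Vale.Agent.P073.H233
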