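import Vale.Agent.P073.H233.OscPA
import Vale.Agent.P073.H193.CellQ

/-!
# P073, block H233, [OSC-F], part B: the oscillation on a face after the collapse

* `seg_est`: the estimate on one segment on which the cost is linear;
* `AffCov.ev_osc`: the oscillation on a face;
* `exists_ev_osc`: square faces, the cost is the total change of finitely many conical functions.
-/

open Set Metric Topology Filter
open scoped ENNReal

namespace Vale.Agent.P073.H233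

open _root_.P073 _root_.P073.PA691 _root_.P073.TM
open _root_.P073.H880 (dsum dsum_nonneg cvar)
open Vale.Agent.P073.St (V)
open Vale.Agent.P073.H73 (Mesh sqr)
open Vale.Agent.P073.H471
open Vale.Agent.P073.H212 (IsSoft)
open Vale.Agent.P073.H193 (edges LAtC FaceCl)
open _root_.P073.H142 (FStar)
open _root_.P073.H950 (bsum)

variable {Ω Λ : Set V} {M : Mesh Ω} {w : V} {K : BoxCx Λ w} {S : Rad K} {W : Wid K S}
  {B : Boxes W} {X : PSet K} {R : Fac K} {Φ : ConHomeo Λ Λ} {μ : ℝ} {κ : Type*} [Fintype κ]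
  {u : κ → V → ℝ} {ι : Type*} {𝒯 : Finset ι} {T : ι → Set V} {f : V → V} {a e L' : ℝ}

/-- **one segment** -/
theorem seg_est {α : Type*} {F : α → Set V} {N t : α → ℝ} {k : α}
    (H : Small3 W X R f F N t) (HΦ : IsSoft B μ R Φ) (hμ : 0 ≤ μ) (hμ1 : μ ≤ 1)
    (HA : AffCov (F k) u 𝒯 T) (ha : 0 ≤ a) (he : 0 ≤ e) (ht : t k ≤ e)
    (hf : ContinuousOn f (F k))
    (hl : ∀ x ∈ F k, LAtC B X (fun y => a * dsum u x y + e * ‖y - x‖) (F k) f x)
    {j : ι} (hj : j ∈ 𝒯) {p q : V} (hp : p ∈ T j) (hq : q ∈ T j) :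
    ‖Φ.toFun (f p) - Φ.toFun (f q)‖ ≤ 8 * (a * dsum u p q + e * ‖q - p‖) := by
  have hD := dsum_nonneg u p q
  rcases eq_or_ne p q with rfl | hpq
  · rw [sub_self, norm_zero]
    have := norm_nonneg (p - p)
    positivity
  have hsub : segment ℝ p q ⊆ F k := ((HA.convex j hj).segment_subset hp hq).trans (HA.sub j hj)
  have h0 : 0 < ‖q - p‖ := norm_pos_iff.2 (sub_ne_zero.2 hpq.symm)
  set L : ℝ := a * (dsum u p q / ‖q - p‖) + e with hL
  have hL0 : 0 ≤ L := by positivity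
  have htL : t k ≤ L := by
    have : 0 ≤ a * (dsum u p q / ‖q - p‖) := by positivity
    linarith
  have key := H142.lip_of_local (convex_segment p q) (g := fun x => Φ.toFun (f x))
    (K := 8 * L) fun x hx => by
      refine LAt.est H HΦ hμ hμ1 hsub (hf.mono hsub) hx hL0 htL ?_
      refine ((hl x (hsub hx)).anti hsub).lat ?_
      filter_upwards [self_mem_nhdsWithin] with y hy
      rw [HA.dsum_seg hj hp hq hpq hx hy]
      refine le_of_eq ?_
      rw [hL]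
      ring
  refine (key p (left_mem_segment ℝ p q) q (right_mem_segment ℝ p q)).trans (le_of_eq ?_)
  rw [norm_sub_rev p q, hL]
  field_simp

/-- **the oscillation on a face** -/
theorem AffCov.ev_osc (hμ : 0 ≤ μ) (hμ1 : μ ≤ 1) {k : M.κ} (HA : AffCov (M.F k) u 𝒯 T)
    (ha : 0 ≤ a) (he : 0 < e) (hL : 0 ≤ L') (hf : ContinuousOn f (M.F k))
    (hl : ∀ x ∈ M.F k, LAtC B X (fun y => a * dsum u x y + e * ‖y - x‖) (M.F k) f x)
    (hpath : ∀ x ∈ M.F k, ∀ y ∈ M.F k, ∃ γ : ℝ → V, ContinuousOn γ (Icc 0 3) ∧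
      MapsTo γ (Icc 0 3) (M.F k) ∧ γ 0 = x ∧ γ 3 = y ∧
      cvar (fun s t => ENNReal.ofReal (dsum u (γ s) (γ t))) 0 3 ≤ ENNReal.ofReal L') :
    Ev B X μ M f (.inl k)
      (OscEst f k (8 * (a * L' + (𝒯.card * diam (M.F k)) * e))) := by
  refine ⟨e, he, fun R N t Φ h0 ht HS HΦ x hx y hy => ?_⟩
  obtain ⟨γ, g1, g2, g3, g4, g5⟩ := hpath x hx y hy
  obtain ⟨n, q, hn, hq0, hqn, hqF, hqT, hsum⟩ := HA.exists_pts (by norm_num) g1
    (fun t ht => g2 ht) hL g5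
  have hcpt : IsCompact (M.F k) := isCompact_face M k
  have h1 : ∀ i ∈ Finset.range n, dist (Φ.toFun (f (q i))) (Φ.toFun (f (q (i + 1)))) ≤
      8 * (a * dsum u (q i) (q (i + 1)) + e * diam (M.F k)) := by
    intro i hi
    rw [Finset.mem_range] at hi
    obtain ⟨j, hj, h2, h3⟩ := hqT i hi
    have h4 := seg_est (F := FQ M) (k := .inl k) HS HΦ hμ hμ1 HA ha he.le ht hf hl hj h2 h3
    rw [dist_eq_norm]
    have h5 := dist_le_diam_of_mem hcpt.isBounded (hqF _ (Nat.succ_le_of_lt hi)) (hqF _ hi.le)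
    rw [dist_eq_norm] at h5
    refine h4.trans ?_
    gcongr
  have h2 := dist_le_range_sum_dist (fun i => Φ.toFun (f (q i))) n
  rw [← dist_eq_norm, ← g3, ← g4, ← hq0, ← hqn]
  refine h2.trans ((Finset.sum_le_sum h1).trans ?_)
  rw [← Finset.mul_sum, Finset.sum_add_distrib, ← Finset.mul_sum, Finset.sum_const,
    Finset.card_range, nsmul_eq_mul]
  have h6 : (n : ℝ) ≤ 𝒯.card := by exact_mod_cast hn
  have h7 : 0 ≤ e * diam (M.F k) := mul_nonneg he.le diam_nonneg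
  have h8 := mul_le_mul_of_nonneg_right h6 h7
  have h9 := mul_le_mul_of_nonneg_left hsum ha
  linarith

/-- **square faces**: `N` depends only on the face and on the functions `u` -/
theorem exists_ev_osc (hμ : 0 ≤ μ) (hμ1 : μ ≤ 1) {k : M.κ} {a₀ : V} {l : Fin 3} {σ : ℝ}
    (hσ : 0 < σ) (hF : M.F k = sqr a₀ l σ) (hu : ∀ i, ConicalOn (u i) (M.F k)) :
    ∃ N : ℝ, 0 ≤ N ∧ ∀ (f : V → V) (a e L' : ℝ), 0 ≤ a → 0 < e → 0 ≤ L' →
      ContinuousOn f (M.F k) →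
      (∀ x ∈ M.F k, LAtC B X (fun y => a * dsum u x y + e * ‖y - x‖) (M.F k) f x) →
      (∀ x ∈ M.F k, ∀ y ∈ M.F k, ∃ γ : ℝ → V, ContinuousOn γ (Icc 0 3) ∧
        MapsTo γ (Icc 0 3) (M.F k) ∧ γ 0 = x ∧ γ 3 = y ∧
        cvar (fun s t => ENNReal.ofReal (dsum u (γ s) (γ t))) 0 3 ≤ ENNReal.ofReal L') →
      Ev B X μ M f (.inl k) (OscEst f k (8 * (a * L' + N * e))) := by
  obtain ⟨𝒯, T, HA⟩ := exists_affCov hσ (u := u) fun i => hF ▸ hu i
  rw [← hF] at HA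
  refine ⟨𝒯.card * diam (M.F k), mul_nonneg (Nat.cast_nonneg _) diam_nonneg, ?_⟩
  intro f a e L' ha he hL hf hl hpath
  exact HA.ev_osc hμ hμ1 ha he hL hf hl hpath

/-- the path clause of the face data, for a smaller cost -/
theorem path_of_faceCl {k : M.κ} {T : FStar (edges M) k} {b : (edges M).ε → ℝ} {C₁ C₂ : ℝ}
    {cst : V → V → ℝ} (H : FaceCl M k T b C₁ C₂ cst)
    (hc : ∀ x ∈ M.F k, ∀ y ∈ M.F k, dsum u x y ≤ cst x y) :
    ∀ x ∈ M.F k, ∀ y ∈ M.F k, ∃ γ : ℝ → V, ContinuousOn γ (Icc 0 3) ∧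
      MapsTo γ (Icc 0 3) (M.F k) ∧ γ 0 = x ∧ γ 3 = y ∧
      cvar (fun s t => ENNReal.ofReal (dsum u (γ s) (γ t))) 0 3 ≤
        ENNReal.ofReal (C₂ * bsum M k b) := by
  intro x hx y hy
  obtain ⟨γ, g1, g2, g3, g4, g5⟩ := H.path x hx y hy
  exact ⟨γ, g1, g2, g3, g4, (H880.cvar_congr fun s hs t ht _ =>
    ENNReal.ofReal_le_ofReal (hc _ (g2 hs) _ (g2 ht))).trans g5⟩

end Vale.Agent.P073.H233
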