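import Vale.Agent.P073.H228.EdgeP4
import Vale.Agent.P073.H237.CovB
import Vale.Agent.P073.H926.DatA
import Vale.Agent.P073.H190.TvpM

/-!
# P073, H233, [OSC-TOP] (x5), part 1: small sets of points near a plate are in one zone
-/

open Set Metric Topology Filter

set_option linter.unusedSectionVars false

namespace Vale.Agent.P073.H233.X5

open _root_.P073 _root_.P073.Net _root_.P073.PA691 _root_.P073.H345
open Vale.Agent.P073.St (V)
open Vale.Agent.P073.H471 Vale.Agent.P073.H267 Vale.Agent.P073.H267.Geo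
open Vale.Agent.P073.H190.Tvp (wP)
open Vale.Agent.P073.H926 (PX PX_sub_ss τ_as_PX)
open _root_.P073.H237.Cov (side_len a_le_wv)

/-- the clamp to a slightly smaller interval -/
theorem sub_le_of_clamp {lo hi a A t t' : ℝ} (ha : 0 ≤ a) (hlen : A < hi - lo - 2 * a)
    (ht : lo ≤ t) (ht1 : t ≤ hi) (ht' : lo ≤ t') (ht1' : t' ≤ hi)
    (h : |H581.clamp (lo + a) (hi - a) t - H581.clamp (lo + a) (hi - a) t'| ≤ A) :
    |t - t'| ≤ a + A := by
  unfold H581.clamp at h
  have h1 := abs_le.1 h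
  have hA := (abs_nonneg _).trans h
  rw [abs_le]
  simp only [max_def, min_def] at h1
  split_ifs at h1 <;> constructor <;> linarith [h1.1, h1.2]

variable {Λ : Set V} {v : V} {K : BoxCx Λ v} {S : Rad K} {W : Wid K S} {B : Boxes W} {G : Geo B}
  {s : K.S} {e : K.G} {y y' : V} {A : ℝ}

/-- the points near a plate are in its square, up to the normal coordinate -/
theorem PX_mem (hy : y ∈ PX G s) {k : Fin 3} (hk : k ≠ K.nrm s) :
    K.slo s k ≤ y k ∧ y k ≤ K.shi s k := by
  have h1 := hy.1 k hk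
  have h2 := Geo.p_pos (G := G) s
  constructor <;> linarith [h1.1, h1.2]

theorem tg_bt' {k : Fin 3} (hk : k ≠ K.nrm s) : ∃ β, k = tg s β :=
  ⟨bt s k, (tg_bt s hk).symm⟩

theorem side_len' (G : Geo B) (s : K.S) {k : Fin 3} (hk : k ≠ K.nrm s) :
    K.slo s k + G.a s ≤ K.shi s k - G.a s := by
  have h1 := side_len G s hk
  have h2 := G.a_pos s
  linarith

/-- the true coordinates -/
theorem sub_le_of_wP (hy : y ∈ PX G s) (hy' : y' ∈ PX G s) (hA : A ≤ G.a s) {β : Bool}
    (h : |wP G s β (y (tg s β)) - wP G s β (y' (tg s β))| ≤ A) :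
    |y (tg s β) - y' (tg s β)| ≤ G.a s + A := by
  have h1 := side_len G s (tg_ne s β)
  have h2 := G.a_pos s
  have h3 := PX_mem hy (tg_ne s β)
  have h4 := PX_mem hy' (tg_ne s β)
  exact sub_le_of_clamp h2.le (by linarith) h3.1 h3.2 h4.1 h4.2 h

/-- the square of a plate at a point near an edge -/
theorem sq_of_PX (hy : y ∈ PX G s) (he : y ∈ Ze W e) : K.edge e ⊆ K.sq s :=
  edge_subset_sq (PX_sub_ss s hy) he.1 (Ze_nJ he)

/-- **the points near a plate**: one zone for a small set -/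
theorem zone_pts (G : Geo B) {Y : Set V} (hA : A ≤ G.a s) (hY : ∀ y ∈ Y, y ∈ PX G s)
    (hosc : ∀ y ∈ Y, ∀ y' ∈ Y, ∀ β,
      |wP G s β (y (tg s β)) - wP G s β (y' (tg s β))| ≤ A) :
    (∀ y ∈ Y, ∀ k, k ≠ K.nrm s → K.slo s k + G.a s < y k ∧ y k < K.shi s k - G.a s) ∨
    (∃ e, K.edge e ⊆ K.sq s ∧ ∀ y ∈ Y, y ∈ B.E e) ∨
    ∃ i, K.w i ∈ K.sq s ∧ ∀ y ∈ Y, y ∈ Zv W i := by
  rcases Y.eq_empty_or_nonempty with rfl | ⟨y₀, hy₀⟩
  · exact Or.inl fun y hy => absurd hy (notMem_empty y)
  have hτ := B.τ_pos s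
  have ha := G.a_pos s
  have hau := G.a_u s
  have hp := Geo.p_pos (G := G) s
  have hdist : ∀ y ∈ Y, ∀ k, k ≠ K.nrm s → |y k - y₀ k| ≤ G.a s + A := fun y hy k hk => by
    obtain ⟨β, rfl⟩ := tg_bt' hk
    exact sub_le_of_wP (hY y hy) (hY y₀ hy₀) hA (hosc y hy y₀ hy₀ β)
  set y' : V := Function.update y₀ (K.nrm s) (K.slo s (K.nrm s)) with hy'
  have e0 : y' (K.nrm s) = K.slo s (K.nrm s) := by rw [hy', Function.update_self]
  have e1 : ∀ k, k ≠ K.nrm s → y' k = y₀ k := fun k hk => by rw [hy', Function.update_of_ne hk]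
  have hPB : y' ∈ G.PB (1 / 2) s := by
    refine Geo.mem_PB.2 ⟨fun k hk => ?_, ?_⟩
    · rw [e1 k hk]; exact (hY y₀ hy₀).1 k hk
    · rw [e0, sub_self, abs_zero]; exact hτ.le
  have hball : ∀ e, K.edge e ⊆ K.sq s → ∀ y ∈ Y, y ∈ closedBall y' (B.T e / 4) := by
    intro e he y hy
    have h1 := B.τ_le_u s
    have h2 := G.u_T s e he
    have h3 := B.T_pos e
    rw [mem_closedBall, dist_pi_le_iff (by linarith)]
    intro k
    rw [Real.dist_eq]
    by_cases hk : k = K.nrm s
    · subst hk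
      rw [e0]
      have := (hY y hy).2
      linarith
    · rw [e1 k hk]
      have := hdist y hy k hk
      linarith
  rcases G.cover_pt (by norm_num) hPB (by rw [e0, sub_self, abs_zero]; exact hτ) with
    ⟨-, -, h1⟩ | ⟨e, he, -, h1, -⟩ | ⟨e, he, h1⟩
  · left
    intro y hy k hk
    have h2 := h1 k hk
    rw [e1 k hk] at h2
    have h3 := abs_le.1 (hdist y hy k hk)
    constructor <;> linarith [h2.1, h2.2, h3.1, h3.2]
  · exact Or.inr (Or.inl ⟨e, he, fun y hy => h1 (hball e he y hy)⟩)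
  · rcases h1 with ⟨-, h1⟩ | ⟨-, h1⟩
    · exact Or.inr (Or.inr ⟨K.a e, he (TM.wa_mem K e), fun y hy => h1 (hball e he y hy)⟩)
    · exact Or.inr (Or.inr ⟨K.b e, he (TM.wb_mem K e), fun y hy => h1 (hball e he y hy)⟩)

/-- the coordinate along the edge is in the window -/
theorem win_of_E (G : Geo B) (hes : K.edge e ⊆ K.sq s) {t r : ℝ} (hr : r ≤ 2 * G.a s)
    (h1 : K.w (K.a e) (K.dir e) + W.wv (K.a e) / 2 - r ≤ t)
    (h2 : t ≤ K.w (K.b e) (K.dir e) - W.wv (K.b e) / 2 + r) :
    t ∈ Icc (K.slo s (K.dir e) + G.a s) (K.shi s (K.dir e) - G.a s) := by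
  have h3 := (hes (TM.wa_mem K e)).1 (K.dir e)
  have h4 := (hes (TM.wb_mem K e)).2 (K.dir e)
  have h5 := B.T_le_a e
  have h6 := B.T_le_b e
  have h7 := G.a_u s
  have h8 := G.u_T s e hes
  have h9 := G.a_pos s
  constructor <;> linarith

/-- an edge of a square is in its boundary -/
theorem side_of_edge (hes : K.edge e ⊆ K.sq s) {l : Fin 3} (hl : l ≠ K.nrm s)
    (hd : l ≠ K.dir e) : K.w (K.a e) l = K.slo s l ∨ K.w (K.a e) l = K.shi s l := by
  by_contra hne
  push Not at hne
  have ha := hes (TM.wa_mem K e)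
  have hb := hes (TM.wb_mem K e)
  have hn := nrm_ne_dir hes
  have hab := K.ab_dir e
  set x : V := Function.update (K.w (K.a e)) (K.dir e)
    ((K.w (K.a e) (K.dir e) + K.w (K.b e) (K.dir e)) / 2) with hx
  have x1 : x (K.dir e) = (K.w (K.a e) (K.dir e) + K.w (K.b e) (K.dir e)) / 2 := by
    rw [hx, Function.update_self]
  have x2 : ∀ k, k ≠ K.dir e → x k = K.w (K.a e) k := fun k hk => by
    rw [hx, Function.update_of_ne hk]
  refine K.sqo_edge s x ?_ ?_ e ?_
  · rw [x2 _ hn]
    exact TM.nrm_eq ha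
  · intro k hk
    by_cases hkd : k = K.dir e
    · subst hkd
      rw [x1]
      have h1 := ha.1 (K.dir e)
      have h2 := hb.2 (K.dir e)
      constructor <;> linarith
    · rw [x2 k hkd]
      have hkl : k = l := by
        have key : ∀ a b c k : Fin 3, a ≠ b → c ≠ a → c ≠ b → k ≠ a → k ≠ b → k = c := by
          decide
        exact key _ _ _ _ hn hl hd hk hkd
      subst hkl
      exact ⟨lt_of_le_of_ne (ha.1 k) hne.1.symm, lt_of_le_of_ne (ha.2 k) hne.2⟩
  · refine ⟨fun k => ?_, fun k => ?_⟩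
    · by_cases hk : k = K.dir e
      · subst hk; rw [x1]; linarith
      · rw [x2 k hk]
    · by_cases hk : k = K.dir e
      · subst hk; rw [x1]; linarith
      · rw [x2 k hk, K.ab_off e k hk]

/-- without hanging vertices the edges of a square are its sides -/
theorem ends_of_edge (hnh : ∀ H : Hang K, H.s ≠ s) (hes : K.edge e ⊆ K.sq s) :
    K.w (K.a e) (K.dir e) = K.slo s (K.dir e) ∧ K.w (K.b e) (K.dir e) = K.shi s (K.dir e) := by
  have ha := hes (TM.wa_mem K e)
  have hb := hes (TM.wb_mem K e)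
  have hn := nrm_ne_dir hes
  have hab := K.ab_dir e
  obtain ⟨l, hl, hd⟩ : ∃ l : Fin 3, l ≠ K.nrm s ∧ l ≠ K.dir e := by
    have key : ∀ a b : Fin 3, ∃ l : Fin 3, l ≠ a ∧ l ≠ b := by decide
    exact key _ _
  have hside := side_of_edge hes hl hd
  have mk : ∀ i : K.W, K.w i ∈ K.sq s → (K.w i l = K.slo s l ∨ K.w i l = K.shi s l) →
      ¬ (K.slo s (K.dir e) < K.w i (K.dir e) ∧ K.w i (K.dir e) < K.shi s (K.dir e)) := by
    rintro i hi hs ⟨h1, h2⟩
    rcases hs with hs | hs
    · exact hnh ⟨i, s, l, K.dir e, false, hl, hn.symm, hd, TM.nrm_eq hi, by simpa using hs, h1,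
        h2⟩ rfl
    · exact hnh ⟨i, s, l, K.dir e, true, hl, hn.symm, hd, TM.nrm_eq hi, by simpa using hs, h1,
        h2⟩ rfl
  constructor
  · by_contra hne
    exact mk _ ha hside ⟨lt_of_le_of_ne (ha.1 _) (Ne.symm hne), hab.trans_le (hb.2 _)⟩
  · by_contra hne
    rw [K.ab_off e l hd] at hside
    exact mk _ hb hside ⟨(ha.1 _).trans_lt hab, lt_of_le_of_ne (hb.2 _) hne⟩

/-- the sides are long against `T` -/
theorem len_T (G : Geo B) (hnh : ∀ H : Hang K, H.s ≠ s) (hes : K.edge e ⊆ K.sq s) {l : Fin 3}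
    (hl : l ≠ K.nrm s) (hd : l ≠ K.dir e) : 8 * B.T e < K.shi s l - K.slo s l := by
  have ha := hes (TM.wa_mem K e)
  have hn := nrm_ne_dir hes
  obtain ⟨hea, -⟩ := ends_of_edge hnh hes
  have hside := side_of_edge hes hl hd
  have hlt := K.s_lt s l hl
  have hT := B.T_le_a e
  have hT0 := B.T_pos e
  have hr := W.wv_le (K.a e)
  have hcor : ∀ t, (t = K.slo s l ∨ t = K.shi s l) →
      ∃ i, K.w i = Function.update (K.w (K.a e)) l t ∧ 64 * G.a s ≤ S.r i := by
    intro t ht
    refine a_le_wv G s ⟨fun k => ?_, fun k => ?_⟩ fun k hk => ?_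
    · by_cases h : k = l
      · subst h; rw [Function.update_self]
        rcases ht with rfl | rfl
        · exact le_rfl
        · exact hlt.le
      · rw [Function.update_of_ne h]; exact ha.1 k
    · by_cases h : k = l
      · subst h; rw [Function.update_self]
        rcases ht with rfl | rfl
        · exact hlt.le
        · exact le_rfl
      · rw [Function.update_of_ne h]; exact ha.2 k
    · by_cases h : k = l
      · subst h; rw [Function.update_self]; exact ht
      · rw [Function.update_of_ne h]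
        have hkd : k = K.dir e := by
          have key : ∀ a b c k : Fin 3, a ≠ b → c ≠ a → c ≠ b → k ≠ a → k ≠ c → k = b := by
            decide
          exact key _ _ _ _ hn hl hd hk h
        subst hkd
        exact Or.inl hea
  have fin : ∀ t, (t = K.slo s l ∨ t = K.shi s l) → t ≠ K.w (K.a e) l →
      8 * B.T e < |K.w (K.a e) l - t| := by
    intro t ht hne
    obtain ⟨i, hi, h1⟩ := hcor t ht
    have hne' : K.a e ≠ i := by
      rintro rfl
      have := congrFun hi l
      rw [Function.update_self] at this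
      exact hne this.symm
    have h3 := vdist S hne' (l := l) fun k hk => by rw [hi, Function.update_of_ne hk]
    rw [hi, Function.update_self] at h3
    have h4 := S.r_pos i
    have h5 := S.r_pos (K.a e)
    linarith
  rcases hside with h | h
  · have := fin _ (Or.inr rfl) (by rw [h]; exact hlt.ne')
    rw [h, abs_sub_comm, abs_of_pos (by linarith)] at this
    exact this
  · have := fin _ (Or.inl rfl) (by rw [h]; exact hlt.ne)
    rw [h, abs_of_pos (by linarith)] at this
    exact this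

end Vale.Agent.P073.H233.X5
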