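import Vale.Agent.P073.H233.OscZ1
import Vale.Agent.P073.H227.OT1c
import Vale.Agent.P073.H237.Elip3

/-!
# P073, H233, [OSC-TOP] (x5), part 2: a face which meets the support of a tube
-/

open Set Metric Topology Filter
open scoped ENNReal

set_option linter.unusedSectionVars false

namespace Vale.Agent.P073.H233.X5

open _root_.P073 _root_.P073.Net _root_.P073.PA691 _root_.P073.H236 _root_.P073.H579
open _root_.P073.H936 _root_.P073.H936.K3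
open _root_.P073.H142
open _root_.P073.H345 (PK tg PLev)
open _root_.P073.H880.RP
open _root_.P073.H429
open Vale.Agent.P073.St (V)
open Vale.Agent.P073.H471 Vale.Agent.P073.H267
open Vale.Agent.P073.H73 (Mesh)
open Vale.Agent.P073.H193 (Edges Cyc edges)
open Vale.Agent.P073.H304 (Nb)
open Vale.Agent.P073.H926
open Vale.Agent.P073.H238.K3
open Vale.Agent.P073.H267.K3

section geo

variable {Λ : Set V} {v : V} {K : BoxCx Λ v} {S : Rad K} {W : Wid K S} {B : Boxes W}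

/-- a neighbourhood of the support of a tube is in the zone `Ze` -/
theorem Ze_of_near (B : Boxes W) {e : K.G} {y : V}
    (h1 : K.w (K.a e) (K.dir e) + W.wv (K.a e) / 2 - B.T e / 4 ≤ y (K.dir e))
    (h2 : y (K.dir e) ≤ K.w (K.b e) (K.dir e) - W.wv (K.b e) / 2 + B.T e / 4)
    (h3 : ∀ k, k ≠ K.dir e → |y k - K.w (K.a e) k| ≤ 15 / 16 * B.T e) : y ∈ Ze W e := by
  have hT := B.T_pos e
  have h4 : 15 / 16 * B.T e ≤ W.ae e y := le_marg (by linarith [B.T_le e]) fun k hk => by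
    have hk' : k = K.dir e := by by_contra h; exact hk (mem_Je.2 h)
    subst hk'
    have h5 := B.T_le_a e
    have h6 := B.T_le_b e
    constructor <;> linarith
  exact ⟨(by linarith : (0:ℝ) < 15 / 16 * B.T e).trans_le h4, fun k hk => (h3 k hk).trans h4⟩

end geo

variable {c₀ n δ : ℝ} {j : ℕ} {Ω Λ : Set V} {v w : V} {ρ : V → ℝ} {M : Mesh Ω} {h : ConHomeo Ω Λ}
  {J₀ J : Set (ℕ × (Fin 3 → ℤ))} {P Z : Set M.ι} {K : BoxCx Λ w}
  {D : KIn3 c₀ n j δ v w ρ M h J₀ J P Z} {C : Cells ρ w K} {C₀ μT : ℝ}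
  {X : S1 D C C₀ μT} {Y₂ : S2 X} {Ys : Set M.κ} {sc : Sharp} {Y₃ : S3 Y₂ Ys sc}
  {Y₄ : S4 Y₃}

/-- a point of the support of a tube -/
theorem mem_K {Y₅ : S5 Y₄} {b : pG C J₀} {y : V} (hy : y ∈ (Y₅.Ft.X b).K) :
    (eal (D.W C) b.1 ≤ y (K.dir b.1) ∧ y (K.dir b.1) ≤ ebe (D.W C) b.1) ∧
      ∀ k, k ≠ K.dir b.1 → |y k - K.w (K.a b.1) k| ≤ 33 / 64 * (D.B C).T b.1 := by
  rw [Y₅.Ft_K b] at hy
  obtain ⟨h1, h2⟩ := mem_YB.1 hy
  refine ⟨h1, fun k hk => ?_⟩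
  have h3 := h2 k hk
  have h4 := uT_le_T (D.G C) b.1
  change K.w (K.a b.1) k - ((YS (D.G C)).p b.1 k + H429.rT (D.G C) b.1 k) ≤ y k ∧
    y k ≤ K.w (K.a b.1) k + ((YS (D.G C)).q b.1 k + H429.rT (D.G C) b.1 k) at h3
  rw [YS_p, YS_q] at h3
  unfold H429.rT at h3
  rw [abs_le]
  constructor <;> linarith [h3.1, h3.2]

/-- off the supports -/
theorem f_off (Y₅ : S5 Y₄) {x : V} (hx : x ∈ Ω)
    (h1 : ∀ b : pG C J₀, Y₄.f5.toFun x ∉ (Y₅.Ft.X b).K) :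
    Y₅.f.toFun x = Y₄.f5.toFun x :=
  _root_.P073.H227.TLay_off Y₅.lay hx h1

/-- **a face which meets the support of a tube** is in the zone of the edge, or in the zone of an
end -/
theorem zone_E (Y₅ : S5 Y₄) (hμ : ∀ b, 0 ≤ Y₅.μ b) {b : pG C J₀} {k : M.κ} {x₁ : V}
    (hx₁ : x₁ ∈ M.F k) (hK : Y₄.f5.toFun x₁ ∈ (Y₅.Ft.X b).K) {r : ℝ}
    (hr : r ≤ (D.B C).T b.1 / 4)
    (hosc : ∀ x ∈ M.F k, ∀ y ∈ M.F k, ∀ l, |Y₄.f5.toFun x l - Y₄.f5.toFun y l| ≤ r)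
    {κ c d L : ℝ} (hκ0 : 0 ≤ κ) (hκ1 : κ ≤ 1 / 4) (hμ1 : Y₅.μ b ≤ 1)
    (hκ : Y₅.μ b * (ebe (D.W C) b.1 - eal (D.W C) b.1) ≤ κ * ((D.G C).uT b.1 / 4))
    (hς : Y₅.ς b * (ebe (D.W C) b.1 - eal (D.W C) b.1) ≤ (D.B C).T b.1 / 4)
    (hc : ∀ x ∈ M.F k, ∀ y ∈ M.F k,
      |Y₄.f5.toFun x (K.dir b.1) - Y₄.f5.toFun y (K.dir b.1)| ≤ c)
    (hd0 : 0 ≤ d)
    (hd : ∀ i, i ≠ K.dir b.1 →
      (∀ x ∈ M.F k, ylo (YS (D.G C)) b.1 i ≤ Y₄.f5.toFun x i ∧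
        Y₄.f5.toFun x i ≤ yhi (YS (D.G C)) b.1 i) ∨
      ∀ x ∈ M.F k, ∀ y ∈ M.F k, |Y₄.f5.toFun x i - Y₄.f5.toFun y i| ≤ d)
    (hL : (1 + Y₅.μ b) * c + Y₅.ς b * (ebe (D.W C) b.1 - eal (D.W C) b.1) + 2 * (κ * d) ≤ L) :
    InZone (D.B C) (Xp C J₀) Y₅.f.toFun (M.F k) fun j =>
      ∀ x ∈ M.F k, ∀ y ∈ M.F k, |Y₅.f.toFun x j - Y₅.f.toFun y j| ≤ L := by
  have hFΩ : M.F k ⊆ Ω := Vale.Agent.P073.H193.mesh_sub M k
  have hpre : IsPreconnected (M.F k) := (H193.pgn_of_fat (M.fat k)).convex.isPreconnected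
  have hT := (D.B C).T_pos b.1
  have hTa := (D.B C).T_le_a b.1
  have hTb := (D.B C).T_le_b b.1
  have hr0 : 0 ≤ r := (abs_nonneg _).trans (hosc x₁ hx₁ x₁ hx₁ 0)
  obtain ⟨⟨k1, k2⟩, k3⟩ := mem_K hK
  unfold eal at k1
  unfold ebe at k2
  -- positions of the values of `f5`
  have hpos : ∀ x ∈ M.F k,
      (K.w (K.a b.1) (K.dir b.1) + (D.W C).wv (K.a b.1) / 2 - r ≤ Y₄.f5.toFun x (K.dir b.1) ∧
        Y₄.f5.toFun x (K.dir b.1) ≤ K.w (K.b b.1) (K.dir b.1) - (D.W C).wv (K.b b.1) / 2 + r) ∧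
      ∀ l, l ≠ K.dir b.1 → |Y₄.f5.toFun x l - K.w (K.a b.1) l| ≤ 15 / 16 * (D.B C).T b.1 := by
    intro x hx
    refine ⟨?_, fun l hl => ?_⟩
    · have := abs_le.1 (hosc x hx x₁ hx₁ (K.dir b.1))
      constructor <;> linarith [this.1, this.2]
    · have h1 := abs_le.1 (hosc x hx x₁ hx₁ l)
      have h2 := abs_le.1 (k3 l hl)
      rw [abs_le]
      constructor <;> linarith [h1.1, h1.2, h2.1, h2.2]
  have hse : ∀ x ∈ M.F k, Y₄.f5.toFun x ∈ (D.W C).se b.1 := fun x hx => by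
    obtain ⟨⟨h1, h2⟩, h3⟩ := hpos x hx
    exact Ze_subset (Ze_of_near (D.B C) (by linarith) (by linarith) h3)
  have hsharp := Vale.Agent.P073.H227.S5_osc_any Y₅ hμ hpre Subset.rfl hFΩ hse hd0 hκ0 hκ hd hc
  have hcrude := Vale.Agent.P073.H227.S5_osc_any Y₅ hμ hpre Subset.rfl hFΩ hse hr0 hκ0 hκ
    (fun i _ => Or.inr fun x hx y hy => hosc x hx y hy i)
    (fun x hx y hy => hosc x hx y hy (K.dir b.1))
  have hcr : (1 + Y₅.μ b) * r + Y₅.ς b * (ebe (D.W C) b.1 - eal (D.W C) b.1) + 2 * (κ * r) ≤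
      (D.B C).T b.1 := by
    have h1 : (1 + Y₅.μ b) * r ≤ 2 * r := by nlinarith
    have h2 : κ * r ≤ 1 / 4 * r := mul_le_mul_of_nonneg_right hκ1 hr0
    linarith
  -- the values of the last map
  have hfx : ∀ x ∈ M.F k, Y₅.f.toFun x ∈ (Y₅.Ft.X b).K ∨ Y₅.f.toFun x = Y₄.f5.toFun x := by
    intro x hx
    by_cases h1 : Y₄.f5.toFun x ∈ (Y₅.Ft.X b).K
    · exact Or.inl (Y₅.lay.isH.mem ((Y₅.lay.memK (hFΩ hx)).2 h1))
    · refine Or.inr (f_off Y₅ (hFΩ hx) fun b' => ?_)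
      by_cases hb : b' = b
      · rw [hb]; exact h1
      · exact Y₅.lay.not_K hb (hse x hx)
  have hlat : ∀ x ∈ M.F k, ∀ l, l ≠ K.dir b.1 →
      |Y₅.f.toFun x l - K.w (K.a b.1) l| ≤ (D.B C).T b.1 := by
    intro x hx l hl
    rcases hfx x hx with h1 | h1
    · have := (mem_K h1).2 l hl
      linarith
    · rw [h1]
      have := (hpos x hx).2 l hl
      linarith
  have hf1 : Y₅.f.toFun x₁ ∈ (Y₅.Ft.X b).K :=
    Y₅.lay.isH.mem ((Y₅.lay.memK (hFΩ hx₁)).2 hK)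
  obtain ⟨⟨m1, m2⟩, -⟩ := mem_K hf1
  unfold eal at m1
  unfold ebe at m2
  by_cases ha : ∃ x₂ ∈ M.F k, Y₅.f.toFun x₂ (K.dir b.1) <
      K.w (K.a b.1) (K.dir b.1) + (D.W C).wv (K.a b.1) / 2
  · obtain ⟨x₂, hx₂, h2⟩ := ha
    refine Or.inr (Or.inr ⟨K.a b.1, pW_of_pG b.2 (Or.inl rfl), fun x hx => ?_⟩)
    have hwa := (D.W C).wv_pos (K.a b.1)
    rw [Zv, mem_closedBall, dist_pi_le_iff hwa.le]
    intro l
    rw [Real.dist_eq]
    by_cases hl : l = K.dir b.1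
    · subst hl
      have h3 := abs_le.1 ((hcrude x hx x₂ hx₂).trans hcr)
      have h4 := abs_le.1 ((hcrude x hx x₁ hx₁).trans hcr)
      rw [abs_le]
      constructor <;> linarith [h3.1, h3.2, h4.1, h4.2]
    · have := hlat x hx l hl
      linarith
  by_cases hb : ∃ x₂ ∈ M.F k, K.w (K.b b.1) (K.dir b.1) - (D.W C).wv (K.b b.1) / 2 <
      Y₅.f.toFun x₂ (K.dir b.1)
  · obtain ⟨x₂, hx₂, h2⟩ := hb
    refine Or.inr (Or.inr ⟨K.b b.1, pW_of_pG b.2 (Or.inr rfl), fun x hx => ?_⟩)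
    have hwa := (D.W C).wv_pos (K.b b.1)
    rw [Zv, mem_closedBall, dist_pi_le_iff hwa.le]
    intro l
    rw [Real.dist_eq]
    by_cases hl : l = K.dir b.1
    · subst hl
      have h3 := abs_le.1 ((hcrude x hx x₂ hx₂).trans hcr)
      have h4 := abs_le.1 ((hcrude x hx x₁ hx₁).trans hcr)
      rw [abs_le]
      constructor <;> linarith [h3.1, h3.2, h4.1, h4.2]
    · have := hlat x hx l hl
      rw [← wab K b.1 hl]
      linarith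
  push Not at ha hb
  refine Or.inr (Or.inl ⟨b.1, b.2, fun x hx => ⟨⟨ha x hx, hb x hx⟩, hlat x hx⟩,
    fun x hx y hy => (hsharp x hx y hy).trans hL⟩)

end Vale.Agent.P073.H233.X5
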