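import Vale.Agent.P073.H233.OscZ2

/-!
# P073, H233, [OSC-TOP] (x5), part 3: a face which meets a plate
-/

open Set Metric Topology Filter
open scoped ENNReal

set_option linter.unusedSectionVars false

namespace Vale.Agent.P073.H233.X5

open _root_.P073 _root_.P073.Net _root_.P073.PA691 _root_.P073.H236 _root_.P073.H579
open _root_.P073.H936 _root_.P073.H936.K3
open _root_.P073.H142
open _root_.P073.H345 (PK tg PLev tg_ne)
open _root_.P073.H880.RP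
open _root_.P073.H429
open Vale.Agent.P073.St (V)
open Vale.Agent.P073.H471 Vale.Agent.P073.H267
open Vale.Agent.P073.H73 (Mesh)
open Vale.Agent.P073.H193 (Edges Cyc edges)
open Vale.Agent.P073.H304 (Nb)
open Vale.Agent.P073.H926
open Vale.Agent.P073.H238.K3
open Vale.Agent.P073.H267.K3
open Vale.Agent.P073.H190.Tvp (wP)

section geo

variable {Λ : Set V} {v : V} {K : BoxCx Λ v} {S : Rad K} {W : Wid K S} {B : Boxes W} {G : Geo B}
  {s : K.S}

theorem wP_of_mem {β : Bool} {t : ℝ}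
    (h1 : K.slo s (tg s β) + G.a s ≤ t) (h2 : t ≤ K.shi s (tg s β) - G.a s) :
    wP G s β t = t := by
  unfold wP H581.clamp
  rw [min_eq_right h2, max_eq_right h1]

theorem wP_of_le {β : Bool} {t : ℝ} (h1 : t ≤ K.slo s (tg s β) + G.a s) :
    wP G s β t = K.slo s (tg s β) + G.a s := by
  unfold wP H581.clamp
  exact max_eq_left ((min_le_right _ _).trans h1)

theorem wP_of_ge {β : Bool} {t : ℝ} (h1 : K.shi s (tg s β) - G.a s ≤ t) :
    wP G s β t = K.shi s (tg s β) - G.a s := by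
  unfold wP H581.clamp
  rw [min_eq_left h1]
  have h2 := side_len' G s (tg_ne s β)
  exact max_eq_right h2

theorem abs_wP_sub_le {β : Bool} (t t' : ℝ) : |wP G s β t - wP G s β t'| ≤ |t - t'| := by
  unfold wP H581.clamp
  have h1 := abs_max_sub_max_le_abs (min (K.shi s (tg s β) - G.a s) t)
    (min (K.shi s (tg s β) - G.a s) t') (K.slo s (tg s β) + G.a s)
  have h2 := abs_min_sub_min_le_max (K.shi s (tg s β) - G.a s) t (K.shi s (tg s β) - G.a s) t'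
  rw [sub_self, abs_zero, max_eq_right (abs_nonneg _)] at h2
  rw [max_comm, max_comm (K.slo s (tg s β) + G.a s)]
  exact h1.trans h2

/-- the numbers at a plate -/
theorem oS_le (G : Geo B) (s : K.S) : 128000 * G.oS s ≤ G.a s := by
  have h1 := G.oS_τ s
  have h2 := G.τ_p s
  have h3 := Geo.p_a (G := G) s
  linarith

end geo

variable {c₀ n δ : ℝ} {j : ℕ} {Ω Λ : Set V} {v w : V} {ρ : V → ℝ} {M : Mesh Ω} {h : ConHomeo Ω Λ}
  {J₀ J : Set (ℕ × (Fin 3 → ℤ))} {P Z : Set M.ι} {K : BoxCx Λ w}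
  {D : KIn3 c₀ n j δ v w ρ M h J₀ J P Z} {C : Cells ρ w K} {C₀ μT : ℝ}
  {X : S1 D C C₀ μT} {Y₂ : S2 X} {Ys : Set M.κ} {sc : Sharp} {Y₃ : S3 Y₂ Ys sc}
  {Y₄ : S4 Y₃}

/-- the bounds of the oscillation of `h` and of `h1` on the face `k` -/
structure FB (X : S1 D C C₀ μT) (k : M.κ) (Bd A₁ : ℝ) : Prop where
  bd : ∀ x ∈ M.F k, ∀ y ∈ M.F k, ‖h.toFun x - h.toFun y‖ ≤ Bd
  le : Bd ≤ A₁
  box : ∀ b : pB C J₀, (∃ z ∈ M.F k, h.toFun z ∈ (D.G C).TB false b.1) →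
    C₀ * Bd + X.εd b ≤ A₁

theorem FB.nonneg {k : M.κ} {Bd A₁ : ℝ} (H : FB X k Bd A₁) {x : V} (hx : x ∈ M.F k) : 0 ≤ Bd :=
  (norm_nonneg _).trans (H.bd x hx x hx)

theorem FB.coord {k : M.κ} {Bd A₁ : ℝ} (H : FB X k Bd A₁) {x y : V} (hx : x ∈ M.F k)
    (hy : y ∈ M.F k) (l : Fin 3) : |h.toFun x l - h.toFun y l| ≤ Bd :=
  (abs_sub_le_norm _ _ l).trans (H.bd x hx y hy)

/-- off the boxes of ROUND T -/
theorem FB.off {k : M.κ} {Bd A₁ : ℝ} (H : FB X k Bd A₁)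
    (hno : ∀ x ∈ M.F k, ∀ b ∈ pB C J₀, h.toFun x ∉ (D.G C).TB false b) {x y : V}
    (hx : x ∈ M.F k) (hy : y ∈ M.F k) : ‖X.h1.toFun x - X.h1.toFun y‖ ≤ Bd := by
  rw [X.out.off k hno hx, X.out.off k hno hy]
  exact H.bd x hx y hy

/-- a face which meets a box of ROUND T near a plate -/
theorem box_PK (X : S1 D C C₀ μT) (hnh : ∀ H : Hang K, H.s ∉ pS C J₀) {i : M.ι} (hi : i ∉ P)
    {k : M.κ} (hki : M.F k ⊆ M.Q i) {s : K.S} (hs : s ∈ pS C J₀) {z : V} (hz : z ∈ M.F k)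
    (hzs : X.h1.toFun z ∈ PK (D.G C) s) {b : TBx K} (hb : b ∈ pB C J₀) {z₀ : V}
    (hz₀ : z₀ ∈ M.F k) (hzb : h.toFun z₀ ∈ (D.G C).TB false b) :
    ∃ e, b = .inl e ∧ K.edge e ⊆ K.sq s ∧ 50 * ω3T δ C b ≤ (D.G C).oS s ∧
      ∀ l, l ≠ K.dir e → ∀ x ∈ M.F k,
        |X.h1.toFun x l - K.w (K.a e) l| ≤ (D.G C).a s / 8 := by
  have hn := X.out.nearC D C i
  have hp1 := (D.pos_PK C hs hi hn (hki hz) hzs (hki hz₀)).1
  have h1 := (D.G C).oS_τ s
  have hτ := (D.B C).τ_pos s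
  have h2 := (D.G C).τ_p s
  have h3 := Geo.p_a (G := D.G C) s
  have hPX : h.toFun z₀ ∈ PX (D.G C) s := PX_of_near hzs (by linarith)
  rcases b with e | H
  · refine ⟨e, rfl, sq_of_PX hPX (Geo.TB_subset_Ze e hzb), ?_, fun l hl x hx => ?_⟩
    · obtain ⟨q, hq⟩ := K.cover _ (h.mapsTo (M.sub i (hki hz₀)))
      have h4 := (D.rt_om0 C hzb hq).1
      have h5 := (D.G C).om_oS q s (tile_PX hPX hq)
      have h6 := D.ω3T_pos C (.inl e)
      linarith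
    · have hes := sq_of_PX hPX (Geo.TB_subset_Ze e hzb)
      have h4 := (Geo.mem_inl.1 hzb).2 l hl
      simp only [Bool.false_eq_true, if_false] at h4
      have h5 := (D.G C).lam_a e
      have h6 := (D.G C).be_a s (K.a e) (hes (TM.wa_mem K e))
      have hx1 := (D.pos_PK C hs hi hn (hki hz) hzs (hki hx)).2
      have h7 := abs_le.1 ((abs_sub_le_norm _ _ l).trans hp1)
      have h8 := abs_le.1 ((abs_sub_le_norm _ _ l).trans hx1)
      have h9 := abs_le.1 h4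
      rw [abs_le]
      constructor <;> linarith [h7.1, h7.2, h8.1, h8.2, h9.1, h9.2]
  · exact absurd (inr_mem_pB.1 hb) (hnh H)

/-- **the oscillation of `h1` in the windows of a plate** -/
theorem h1_wP (hnh : ∀ H : Hang K, H.s ∉ pS C J₀) {i : M.ι} (hi : i ∉ P)
    {k : M.κ} (hki : M.F k ⊆ M.Q i) {s : K.S} (hs : s ∈ pS C J₀) {z : V} (hz : z ∈ M.F k)
    (hzs : X.h1.toFun z ∈ PK (D.G C) s) {Bd A₁ : ℝ} (H : FB X k Bd A₁) (β : Bool) {x y : V}
    (hx : x ∈ M.F k) (hy : y ∈ M.F k) :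
    |wP (D.G C) s β (X.h1.toFun x (tg s β)) - wP (D.G C) s β (X.h1.toFun y (tg s β))| ≤ A₁ := by
  have hA0 : 0 ≤ A₁ := (H.nonneg hx).trans H.le
  by_cases hno : ∀ x ∈ M.F k, ∀ b ∈ pB C J₀, h.toFun x ∉ (D.G C).TB false b
  · exact (abs_wP_sub_le _ _).trans (((abs_sub_le_norm _ _ _).trans (H.off hno hx hy)).trans H.le)
  push Not at hno
  obtain ⟨z₀, hz₀, b, hb, hzb⟩ := hno
  obtain ⟨e, rfl, hes, hω, hlat⟩ := box_PK X hnh hi hki hs hz hzs hb hz₀ hzb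
  have ha := (D.G C).a_pos s
  have hoS := oS_le (D.G C) s
  by_cases hl : tg s β = K.dir e
  · obtain ⟨w1, w2⟩ := ends_of_edge (s := s) (fun H hH => hnh H (hH ▸ hs)) hes
    have b1 := (D.G C).be_a s (K.a e) (hes (TM.wa_mem K e))
    have b2 := (D.G C).be_a s (K.b e) (hes (TM.wb_mem K e))
    have hlen := side_len' (D.G C) s (tg_ne s β)
    have key := X.out.oscf k ⟨.inl e, hb⟩ ⟨z₀, hz₀, hzb⟩
      (K.slo s (tg s β) + (D.G C).a s) (K.shi s (tg s β) - (D.G C).a s)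
      (by
        show (D.G C).tlo true (.inl e) (K.dir e) + 50 * ω3T δ C (.inl e) ≤ _
        simp only [Geo.tlo, if_true]
        rw [hl, w1]; linarith)
      hlen
      (by
        show _ ≤ (D.G C).thi true (.inl e) (K.dir e) - 50 * ω3T δ C (.inl e)
        simp only [Geo.thi, if_true]
        rw [hl, w2]; linarith)
      Bd (fun x hx y hy => H.coord hx hy _) x hx y hy
    have e1 : (TBx.ax (.inl e : TBx K)) = tg s β := hl.symm
    change |H238.K3.clm _ _ (X.h1.toFun x (TBx.ax (.inl e : TBx K))) -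
      H238.K3.clm _ _ (X.h1.toFun y (TBx.ax (.inl e : TBx K)))| ≤ _ at key
    rw [e1] at key
    exact key.trans (H.box ⟨.inl e, hb⟩ ⟨z₀, hz₀, hzb⟩)
  · have hx1 := abs_le.1 (hlat _ hl x hx)
    have hy1 := abs_le.1 (hlat _ hl y hy)
    rcases side_of_edge hes (tg_ne s β) hl with h1 | h1
    · rw [wP_of_le (by linarith [hx1.2]), wP_of_le (by linarith [hy1.2]), sub_self, abs_zero]
      exact hA0
    · rw [wP_of_ge (by linarith [hx1.1]), wP_of_ge (by linarith [hy1.1]), sub_self, abs_zero]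
      exact hA0

/-- **the positions of `f5` on the face `k`** -/
def Pos5 (Y₄ : S4 Y₃) (k : M.κ) (t : ℝ) : Prop :=
  ∀ x ∈ M.F k, ∃ z ∈ M.F k, Y₄.f5.toFun x = X.h1.toFun z ∨
    ∃ s ∈ pS C J₀, X.h1.toFun z ∈ PK (D.G C) s ∧ Y₄.f5.toFun x ∈ PK (D.G C) s ∧
      (∀ β, |wP (D.G C) s β (Y₄.f5.toFun x (tg s β)) -
        wP (D.G C) s β (X.h1.toFun z (tg s β))| ≤ t) ∧
      (|Y₄.f5.toFun x (K.nrm s) - K.slo s (K.nrm s)| ≤ 7 / 8 * (D.B C).τ s ∨
        ∀ l, |Y₄.f5.toFun x l - X.h1.toFun z l| ≤ t)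

/-- the positions near the plate `s` -/
theorem Pos5.at {k : M.κ} {t : ℝ} (H : Pos5 Y₄ k t) (ht : 0 ≤ t) {i : M.ι} (hi : i ∉ P)
    (hki : M.F k ⊆ M.Q i) {s : K.S} (hs : s ∈ pS C J₀) {z₀ : V} (hz₀ : z₀ ∈ M.F k)
    (hzs : X.h1.toFun z₀ ∈ PK (D.G C) s) {x : V} (hx : x ∈ M.F k) :
    Y₄.f5.toFun x ∈ PX (D.G C) s ∧ ∃ z ∈ M.F k,
      (∀ β, |wP (D.G C) s β (Y₄.f5.toFun x (tg s β)) -
        wP (D.G C) s β (X.h1.toFun z (tg s β))| ≤ t) ∧
      (|Y₄.f5.toFun x (K.nrm s) - K.slo s (K.nrm s)| ≤ 7 / 8 * (D.B C).τ s ∨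
        ∀ l, |Y₄.f5.toFun x l - X.h1.toFun z l| ≤ t) := by
  have hn := X.out.nearC D C i
  have h1 := (D.G C).oS_τ s
  have hτ := (D.B C).τ_pos s
  obtain ⟨z, hz, hcase⟩ := H x hx
  have h2 := (D.pos_PK C hs hi hn (hki hz₀) hzs (hki hz)).2
  have hzX : X.h1.toFun z ∈ PX (D.G C) s := PX_of_near hzs (by linarith)
  rcases hcase with h3 | ⟨s', hs', h3, h4, h5, h6⟩
  · refine ⟨by rw [h3]; exact hzX, z, hz, fun β => ?_, Or.inr fun l => ?_⟩
    · rw [h3, sub_self, abs_zero]; exact ht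
    · rw [h3, sub_self, abs_zero]; exact ht
  · have hss : s' = s := by
      by_contra hne
      exact Set.disjoint_left.1 (disjoint_ss (W := D.W C) hne)
        (_root_.P073.H345.PK_sub_ss s' h3) (PX_sub_ss s hzX)
    subst hss
    exact ⟨PK_sub_PX s' h4, z, hz, h5, h6⟩

end Vale.Agent.P073.H233.X5
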