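import Vale.Agent.P073.H233.OscZ3

/-!
# P073, H233, [OSC-TOP] (x5), part 4: the zone of a face which meets a plate
-/

open Set Metric Topology Filter
open scoped ENNReal

set_option linter.unusedSectionVars false

namespace Vale.Agent.P073.H233.X5

open _root_.P073 _root_.P073.Net _root_.P073.PA691 _root_.P073.H236 _root_.P073.H579
open _root_.P073.H936 _root_.P073.H936.K3
open _root_.P073.H142
open _root_.P073.H345 (PK tg PLev tg_ne)
open _root_.P073.H880.RP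
open _root_.P073.H429
open Vale.Agent.P073.St (V)
open Vale.Agent.P073.H471 Vale.Agent.P073.H267
open Vale.Agent.P073.H73 (Mesh)
open Vale.Agent.P073.H193 (Edges Cyc edges)
open Vale.Agent.P073.H304 (Nb)
open Vale.Agent.P073.H926
open Vale.Agent.P073.H238.K3
open Vale.Agent.P073.H267.K3
open Vale.Agent.P073.H190.Tvp (wP)

variable {c₀ n δ : ℝ} {j : ℕ} {Ω Λ : Set V} {v w : V} {ρ : V → ℝ} {M : Mesh Ω} {h : ConHomeo Ω Λ}
  {J₀ J : Set (ℕ × (Fin 3 → ℤ))} {P Z : Set M.ι} {K : BoxCx Λ w}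
  {D : KIn3 c₀ n j δ v w ρ M h J₀ J P Z} {C : Cells ρ w K} {C₀ μT : ℝ}
  {X : S1 D C C₀ μT} {Y₂ : S2 X} {Ys : Set M.κ} {sc : Sharp} {Y₃ : S3 Y₂ Ys sc}
  {Y₄ : S4 Y₃}

/-- the numbers of the tubes -/
structure TubN (Y₅ : S5 Y₄) (κ : ℝ) : Prop where
  μ0 : ∀ b, 0 ≤ Y₅.μ b
  μ1 : ∀ b, Y₅.μ b ≤ 1
  κ0 : 0 ≤ κ
  κ1 : κ ≤ 1 / 4
  κμ : ∀ b : pG C J₀, Y₅.μ b * (ebe (D.W C) b.1 - eal (D.W C) b.1) ≤
    κ * ((D.G C).uT b.1 / 4)
  ς : ∀ b : pG C J₀, Y₅.ς b * (ebe (D.W C) b.1 - eal (D.W C) b.1) ≤ (D.B C).T b.1 / 4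

/-- the bound `L` of the last map for the bound `c` of `f5` -/
def LB (Y₅ : S5 Y₄) (k : M.κ) (κ c L : ℝ) : Prop :=
  c ≤ L ∧ ∀ b : pG C J₀, (∃ x ∈ M.F k, Y₄.f5.toFun x ∈ (Y₅.Ft.X b).K) →
    (1 + Y₅.μ b) * c + Y₅.ς b * (ebe (D.W C) b.1 - eal (D.W C) b.1) + 2 * (κ * c) ≤ L

/-- **a face which meets a plate** -/
theorem zone_P {Y₅ : S5 Y₄} {κ : ℝ} (N : TubN Y₅ κ) (hnh : ∀ H : Hang K, H.s ∉ pS C J₀)
    {i : M.ι} (hi : i ∉ P) {k : M.κ} (hki : M.F k ⊆ M.Q i) {s : K.S} (hs : s ∈ pS C J₀) {z₀ : V}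
    (hz₀ : z₀ ∈ M.F k) (hzs : X.h1.toFun z₀ ∈ PK (D.G C) s) {Bd A₁ t L : ℝ}
    (H : FB X k Bd A₁) (h5 : Pos5 Y₄ k t) (ht0 : 0 ≤ t) (ht : t ≤ (D.G C).oS s)
    (hL : LB Y₅ k κ (A₁ + 2 * t) L) :
    (∀ x ∈ M.F k, ∀ y ∈ M.F k, ‖Y₅.f.toFun x - Y₅.f.toFun y‖ ≤ L) ∨
    InZone (D.B C) (Xp C J₀) Y₅.f.toFun (M.F k) fun j =>
      ∀ x ∈ M.F k, ∀ y ∈ M.F k, |Y₅.f.toFun x j - Y₅.f.toFun y j| ≤ L := by
  have hFΩ : M.F k ⊆ Ω := Vale.Agent.P073.H193.mesh_sub M k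
  have hpre : IsPreconnected (M.F k) := (H193.pgn_of_fat (M.fat k)).convex.isPreconnected
  have hn := X.out.nearC D C i
  have hoτ := (D.G C).oS_τ s
  have hτ := (D.B C).τ_pos s
  have hτp := (D.G C).τ_p s
  have hpa := Geo.p_a (G := D.G C) s
  have ha := (D.G C).a_pos s
  have hau := (D.G C).a_u s
  have hoS := oS_le (D.G C) s
  have hA0 : 0 ≤ A₁ := (H.nonneg hz₀).trans H.le
  set c := A₁ + 2 * t with hc
  have hc0 : 0 ≤ c := by linarith
  have hat := fun x (hx : x ∈ M.F k) => h5.at ht0 hi hki hs hz₀ hzs hx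
  have hPX : ∀ x ∈ M.F k, Y₄.f5.toFun x ∈ PX (D.G C) s := fun x hx => (hat x hx).1
  have hh1 : ∀ x ∈ M.F k, ∀ y ∈ M.F k, ∀ l, |X.h1.toFun x l - X.h1.toFun y l| ≤
      22 * (D.G C).oS s := by
    intro x hx y hy l
    have h1 := abs_le.1 ((abs_sub_le_norm _ _ l).trans
      (D.pos_PK C hs hi hn (hki hz₀) hzs (hki hx)).2)
    have h2 := abs_le.1 ((abs_sub_le_norm _ _ l).trans
      (D.pos_PK C hs hi hn (hki hz₀) hzs (hki hy)).2)
    rw [abs_le]
    constructor <;> linarith [h1.1, h1.2, h2.1, h2.2]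
  have hsharp : ∀ x ∈ M.F k, ∀ y ∈ M.F k, ∀ β, |wP (D.G C) s β (Y₄.f5.toFun x (tg s β)) -
      wP (D.G C) s β (Y₄.f5.toFun y (tg s β))| ≤ c := by
    intro x hx y hy β
    obtain ⟨-, z, hz, h1, -⟩ := hat x hx
    obtain ⟨-, z', hz', h1', -⟩ := hat y hy
    have h2 := abs_le.1 (h1_wP hnh hi hki hs hz₀ hzs H β hz hz')
    have h3 := abs_le.1 (h1 β)
    have h4 := abs_le.1 (h1' β)
    rw [abs_le]
    constructor <;> linarith [h2.1, h2.2, h3.1, h3.2, h4.1, h4.2]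
  have hcr : ∀ x ∈ M.F k, ∀ y ∈ M.F k, ∀ β, |wP (D.G C) s β (Y₄.f5.toFun x (tg s β)) -
      wP (D.G C) s β (Y₄.f5.toFun y (tg s β))| ≤ (D.G C).a s := by
    intro x hx y hy β
    obtain ⟨-, z, hz, h1, -⟩ := hat x hx
    obtain ⟨-, z', hz', h1', -⟩ := hat y hy
    have h2 := abs_le.1 ((abs_wP_sub_le (G := D.G C) (s := s) (β := β) _ _).trans
      (hh1 z hz z' hz' (tg s β)))
    have h3 := abs_le.1 (h1 β)
    have h4 := abs_le.1 (h1' β)
    rw [abs_le]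
    constructor <;> linarith [h2.1, h2.2, h3.1, h3.2, h4.1, h4.2]
  have hr : ∀ x ∈ M.F k, ∀ y ∈ M.F k, ∀ l, |Y₄.f5.toFun x l - Y₄.f5.toFun y l| ≤
      2 * (D.G C).a s := by
    intro x hx y hy l
    by_cases hl : l = K.nrm s
    · subst hl
      have h1 := abs_le.1 (hPX x hx).2
      have h2 := abs_le.1 (hPX y hy).2
      rw [abs_le]
      constructor <;> linarith [h1.1, h1.2, h2.1, h2.2]
    · obtain ⟨β, rfl⟩ := tg_bt' hl
      have := sub_le_of_wP (hPX x hx) (hPX y hy) le_rfl (hcr x hx y hy β)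
      linarith
  by_cases hE : ∃ b : pG C J₀, ∃ x₁ ∈ M.F k, Y₄.f5.toFun x₁ ∈ (Y₅.Ft.X b).K
  · obtain ⟨b, x₁, hx₁, hK⟩ := hE
    right
    have hes : K.edge b.1 ⊆ K.sq s :=
      sq_of_PX (hPX x₁ hx₁) ((D.B C).E_subset _ (Y₅.lay.KE b hK))
    have huT := (D.G C).u_T s b.1 hes
    have hT := (D.B C).T_pos b.1
    obtain ⟨⟨k1, k2⟩, k3⟩ := mem_K hK
    unfold eal at k1
    unfold ebe at k2
    obtain ⟨β, hβ⟩ := tg_bt' (nrm_ne_dir hes).symm
    have hwin : ∀ x ∈ M.F k, Y₄.f5.toFun x (tg s β) ∈ Icc (K.slo s (tg s β) + (D.G C).a s)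
        (K.shi s (tg s β) - (D.G C).a s) := by
      intro x hx
      have h1 := abs_le.1 (hr x hx x₁ hx₁ (K.dir b.1))
      have h2 := win_of_E (D.G C) hes (r := 2 * (D.G C).a s) le_rfl
        (t := Y₄.f5.toFun x (K.dir b.1)) (by linarith [h1.1]) (by linarith [h1.2])
      rwa [hβ] at h2
    refine zone_E Y₅ N.μ0 hx₁ hK (r := 2 * (D.G C).a s) (by linarith) hr N.κ0 N.κ1 (N.μ1 b)
      (N.κμ b) (N.ς b) (c := c) (fun x hx y hy => ?_) hc0 (fun l hl => ?_)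
      (hL.2 b ⟨x₁, hx₁, hK⟩)
    · rw [hβ]
      have h1 := hsharp x hx y hy β
      rwa [wP_of_mem (hwin x hx).1 (hwin x hx).2, wP_of_mem (hwin y hy).1 (hwin y hy).2] at h1
    · have e1 : ylo (YS (D.G C)) b.1 l = K.w (K.a b.1) l - (D.B C).T b.1 / 2 := by
        unfold ylo; rw [if_neg hl]; rfl
      have e2 : yhi (YS (D.G C)) b.1 l = K.w (K.a b.1) l + (D.B C).T b.1 / 2 := by
        unfold yhi; rw [if_neg hl]; rfl
      by_cases hln : l = K.nrm s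
      · left
        intro x hx
        have h1 := abs_le.1 (hPX x hx).2
        have h2 := TM.nrm_eq (hes (TM.wa_mem K b.1))
        rw [e1, e2, hln, h2]
        constructor <;> linarith [h1.1, h1.2]
      by_cases hin : ∀ x ∈ M.F k, ylo (YS (D.G C)) b.1 l ≤ Y₄.f5.toFun x l ∧
          Y₄.f5.toFun x l ≤ yhi (YS (D.G C)) b.1 l
      · exact Or.inl hin
      right
      push Not at hin
      obtain ⟨x₂, hx₂, hout⟩ := hin
      rw [e1, e2] at hout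
      have hlen := len_T (D.G C) (fun H hH => hnh H (hH ▸ hs)) hes hln hl
      obtain ⟨β', rfl⟩ := tg_bt' hln
      have k4 := abs_le.1 (k3 _ hl)
      have h2 := PX_mem (hPX x₂ hx₂) hln
      have hw : ∀ x ∈ M.F k, Y₄.f5.toFun x (tg s β') ∈ Icc (K.slo s (tg s β') + (D.G C).a s)
          (K.shi s (tg s β') - (D.G C).a s) := by
        intro x hx
        have h3 := abs_le.1 (hr x hx x₂ hx₂ (tg s β'))
        have h4 := abs_le.1 (hr x hx x₁ hx₁ (tg s β'))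
        rcases side_of_edge hes hln hl with h1 | h1
        · have h5 : K.slo s (tg s β') + (D.B C).T b.1 / 2 < Y₄.f5.toFun x₂ (tg s β') := by
            rw [h1] at hout
            exact hout (by linarith [h2.1])
          constructor <;> linarith [h3.1, h3.2, h4.1, h4.2, k4.1, k4.2]
        · have h5 : Y₄.f5.toFun x₂ (tg s β') < K.shi s (tg s β') - (D.B C).T b.1 / 2 := by
            rw [h1] at hout
            by_contra hcon
            push Not at hcon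
            linarith [hout hcon, h2.2]
          constructor <;> linarith [h3.1, h3.2, h4.1, h4.2, k4.1, k4.2]
      intro x hx y hy
      have h1 := hsharp x hx y hy β'
      rwa [wP_of_mem (hw x hx).1 (hw x hx).2, wP_of_mem (hw y hy).1 (hw y hy).2] at h1
  push Not at hE
  have hf : ∀ x ∈ M.F k, Y₅.f.toFun x = Y₄.f5.toFun x := fun x hx =>
    f_off Y₅ (hFΩ hx) fun b => hE b x hx
  rcases zone_pts (D.G C) (s := s) (Y := Y₄.f5.toFun '' M.F k) (A := (D.G C).a s) le_rfl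
    (by rintro _ ⟨x, hx, rfl⟩; exact hPX x hx)
    (by rintro _ ⟨x, hx, rfl⟩ _ ⟨y, hy, rfl⟩; exact hcr x hx y hy) with h1 | ⟨e, he, h1⟩ |
      ⟨i', hi', h1⟩
  · -- in the window
    have hw : ∀ x ∈ M.F k, ∀ l, l ≠ K.nrm s → K.slo s l + (D.G C).a s < Y₄.f5.toFun x l ∧
        Y₄.f5.toFun x l < K.shi s l - (D.G C).a s := fun x hx => h1 _ ⟨x, hx, rfl⟩
    by_cases hn1 : ∀ x ∈ M.F k,
        |Y₄.f5.toFun x (K.nrm s) - K.slo s (K.nrm s)| ≤ (D.B C).τ s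
    · refine Or.inr (Or.inl ⟨s, hs, fun x hx => ?_, fun l hl x hx y hy => ?_⟩)
      · rw [hf x hx]
        have h2 := τ_as_PX (hPX x hx)
        exact ⟨hτ.trans_le h2, (hn1 x hx).trans h2⟩
      · rw [hf x hx, hf y hy]
        have hwx := hw x hx l hl
        have hwy := hw y hy l hl
        obtain ⟨β, rfl⟩ := tg_bt' hl
        have h2 := hsharp x hx y hy β
        rw [wP_of_mem hwx.1.le hwx.2.le, wP_of_mem hwy.1.le hwy.2.le] at h2
        exact h2.trans hL.1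
    left
    push Not at hn1
    obtain ⟨x₂, hx₂, hout⟩ := hn1
    obtain ⟨-, z₂, hz₂, -, h2 | h2⟩ := hat x₂ hx₂
    · linarith
    have hall : ∀ x ∈ M.F k, ∃ z ∈ M.F k, ∀ l, |Y₄.f5.toFun x l - X.h1.toFun z l| ≤ t := by
      intro x hx
      by_contra hcon
      obtain ⟨-, z, hz, -, h3 | h3⟩ := hat x hx
      swap
      · exact hcon ⟨z, hz, h3⟩
      have hg : ContinuousOn (fun x => |Y₄.f5.toFun x (K.nrm s) - K.slo s (K.nrm s)|)
          (M.F k) := by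
        have h4 : ContinuousOn Y₄.f5.toFun (M.F k) := Y₄.f5.cont.mono hFΩ
        exact ((continuous_apply (K.nrm s)).comp_continuousOn h4 |>.sub continuousOn_const).abs
      obtain ⟨x₄, hx₄, h4⟩ := hpre.intermediate_value hx hx₂ hg
        (show 15 / 16 * (D.B C).τ s ∈ _ from ⟨by linarith, by linarith⟩)
      dsimp only at h4
      obtain ⟨-, z₄, hz₄, -, h5 | h5⟩ := hat x₄ hx₄
      · linarith
      have a1 := abs_le.1 (h2 (K.nrm s))
      have a2 := abs_le.1 (h5 (K.nrm s))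
      have a3 := abs_le.1 (hh1 z₂ hz₂ z₄ hz₄ (K.nrm s))
      have a4 : |Y₄.f5.toFun x₂ (K.nrm s) - Y₄.f5.toFun x₄ (K.nrm s)| ≤
          24 * (D.G C).oS s := by
        rw [abs_le]
        constructor <;> linarith [a1.1, a1.2, a2.1, a2.2, a3.1, a3.2]
      have a5 := abs_sub_le (Y₄.f5.toFun x₂ (K.nrm s)) (Y₄.f5.toFun x₄ (K.nrm s))
        (K.slo s (K.nrm s))
      linarith
    have hno : ∀ x ∈ M.F k, ∀ b ∈ pB C J₀, h.toFun x ∉ (D.G C).TB false b := by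
      intro z₁ hz₁ b hb hzb
      obtain ⟨e, rfl, hes, -, hlat⟩ := box_PK X hnh hi hki hs hz₀ hzs hb hz₁ hzb
      obtain ⟨l, hl, hd⟩ : ∃ l : Fin 3, l ≠ K.nrm s ∧ l ≠ K.dir e := by
        have key : ∀ a b : Fin 3, ∃ l : Fin 3, l ≠ a ∧ l ≠ b := by decide
        exact key _ _
      have a1 := abs_le.1 (h2 l)
      have a2 := abs_le.1 (hlat l hd z₂ hz₂)
      have a3 := hw x₂ hx₂ l hl
      rcases side_of_edge hes hl hd with a4 | a4
      · linarith [a1.1, a1.2, a2.1, a2.2, a3.1]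
      · linarith [a1.1, a1.2, a2.1, a2.2, a3.2]
    intro x hx y hy
    rw [hf x hx, hf y hy]
    refine le_trans ?_ hL.1
    rw [pi_norm_le_iff_of_nonneg hc0]
    intro l
    rw [Pi.sub_apply, Real.norm_eq_abs]
    obtain ⟨z, hz, b1⟩ := hall x hx
    obtain ⟨z', hz', b2⟩ := hall y hy
    have b3 := abs_le.1 ((abs_sub_le_norm _ _ l).trans ((H.off hno hz hz').trans H.le))
    have b4 := abs_le.1 (b1 l)
    have b5 := abs_le.1 (b2 l)
    rw [abs_le]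
    constructor <;> linarith [b3.1, b3.2, b4.1, b4.2, b5.1, b5.2]
  · -- in the zone of an edge
    right; right; left
    have h2 : ∀ x ∈ M.F k, Y₄.f5.toFun x ∈ (D.B C).E e := fun x hx => h1 _ ⟨x, hx, rfl⟩
    refine ⟨e, pG_of_pS hs he, fun x hx => by rw [hf x hx]; exact h2 x hx,
      fun x hx y hy => ?_⟩
    rw [hf x hx, hf y hy]
    have hwin : ∀ x ∈ M.F k, Y₄.f5.toFun x (K.dir e) ∈
        Icc (K.slo s (K.dir e) + (D.G C).a s) (K.shi s (K.dir e) - (D.G C).a s) := by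
      intro x hx
      have h3 := (h2 x hx).1
      exact win_of_E (D.G C) he (r := 0) (by linarith) (by linarith [h3.1]) (by linarith [h3.2])
    have hwx := hwin x hx
    have hwy := hwin y hy
    obtain ⟨β, hβ⟩ := tg_bt' (nrm_ne_dir he).symm
    rw [hβ] at hwx hwy ⊢
    have h3 := hsharp x hx y hy β
    rw [wP_of_mem hwx.1 hwx.2, wP_of_mem hwy.1 hwy.2] at h3
    exact h3.trans hL.1
  · right; right; right
    exact ⟨i', pW_of_pS hs hi', fun x hx => by rw [hf x hx]; exact h1 _ ⟨x, hx, rfl⟩⟩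

end Vale.Agent.P073.H233.X5
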