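import Vale.Agent.P073.H233.OscZ4

/-!
# P073, H233, [OSC-TOP] (x5), part 5: the zone of a face which misses the plates
-/

open Set Metric Topology Filter
open scoped ENNReal

set_option linter.unusedSectionVars false

namespace Vale.Agent.P073.H233.X5

open _root_.P073 _root_.P073.Net _root_.P073.PA691 _root_.P073.H236 _root_.P073.H579
open _root_.P073.H936 _root_.P073.H936.K3
open _root_.P073.H142
open _root_.P073.H345 (PK tg PLev tg_ne)
open _root_.P073.H880.RP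
open _root_.P073.H429
open Vale.Agent.P073.St (V)
open Vale.Agent.P073.H471 Vale.Agent.P073.H267
open Vale.Agent.P073.H73 (Mesh)
open Vale.Agent.P073.H193 (Edges Cyc edges)
open Vale.Agent.P073.H304 (Nb)
open Vale.Agent.P073.H926
open Vale.Agent.P073.H238.K3
open Vale.Agent.P073.H267.K3

variable {c₀ n δ : ℝ} {j : ℕ} {Ω Λ : Set V} {v w : V} {ρ : V → ℝ} {M : Mesh Ω} {h : ConHomeo Ω Λ}
  {J₀ J : Set (ℕ × (Fin 3 → ℤ))} {P Z : Set M.ι} {K : BoxCx Λ w}
  {D : KIn3 c₀ n j δ v w ρ M h J₀ J P Z} {C : Cells ρ w K} {C₀ μT : ℝ}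
  {X : S1 D C C₀ μT} {Y₂ : S2 X} {Ys : Set M.κ} {sc : Sharp} {Y₃ : S3 Y₂ Ys sc}
  {Y₄ : S4 Y₃}

/-- the values of `h1` near the processed tiles, on a cell which is not protected -/
theorem small_h1 (X : S1 D C C₀ μT) {i : M.ι} (hi : i ∉ P)
    (hm : (h.toFun '' M.Q i ∩ Nb w J₀ c₀).Nonempty) {x y : V} (hx : x ∈ M.Q i) (hy : y ∈ M.Q i)
    {q : K.T} (hq : h.toFun x ∈ K.cube q) :
    ‖X.h1.toFun y - h.toFun x‖ ≤ 5 * (D.G C).om q ∧
      65536 * ‖h.toFun x - h.toFun y‖ ≤ (D.G C).om q := by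
  obtain ⟨q', hq'⟩ := K.cover _ (h.mapsTo (M.sub i hy))
  obtain ⟨h1, h2⟩ := D.rt_cell C hi hm x hx y hy q q' hq hq'
  have h3 := X.out.near3 y (M.sub i hy) q' hq'
  refine ⟨?_, h1⟩
  have h4 := norm_nonneg (h.toFun x - h.toFun y)
  rw [norm_sub_rev] at h4
  calc ‖X.h1.toFun y - h.toFun x‖ = ‖(X.h1.toFun y - h.toFun y) + (h.toFun y - h.toFun x)‖ := by
        congr 1; abel
    _ ≤ ‖X.h1.toFun y - h.toFun y‖ + ‖h.toFun y - h.toFun x‖ := norm_add_le _ _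
    _ ≤ 5 * (D.G C).om q := by rw [norm_sub_rev (h.toFun y)] at h4 ⊢; linarith

/-- the size at a point of the support of a tube -/
theorem om_of_K (X : S1 D C C₀ μT) {e : K.G} {z : V} (hz : z ∈ Ω)
    (hK : X.h1.toFun z ∈ (D.W C).se e) {q : K.T} (hq : h.toFun z ∈ K.cube q) :
    (D.G C).om q ≤ 4 * (D.G C).oG e := by
  obtain ⟨q₁, hq₁⟩ := K.cover _ (X.h1.mapsTo hz)
  have h1 := (D.G C).om_oG q₁ e ((inTube_of_se hK).tile hq₁)
  have ho := o3_pos D.pos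
  have hT := C.sT_pos q
  have hκ := D.κ_lt
  have hoκ := o3_eq (n := n)
  have h2 : C.sT q ≤ 4 * C.sT q₁ := by
    refine sT_comp' C D.hρ (x := h.toFun z) (y := X.h1.toFun z) hq hq₁
      ((X.out.near3 z hz q hq).trans ?_)
    show o3 n * C.sT q ≤ _
    nlinarith
  have h3 : (D.G C).om q ≤ 4 * (D.G C).om q₁ := by
    show o3 n * C.sT q ≤ 4 * (o3 n * C.sT q₁)
    nlinarith
  linarith

theorem oG_le (G : Geo (D.B C)) (e : K.G) : 16000 * G.oG e ≤ (D.B C).T e := by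
  have h1 := G.oG_uT e
  have h2 := uT_le_T G e
  linarith

/-- **a face which misses the plates** -/
theorem zone_M {Y₅ : S5 Y₄} {κ : ℝ} (N : TubN Y₅ κ) (hnh : ∀ H : Hang K, H.s ∉ pS C J₀)
    {i : M.ι} (hi : i ∉ P) {k : M.κ} (hki : M.F k ⊆ M.Q i)
    (hm : (h.toFun '' M.Q i ∩ Nb w J₀ c₀).Nonempty)
    (hno : ∀ s ∈ pS C J₀, ∀ z ∈ M.F k, X.h1.toFun z ∉ PK (D.G C) s) {Bd A₁ t L : ℝ}
    (H : FB X k Bd A₁) (h5 : Pos5 Y₄ k t) (ht0 : 0 ≤ t)
    (hL : LB Y₅ k κ (A₁ + 2 * t) L) :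
    (∀ x ∈ M.F k, ∀ y ∈ M.F k, ‖Y₅.f.toFun x - Y₅.f.toFun y‖ ≤ L) ∨
    InZone (D.B C) (Xp C J₀) Y₅.f.toFun (M.F k) fun j =>
      ∀ x ∈ M.F k, ∀ y ∈ M.F k, |Y₅.f.toFun x j - Y₅.f.toFun y j| ≤ L := by
  have hFΩ : M.F k ⊆ Ω := Vale.Agent.P073.H193.mesh_sub M k
  have hf5 : ∀ x ∈ M.F k, ∃ z ∈ M.F k, Y₄.f5.toFun x = X.h1.toFun z := by
    intro x hx
    obtain ⟨z, hz, h1 | ⟨s, hs, h1, -⟩⟩ := h5 x hx
    · exact ⟨z, hz, h1⟩
    · exact absurd h1 (hno s hs z hz)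
  set c := A₁ + 2 * t with hc
  -- the boxes of ROUND T which meet the face
  have hbox : ∀ b ∈ pB C J₀, ∀ z₀ ∈ M.F k, h.toFun z₀ ∈ (D.G C).TB false b → ∃ e, b = .inl e ∧
      50 * ω3T δ C b ≤ (D.G C).oG e ∧ ∀ x ∈ M.F k, ∀ l,
        |X.h1.toFun x l - h.toFun z₀ l| ≤ 5 * (D.G C).oG e := by
    intro b hb z₀ hz₀ hzb
    rcases b with e | H'
    · obtain ⟨q, hq⟩ := K.cover _ (h.mapsTo (hFΩ hz₀))
      have h1 := (D.G C).om_oG q e (Geo.tile_TB_inl hzb hq)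
      have h2 := (D.rt_om0 C hzb hq).1
      have h3 := D.ω3T_pos C (.inl e)
      refine ⟨e, rfl, by linarith, fun x hx l => ?_⟩
      have h4 := (small_h1 X hi hm (hki hz₀) (hki hx) hq).1
      exact (abs_sub_le_norm _ _ l).trans (by linarith)
    · exact absurd (inr_mem_pB.1 hb) (hnh H')
  by_cases hE : ∃ b : pG C J₀, ∃ x₁ ∈ M.F k, Y₄.f5.toFun x₁ ∈ (Y₅.Ft.X b).K
  · obtain ⟨b, x₁, hx₁, hK⟩ := hE
    right
    have hc0 : 0 ≤ c := by linarith [H.nonneg hx₁, H.le]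
    obtain ⟨z₁, hz₁, e1⟩ := hf5 x₁ hx₁
    obtain ⟨q, hq⟩ := K.cover _ (h.mapsTo (hFΩ hz₁))
    have hK1 : X.h1.toFun z₁ ∈ (Y₅.Ft.X b).K := e1 ▸ hK
    have hse : X.h1.toFun z₁ ∈ (D.W C).se b.1 := Y₅.lay.Ese b hK1
    have hom := om_of_K X (hFΩ hz₁) hse hq
    have hoG := oG_le (D.G C) b.1
    have hoGu := (D.G C).oG_uT b.1
    have huT := (D.G C).uT_pos b.1
    have hT := (D.B C).T_pos b.1
    have hTa := (D.B C).T_le_a b.1
    have hTb := (D.B C).T_le_b b.1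
    have hsm : ∀ x ∈ M.F k, ∀ l, |X.h1.toFun x l - h.toFun z₁ l| ≤ 20 * (D.G C).oG b.1 := by
      intro x hx l
      have h4 := (small_h1 X hi hm (hki hz₁) (hki hx) hq).1
      exact (abs_sub_le_norm _ _ l).trans (by linarith)
    have hsm' : ∀ x ∈ M.F k, ∀ l, |h.toFun x l - h.toFun z₁ l| ≤ (D.G C).oG b.1 := by
      intro x hx l
      have h4 := (small_h1 X hi hm (hki hz₁) (hki hx) hq).2
      have h6 := abs_sub_le_norm (h.toFun x) (h.toFun z₁) l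
      rw [norm_sub_rev] at h6
      have h7 := norm_nonneg (h.toFun z₁ - h.toFun x)
      linarith
    have hh1 : ∀ x ∈ M.F k, ∀ y ∈ M.F k, ∀ l, |X.h1.toFun x l - X.h1.toFun y l| ≤
        40 * (D.G C).oG b.1 := by
      intro x hx y hy l
      have h1 := abs_le.1 (hsm x hx l)
      have h2 := abs_le.1 (hsm y hy l)
      rw [abs_le]
      constructor <;> linarith [h1.1, h1.2, h2.1, h2.2]
    obtain ⟨⟨k1, k2⟩, k3⟩ := mem_K hK1
    unfold eal at k1
    unfold ebe at k2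
    -- only the box of the edge
    have hone : ∀ b' ∈ pB C J₀, ∀ z₀ ∈ M.F k, h.toFun z₀ ∈ (D.G C).TB false b' →
        b' = .inl b.1 := by
      intro b' hb' z₀ hz₀ hzb
      obtain ⟨e', rfl, -, -⟩ := hbox b' hb' z₀ hz₀ hzb
      have hZ : h.toFun z₀ ∈ Ze (D.W C) b.1 := by
        have h1 := fun l => abs_le.1 (hsm' z₀ hz₀ l)
        have h2 := fun l => abs_le.1 (hsm z₁ hz₁ l)
        refine Ze_of_near (D.B C) ?_ ?_ fun l hl => ?_
        · linarith [(h1 (K.dir b.1)).1, (h2 (K.dir b.1)).2]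
        · linarith [(h1 (K.dir b.1)).2, (h2 (K.dir b.1)).1]
        · have h3 := abs_le.1 (k3 l hl)
          rw [abs_le]
          constructor <;> linarith [(h1 l).1, (h1 l).2, (h2 l).1, (h2 l).2, h3.1, h3.2]
      have he : e' = b.1 := by
        by_contra hne
        exact Set.disjoint_left.1 (disjoint_se (W := D.W C) hne)
          (Ze_subset (Geo.TB_subset_Ze e' hzb)) (Ze_subset hZ)
      rw [he]
    have hdir : ∀ x ∈ M.F k, ∀ y ∈ M.F k,
        |X.h1.toFun x (K.dir b.1) - X.h1.toFun y (K.dir b.1)| ≤ A₁ := by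
      intro x hx y hy
      by_cases hn1 : ∀ x ∈ M.F k, ∀ b ∈ pB C J₀, h.toFun x ∉ (D.G C).TB false b
      · exact (abs_sub_le_norm _ _ _).trans ((H.off hn1 hx hy).trans H.le)
      push Not at hn1
      obtain ⟨z₀, hz₀, b', hb', hzb⟩ := hn1
      obtain rfl := hone b' hb' z₀ hz₀ hzb
      obtain ⟨e', he', hω, -⟩ := hbox _ hb' z₀ hz₀ hzb
      obtain rfl := Sum.inl.inj he'
      have hbe := (D.G C).be_wv (K.a b.1)
      have hbe' := (D.G C).be_wv (K.b b.1)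
      have hw : ∀ x ∈ M.F k,
          K.w (K.a b.1) (K.dir b.1) + (D.W C).wv (K.a b.1) / 4 ≤ X.h1.toFun x (K.dir b.1) ∧
          X.h1.toFun x (K.dir b.1) ≤ K.w (K.b b.1) (K.dir b.1) - (D.W C).wv (K.b b.1) / 4 := by
        intro x hx
        have h1 := abs_le.1 (hh1 x hx z₁ hz₁ (K.dir b.1))
        constructor <;> linarith [h1.1, h1.2]
      have key := X.out.oscf k ⟨.inl b.1, hb'⟩ ⟨z₀, hz₀, hzb⟩
        (K.w (K.a b.1) (K.dir b.1) + (D.W C).wv (K.a b.1) / 4)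
        (K.w (K.b b.1) (K.dir b.1) - (D.W C).wv (K.b b.1) / 4)
        (by
          show (D.G C).tlo true (.inl b.1) (K.dir b.1) + 50 * ω3T δ C (.inl b.1) ≤ _
          simp only [Geo.tlo, if_true]
          linarith)
        ((hw x hx).1.trans (hw x hx).2)
        (by
          show _ ≤ (D.G C).thi true (.inl b.1) (K.dir b.1) - 50 * ω3T δ C (.inl b.1)
          simp only [Geo.thi, if_true]
          linarith)
        Bd (fun x hx y hy => H.coord hx hy _) x hx y hy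
      change |H238.K3.clm _ _ (X.h1.toFun x (K.dir b.1)) -
        H238.K3.clm _ _ (X.h1.toFun y (K.dir b.1))| ≤ _ at key
      have e2 : ∀ x ∈ M.F k, H238.K3.clm
          (K.w (K.a b.1) (K.dir b.1) + (D.W C).wv (K.a b.1) / 4)
          (K.w (K.b b.1) (K.dir b.1) - (D.W C).wv (K.b b.1) / 4)
          (X.h1.toFun x (K.dir b.1)) = X.h1.toFun x (K.dir b.1) := fun x hx => by
        unfold H238.K3.clm
        rw [min_eq_right (hw x hx).2, max_eq_right (hw x hx).1]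
      rw [e2 x hx, e2 y hy] at key
      exact key.trans (H.box ⟨.inl b.1, hb'⟩ ⟨z₀, hz₀, hzb⟩)
    refine zone_E Y₅ N.μ0 hx₁ hK (r := 40 * (D.G C).oG b.1) (by linarith)
      (fun x hx y hy l => ?_) N.κ0 N.κ1 (N.μ1 b) (N.κμ b) (N.ς b) (c := c)
      (fun x hx y hy => ?_) hc0 (fun l hl => ?_) (hL.2 b ⟨x₁, hx₁, hK⟩)
    · obtain ⟨z, hz, a1⟩ := hf5 x hx
      obtain ⟨z', hz', a2⟩ := hf5 y hy
      rw [a1, a2]
      exact hh1 z hz z' hz' l
    · obtain ⟨z, hz, a1⟩ := hf5 x hx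
      obtain ⟨z', hz', a2⟩ := hf5 y hy
      rw [a1, a2]
      have := hdir z hz z' hz'
      linarith
    · have e1 : ylo (YS (D.G C)) b.1 l = K.w (K.a b.1) l - (D.B C).T b.1 / 2 := by
        unfold ylo; rw [if_neg hl]; rfl
      have e2 : yhi (YS (D.G C)) b.1 l = K.w (K.a b.1) l + (D.B C).T b.1 / 2 := by
        unfold yhi; rw [if_neg hl]; rfl
      by_cases hin : ∀ x ∈ M.F k, ylo (YS (D.G C)) b.1 l ≤ Y₄.f5.toFun x l ∧
          Y₄.f5.toFun x l ≤ yhi (YS (D.G C)) b.1 l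
      · exact Or.inl hin
      right
      push Not at hin
      obtain ⟨x₂, hx₂, hout⟩ := hin
      rw [e1, e2] at hout
      obtain ⟨z₂, hz₂, a3⟩ := hf5 x₂ hx₂
      rw [a3] at hout
      have hn1 : ∀ x ∈ M.F k, ∀ b ∈ pB C J₀, h.toFun x ∉ (D.G C).TB false b := by
        intro z₀ hz₀ b' hb' hzb
        obtain rfl := hone b' hb' z₀ hz₀ hzb
        have h1 := (Geo.mem_inl.1 hzb).2 l hl
        simp only [Bool.false_eq_true, if_false] at h1
        have h2 := (D.G C).lam_T b.1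
        have h3 := abs_le.1 h1
        have h4 := abs_le.1 (hsm' z₀ hz₀ l)
        have h6 := abs_le.1 (hsm z₂ hz₂ l)
        have h7 := hout (by linarith [h3.1, h4.2, h6.1])
        linarith [h3.2, h4.1, h6.2]
      intro x hx y hy
      obtain ⟨z, hz, a1⟩ := hf5 x hx
      obtain ⟨z', hz', a2⟩ := hf5 y hy
      rw [a1, a2]
      have h8 := (abs_sub_le_norm _ _ l).trans (H.off hn1 hz hz')
      linarith [H.le]
  push Not at hE
  have hf : ∀ x ∈ M.F k, Y₅.f.toFun x = Y₄.f5.toFun x := fun x hx =>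
    f_off Y₅ (hFΩ hx) fun b => hE b x hx
  by_cases hn1 : ∀ x ∈ M.F k, ∀ b ∈ pB C J₀, h.toFun x ∉ (D.G C).TB false b
  · left
    intro x hx y hy
    obtain ⟨z, hz, a1⟩ := hf5 x hx
    obtain ⟨z', hz', a2⟩ := hf5 y hy
    rw [hf x hx, hf y hy, a1, a2]
    have h1 := H.off hn1 hz hz'
    linarith [H.le, hL.1]
  push Not at hn1
  obtain ⟨z₀, hz₀, b, hb, hzb⟩ := hn1
  obtain ⟨e, rfl, hω, hsm⟩ := hbox b hb z₀ hz₀ hzb
  right; right; right
  have heG : e ∈ pG C J₀ := inl_mem_pB.1 hb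
  obtain ⟨⟨m1, m2⟩, m3⟩ := Geo.mem_inl.1 hzb
  simp only [Bool.false_eq_true, if_false] at m3
  have hoG := oG_le (D.G C) e
  have hoGu := (D.G C).oG_uT e
  have hulam := (D.G C).uT_lam e
  have hlama := (D.G C).lam_a e
  have hlamb := (D.G C).lam_b e
  have hlamT := (D.G C).lam_T e
  have huT := (D.G C).uT_pos e
  have hT := (D.B C).T_pos e
  have hTa := (D.B C).T_le_a e
  have hTb := (D.B C).T_le_b e
  have hpos : ∀ x ∈ M.F k, ∀ l, |Y₄.f5.toFun x l - h.toFun z₀ l| ≤ 5 * (D.G C).oG e := by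
    intro x hx l
    obtain ⟨z, hz, a1⟩ := hf5 x hx
    rw [a1]
    exact hsm z hz l
  have hlat : ∀ x ∈ M.F k, ∀ l, l ≠ K.dir e →
      |Y₄.f5.toFun x l - K.w (K.a e) l| ≤ (D.B C).T e / 2 := by
    intro x hx l hl
    have h1 := abs_le.1 (hpos x hx l)
    have h2 := abs_le.1 (m3 l hl)
    rw [abs_le]
    constructor <;> linarith [h1.1, h1.2, h2.1, h2.2]
  have hnK : Y₄.f5.toFun z₀ (K.dir e) < eal (D.W C) e ∨
      ebe (D.W C) e < Y₄.f5.toFun z₀ (K.dir e) := by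
    by_contra hcon
    push Not at hcon
    refine hE ⟨e, heG⟩ z₀ hz₀ ?_
    rw [Y₅.Ft_K ⟨e, heG⟩]
    refine mem_YB.2 ⟨hcon, fun l hl => ?_⟩
    have h1 := abs_le.1 (hlat z₀ hz₀ l hl)
    change K.w (K.a e) l - ((YS (D.G C)).p e l + H429.rT (D.G C) e l) ≤ _ ∧
      _ ≤ K.w (K.a e) l + ((YS (D.G C)).q e l + H429.rT (D.G C) e l)
    rw [YS_p, YS_q]
    have h2 := rT_pos (D.G C) e l
    constructor <;> linarith [h1.1, h1.2]
  unfold eal ebe at hnK
  rcases hnK with h1 | h1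
  · refine ⟨K.a e, pW_of_pG heG (Or.inl rfl), fun x hx => ?_⟩
    have hwa := (D.W C).wv_pos (K.a e)
    rw [hf x hx, Zv, mem_closedBall, dist_pi_le_iff hwa.le]
    intro l
    rw [Real.dist_eq]
    by_cases hl : l = K.dir e
    · subst hl
      have h2 := abs_le.1 (hpos x hx (K.dir e))
      have h3 := abs_le.1 (hpos z₀ hz₀ (K.dir e))
      rw [abs_le]
      constructor <;> linarith [h2.1, h2.2, h3.1, h3.2]
    · have := hlat x hx l hl
      linarith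
  · refine ⟨K.b e, pW_of_pG heG (Or.inr rfl), fun x hx => ?_⟩
    have hwa := (D.W C).wv_pos (K.b e)
    rw [hf x hx, Zv, mem_closedBall, dist_pi_le_iff hwa.le]
    intro l
    rw [Real.dist_eq]
    by_cases hl : l = K.dir e
    · subst hl
      have h2 := abs_le.1 (hpos x hx (K.dir e))
      have h3 := abs_le.1 (hpos z₀ hz₀ (K.dir e))
      rw [abs_le]
      constructor <;> linarith [h2.1, h2.2, h3.1, h3.2]
    · have := hlat x hx l hl
      rw [← wab K e hl]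
      linarith

end Vale.Agent.P073.H233.X5
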