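import Vale.Agent.P073.H233.OscZ5
import Vale.Agent.P073.H919.OscOff
import Vale.Agent.P073.H803.WorldB2

/-!
# P073, H233, [OSC-TOP] (x5), part 6: the faces which are not listed
-/

open Set Metric Topology Filter
open scoped ENNReal

set_option linter.unusedSectionVars false

namespace Vale.Agent.P073.H233.X5

open _root_.P073 _root_.P073.Net _root_.P073.PA691 _root_.P073.H236 _root_.P073.H579
open _root_.P073.H936 _root_.P073.H936.K3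
open _root_.P073.H142
open _root_.P073.H345 (PK tg PLev tg_ne)
open _root_.P073.H880.RP
open _root_.P073.H919 (HB mem_HB)
open _root_.P073.H429
open Vale.Agent.P073.St (V)
open Vale.Agent.P073.H471 Vale.Agent.P073.H267
open Vale.Agent.P073.H73 (Mesh)
open Vale.Agent.P073.H193 (Edges Cyc edges)
open Vale.Agent.P073.H304 (Nb)
open Vale.Agent.P073.H926
open Vale.Agent.P073.H238.K3
open Vale.Agent.P073.H267.K3
open Vale.Agent.P073.H341 (Abv)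

variable {c₀ n δ : ℝ} {j : ℕ} {Ω Λ : Set V} {v w : V} {ρ : V → ℝ} {M : Mesh Ω} {h : ConHomeo Ω Λ}
  {J₀ J : Set (ℕ × (Fin 3 → ℤ))} {P Z : Set M.ι} {K : BoxCx Λ w}
  {D : KIn3 c₀ n j δ v w ρ M h J₀ J P Z} {C : Cells ρ w K} {C₀ μT : ℝ}
  {X : S1 D C C₀ μT} {Y₂ : S2 X} {Ys : Set M.κ} {sc : Sharp} {Y₃ : S3 Y₂ Ys sc}
  {Y₄ : S4 Y₃}

/-- **the last map on a face**: `OscOK3` -/
theorem osc_ok3 {Y₅ : S5 Y₄} {κ : ℝ} (N : TubN Y₅ κ) (hnh : ∀ H : Hang K, H.s ∉ pS C J₀)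
    {i : M.ι} (hi : i ∉ P) {k : M.κ} (hki : M.F k ⊆ M.Q i) {Bd A₁ t L : ℝ}
    (H : FB X k Bd A₁) (h5 : Pos5 Y₄ k t) (ht0 : 0 ≤ t)
    (ht : ∀ s ∈ pS C J₀, (∃ z ∈ M.F k, X.h1.toFun z ∈ PK (D.G C) s) → t ≤ (D.G C).oS s)
    (hL : LB Y₅ k κ (A₁ + 2 * t) L) :
    OscOK3 (D.B C) (Xp C J₀) P h.toFun Y₅.f.toFun L k := by
  have hFΩ : M.F k ⊆ Ω := Vale.Agent.P073.H193.mesh_sub M k
  by_cases hm : (h.toFun '' M.Q i ∩ Nb w J₀ c₀).Nonempty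
  · by_cases hp : ∃ s ∈ pS C J₀, ∃ z ∈ M.F k, X.h1.toFun z ∈ PK (D.G C) s
    · obtain ⟨s, hs, z, hz, hzs⟩ := hp
      exact Or.inr (Or.inr (zone_P N hnh hi hki hs hz hzs H h5 ht0 (ht s hs ⟨z, hz, hzs⟩) hL))
    · push Not at hp
      exact Or.inr (Or.inr (zone_M N hnh hi hki hm hp H h5 ht0 hL))
  · refine Or.inr (Or.inl fun x hx => Y₅.off x (hFΩ hx) fun hN => hm ?_)
    exact ⟨_, ⟨x, hki hx, rfl⟩, hN⟩

/-- **the positions**, in the world of equal tiles -/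
theorem pos5_of (Y₄ : S4 Y₃) (hJ : J = J₀) (hm : ∀ t ∈ J₀, ∀ t' ∈ J₀, t'.1 = t.1) {k : M.κ}
    (hun : ∀ s ∈ pS C J₀, (∀ x ∈ M.F k, Y₃.h4.toFun x ∉ HB (D.G C) (29 / 32) (3 / 4) s) ∨
      ∃ β, ¬ (D.dat C).sd s β ∧ ∀ x ∈ M.F k, Abv K s β ((D.dat C).ht s β / 2) (X.h1.toFun x))
    {t : ℝ} (ht : ∀ s ∈ pS C J₀, (∃ z ∈ M.F k, X.h1.toFun z ∈ PK (D.G C) s) →
      3 * Y₂.muP s ≤ t) : Pos5 Y₄ k t := by
  intro x hx
  obtain ⟨z, hz, h1 | ⟨s, hs, h1, h2, h3, h4⟩⟩ := _root_.Vale.Agent.P073.H919.K3.pos_x Y₄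
    (fun s hs β => Y₂.Q_emp hJ hm hs β) (fun s hs hy => by
      rcases hun s hs with h1 | ⟨β, h1, h2⟩
      · obtain ⟨y, hy, hyB⟩ := hy
        exact absurd hyB (h1 y hy)
      · refine ⟨β, h1, fun z hz => ?_⟩
        have h3 := h2 z hz
        rw [D.dat_ht_not C h1] at h3
        have e : (D.B C).τ s / 2 / 2 = (D.B C).τ s / 4 := by ring
        rwa [e] at h3) hx
  · exact ⟨z, hz, Or.inl h1.2⟩
  · have h5 := ht s hs ⟨z, hz, h1⟩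
    refine ⟨z, hz, Or.inr ⟨s, hs, h1, h2, fun β => (h3 β).trans h5, ?_⟩⟩
    rcases h4 with ⟨-, -, h4⟩ | ⟨-, h4⟩
    · left
      have h6 := (mem_HB.1 h4).2
      have h7 := (D.B C).τ_pos s
      linarith
    · exact Or.inr fun l => (h4 l).trans h5

/-- **the faces which are not listed**: the oscillation after the collapse -/
theorem ev_sup {Y₅ : S5 Y₄} {κ : ℝ} (N : TubN Y₅ κ) (hC₀ : 1 ≤ C₀) (hJ : J = J₀)
    (hm : ∀ t ∈ J₀, ∀ t' ∈ J₀, t'.1 = t.1) {k : M.κ} (hP : ∀ i ∈ P, ¬ M.F k ⊆ M.Q i)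
    (hun : ∀ s ∈ pS C J₀, (∀ x ∈ M.F k, Y₃.h4.toFun x ∉ HB (D.G C) (29 / 32) (3 / 4) s) ∨
      ∃ β, ¬ (D.dat C).sd s β ∧ ∀ x ∈ M.F k, Abv K s β ((D.dat C).ht s β / 2) (X.h1.toFun x))
    {B o : ℝ} (hB : ∀ x ∈ M.F k, ∀ y ∈ M.F k, ‖h.toFun x - h.toFun y‖ ≤ B) (hB0 : 0 < B)
    (ho0 : 0 ≤ o)
    (hd : ∀ b : pB C J₀, (∃ z ∈ M.F k, h.toFun z ∈ (D.G C).TB false b.1) → X.εd b ≤ o)
    (hmu : ∀ s ∈ pS C J₀, (∃ z ∈ M.F k, X.h1.toFun z ∈ PK (D.G C) s) → Y₂.muP s ≤ o)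
    (ho : ∀ s ∈ pS C J₀, (∃ z ∈ M.F k, X.h1.toFun z ∈ PK (D.G C) s) → 3 * o ≤ (D.G C).oS s)
    (hsg : ∀ b : pG C J₀, (∃ x ∈ M.F k, Y₄.f5.toFun x ∈ (Y₅.Ft.X b).K) →
      Y₅.ς b * (ebe (D.W C) b.1 - eal (D.W C) b.1) ≤ o)
    {μ' L : ℝ} (hμ : 0 ≤ μ') (hμ1 : μ' ≤ 1) (hL : (12 * C₀ + 4) * B + 88 * o ≤ L) :
    Ev (D.B C) (Xp C J₀) μ' M Y₅.f.toFun (.inl k) (OscEst Y₅.f.toFun k L) := by
  obtain ⟨i, _, -, hki⟩ := M.two k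
  have hki' : M.F k ⊆ M.Q i := hki.trans inter_subset_left
  have hi : i ∉ P := fun h => hP i h hki'
  have hF : FB X k B (C₀ * B + o) :=
    ⟨hB, by nlinarith, fun b hb => by linarith [hd b hb]⟩
  have h5 : Pos5 Y₄ k (3 * o) := pos5_of Y₄ hJ hm hun fun s hs hz => by
    linarith [hmu s hs hz]
  set c := C₀ * B + o + 2 * (3 * o) with hc
  have hc0 : 0 ≤ c := by
    have := mul_nonneg (zero_le_one.trans hC₀) hB0.le
    linarith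
  have hLB : LB Y₅ k κ c (3 * c + o) := by
    refine ⟨by linarith, fun b hb => ?_⟩
    have h1 := hsg b hb
    have h2 : (1 + Y₅.μ b) * c ≤ 2 * c := mul_le_mul_of_nonneg_right (by linarith [N.μ1 b]) hc0
    have h3 : κ * c ≤ 1 / 4 * c := mul_le_mul_of_nonneg_right N.κ1 hc0
    linarith
  have key := osc_ok3 N (H803.WB.no_hang D C hJ hm) hi hki' hF h5 (by linarith) ho hLB
  have h6 := (key.ev (L₀ := B) (by linarith) hB0 hB hμ hμ1).resolve_left fun ⟨i', hi', h⟩ =>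
    hP i' hi' h
  refine h6.mono fun Φ h7 x hx y hy => (h7 x hx y hy).trans ?_
  rw [hc]
  linarith

end Vale.Agent.P073.H233.X5
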