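import Vale.Agent.P073.H233.OscZ6
import Vale.Agent.P073.H233.Tail3I
import Vale.Agent.P073.H579.SupSlot

/-!
# P073, H233, [OSC-TOP] (x5), part 7: the row of the faces which are not listed
-/

open Set Metric Topology Filter
open scoped ENNReal

set_option linter.unusedSectionVars false

namespace Vale.Agent.P073.H233.X5

open _root_.P073 _root_.P073.Net _root_.P073.PA691 _root_.P073.H236 _root_.P073.H579
open _root_.P073.H936 _root_.P073.H936.K3
open _root_.P073.H142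
open _root_.P073.H345 (PK tg PLev tg_ne)
open _root_.P073.H880.RP
open _root_.P073.H429
open Vale.Agent.P073.St (V)
open Vale.Agent.P073.H471 Vale.Agent.P073.H267
open Vale.Agent.P073.H73 (Mesh)
open Vale.Agent.P073.H193 (Edges edges)
open Vale.Agent.P073.H926
open Vale.Agent.P073.H238.K3
open Vale.Agent.P073.H267.K3
open Vale.Agent.P073.H579.K3
open Vale.Agent.P073.H227 (Unl SupRow)
open Vale.Agent.P073.Top880

variable {c₀ n δ : ℝ} {j : ℕ} {Ω Λ : Set V} {v w : V} {ρ : V → ℝ} {M : Mesh Ω} {h : ConHomeo Ω Λ}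
  {J₀ J : Set (ℕ × (Fin 3 → ℤ))} {P Z : Set M.ι} {K : BoxCx Λ w}
  {D : KIn3 c₀ n j δ v w ρ M h J₀ J P Z} {C : Cells ρ w K} {C₀ μT : ℝ}
  {X : S1 D C C₀ μT} {Y₂ : S2 X} {Ys : Set M.κ} {sc : Sharp} {Y₃ : S3 Y₂ Ys sc}
  {Y₄ : S4 Y₃}

/-- the oscillation of the input on a face near a plate -/
theorem oscH_PK (X : S1 D C C₀ μT) {i : M.ι} (hi : i ∉ P) {k : M.κ} (hki : M.F k ⊆ M.Q i)
    {s : K.S} (hs : s ∈ pS C J₀) {z : V} (hz : z ∈ M.F k)
    (hzs : X.h1.toFun z ∈ PK (D.G C) s) : oscH h k ≤ 12 * (D.G C).oS s := by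
  have h0 : 0 < (D.G C).oS s := by
    have h1 := D.ω3S_oS C s
    have h2 := D.ω3S_pos C s
    linarith
  refine diam_le_of_forall_dist_le (by linarith) ?_
  rintro _ ⟨x, hx, rfl⟩ _ ⟨y, hy, rfl⟩
  have h1 := (D.pos_PK C hs hi (X.out.nearC D C i) (hki hz) hzs (hki hx)).1
  have h2 := (D.pos_PK C hs hi (X.out.nearC D C i) (hki hz) hzs (hki hy)).1
  rw [dist_eq_norm]
  have e : h.toFun x - h.toFun y = (h.toFun x - X.h1.toFun z) - (h.toFun y - X.h1.toFun z) := by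
    abel
  rw [e]
  refine (norm_sub_le _ _).trans ?_
  linarith

/-- **the numbers of the tubes** -/
theorem tubN_of {Y₅ : S5 Y₄} {o : M.κ → ℝ} (H : SupNum Y₅ o) : TubN Y₅ (n / 256) := by
  have h1 := D.pos
  have h2 := D.nle
  have h3 := D.le
  refine ⟨H.μ0, fun b => (H.μ1 b).trans (by linarith), by positivity, by linarith, fun b => ?_,
    H.sgT⟩
  rw [H.μu b]
  exact le_of_eq (by ring)

/-- **one face which is not listed** -/
theorem supLoc {C₀ : ℝ} (hC₀ : 1 ≤ C₀) : SupLoc C₀ (1 / 100) (12 * C₀ + 5) := by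
  intro c₀ n δ j Ω Λ v w ρ M h J₀ J P Z K D C Ys p μ r ν sc HN hJ hm S N X Y₂ Y₃ Y₄ Y₅ h5 H k hP
    hU
  have hO := oscH_pos h k
  obtain ⟨i, _, -, hki⟩ := M.two k
  have hki' : M.F k ⊆ M.Q i := hki.trans inter_subset_left
  have hi : i ∉ P := fun h => hP i h hki'
  have hs := soft_mu D
  refine ev_sup (tubN_of H) hC₀ hJ hm hP hU (B := oscH h k) (o := 1 / 100 * oscH h k)
    (fun x hx y hy => norm_le_oscH h hx hy) hO (by positivity) ?_ ?_ ?_ ?_ hs.1 hs.2 ?_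
  · rintro b ⟨z, hz, hb⟩
    exact H.d b k ⟨_, mem_image_of_mem _ hz, hb⟩
  · rintro s - ⟨z, hz, hb⟩
    exact H.m s k ⟨_, mem_image_of_mem _ hz, hb⟩
  · rintro s hs ⟨z, hz, hb⟩
    have := oscH_PK X hi hki' hs hz hb
    linarith
  · rintro b ⟨x, hx, hb⟩
    exact H.sg b k ⟨_, mem_image_of_mem _ hx, Y₅.lay.KE b hb⟩
  · nlinarith

/-- **the row of the faces which are not listed** -/
theorem supRow {C₀ : ℝ} (hC₀ : 1 ≤ C₀) : SupRow C₀ :=
  supRow_of (by norm_num) (by linarith) (supLoc hC₀)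

end Vale.Agent.P073.H233.X5
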