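import Mathlib.Algebra.Order.BigOperators.Group.Finset
import Mathlib.Data.Real.Basic
import Mathlib.Data.Fintype.Card
import Mathlib.Data.Fintype.Lattice
import Mathlib.Tactic.Linarith
import Mathlib.Tactic.Positivity

/-!
# P073, H233 (CONE3-LP): the nesting rank of finitely many circles

`J` a finite family of circles of two types `typ`, `O c` the closed disc of `c` (thick circle and
inner disc), `s c` its level function (`1` on the inner disc, `-1` outside `O c`).

`enc c` = the circles (of both types) which enclose `c`: `s c' = 1` on `O c`.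
`dep c` = their number, `nrk c = 2 (D - dep c) + [typ c]`: this rank is strictly smaller for the inner
circle of a nested pair, has different parities for the two types, and the number `2 D + 2` of ranks
is controlled by the oscillation of `∑ ω s c`.
-/

open Finset

namespace Vale.Agent.P073.H233

variable {X J : Type*} [Fintype J]

open Classical in
/-- the circles which enclose `c` -/
noncomputable def enc (O : J → Set X) (s : J → X → ℝ) (c : J) : Finset J :=
  Finset.univ.filter fun c' => ∀ x ∈ O c, s c' x = 1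

/-- the nesting depth -/
noncomputable def dep (O : J → Set X) (s : J → X → ℝ) (c : J) : ℕ := (enc O s c).card

/-- the maximal depth -/
noncomputable def maxDep (O : J → Set X) (s : J → X → ℝ) : ℕ := Finset.univ.sup (dep O s)

/-- **the nesting rank** -/
noncomputable def nrk (typ : J → Bool) (O : J → Set X) (s : J → X → ℝ) (c : J) : ℕ :=
  2 * (maxDep O s - dep O s c) + (if typ c then 1 else 0)

/-- the number of ranks -/
noncomputable def nrks (O : J → Set X) (s : J → X → ℝ) : ℕ := 2 * maxDep O s + 2

variable {typ : J → Bool} {O : J → Set X} {s : J → X → ℝ}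

theorem mem_enc {c c' : J} : c' ∈ enc O s c ↔ ∀ x ∈ O c, s c' x = 1 := by
  classical
  simp [enc]

theorem dep_le (c : J) : dep O s c ≤ maxDep O s := Finset.le_sup (f := dep O s) (mem_univ c)

theorem nrk_lt (c : J) : nrk typ O s c < nrks O s := by
  unfold nrk nrks
  have := dep_le (O := O) (s := s) c
  split_ifs <;> omega

/-- different types have different ranks -/
theorem nrk_ne {c c' : J} (h : typ c ≠ typ c') : nrk typ O s c ≠ nrk typ O s c' := by
  unfold nrk
  intro h'
  rcases hc : typ c with _ | _ <;> rcases hc' : typ c' with _ | _ <;>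
    simp only [hc, hc', ne_eq, not_true_eq_false, reduceCtorEq, if_true, if_false,
      Bool.false_eq_true] at h h' <;> omega

/-- `H`: the standing hypotheses: a circle takes the value `1` only in its disc, and not everywhere
there -/
structure Lam (S : Set X) (O : J → Set X) (s : J → X → ℝ) : Prop where
  sub : ∀ c, O c ⊆ S
  one : ∀ c, ∀ x ∈ S, s c x = 1 → x ∈ O c
  ne : ∀ c, ∃ x ∈ O c, s c x ≠ 1

variable {S : Set X}

theorem Lam.subset (H : Lam S O s) {c c' : J} (h : c' ∈ enc O s c) : O c ⊆ O c' :=
  fun x hx => H.one c' x (H.sub c hx) (mem_enc.1 h x hx)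

theorem Lam.enc_subset (H : Lam S O s) {c c' : J} (h : c' ∈ enc O s c) :
    enc O s c' ⊆ enc O s c := fun c'' h'' =>
  mem_enc.2 fun x hx => mem_enc.1 h'' x (H.subset h hx)

theorem Lam.not_mem (H : Lam S O s) (c : J) : c ∉ enc O s c := fun h => by
  obtain ⟨x, hx, h1⟩ := H.ne c
  exact h1 (mem_enc.1 h x hx)

theorem Lam.dep_lt (H : Lam S O s) {c c' : J} (h : c' ∈ enc O s c) : dep O s c' < dep O s c :=
  Finset.card_lt_card ⟨H.enc_subset h, fun h' => H.not_mem c' (h' h)⟩

/-- **the rank of the inner circle is smaller** (any types) -/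
theorem Lam.nrk_lt_of_enc (H : Lam S O s) {c c' : J} (h : c' ∈ enc O s c) :
    nrk typ O s c < nrk typ O s c' := by
  have h1 := H.dep_lt h
  have h2 := dep_le (O := O) (s := s) c
  unfold nrk
  split_ifs <;> omega

/-- **the depth is controlled by the oscillation of the levels** -/
theorem two_mul_dep_le {ω : J → ℝ} {w : ℝ} (hω : ∀ c, w ≤ ω c) (hw : 0 ≤ w) {p₀ : X}
    (h0 : ∀ c, s c p₀ = -1) {c : J} {x : X} (hx : x ∈ O c) :
    2 * w * dep O s c ≤ ∑ c', ω c' * |s c' x - s c' p₀| := by
  have h1 : ∑ c' ∈ enc O s c, ω c' * |s c' x - s c' p₀| ≤ ∑ c', ω c' * |s c' x - s c' p₀| :=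
    Finset.sum_le_sum_of_subset_of_nonneg (Finset.subset_univ _) fun c' _ _ =>
      mul_nonneg (hw.trans (hω c')) (abs_nonneg _)
  refine le_trans ?_ h1
  have h2 : ∑ c' ∈ enc O s c, (2 * w) ≤ ∑ c' ∈ enc O s c, ω c' * |s c' x - s c' p₀| := by
    refine Finset.sum_le_sum fun c' hc' => ?_
    rw [mem_enc.1 hc' x hx, h0 c']
    have : |(1:ℝ) - -1| = 2 := by norm_num
    rw [this]
    nlinarith [hω c']
  rw [Finset.sum_const, nsmul_eq_mul] at h2
  unfold dep
  linarith

/-- bound for the number of ranks -/
theorem nrks_le {ω : J → ℝ} {w : ℝ} (hω : ∀ c, w ≤ ω c) (hw : 0 ≤ w) {p₀ : X}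
    (h0 : ∀ c, s c p₀ = -1) (hne : ∀ c, (O c).Nonempty) {A : ℝ} (hA0 : 0 ≤ A)
    (hA : ∀ c, ∀ x ∈ O c, ∑ c', ω c' * |s c' x - s c' p₀| ≤ A) :
    w * nrks O s ≤ A + 2 * w := by
  have h : w * (2 * maxDep O s) ≤ A := by
    rcases isEmpty_or_nonempty J with hJ | hJ
    · have : maxDep O s = 0 := by
        unfold maxDep
        rw [Finset.univ_eq_empty, Finset.sup_empty]
        rfl
      rw [this]
      simpa using hA0
    · obtain ⟨c, -, hc⟩ := Finset.exists_mem_eq_sup (Finset.univ : Finset J)
        ⟨Classical.arbitrary J, mem_univ _⟩ (dep O s)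
      obtain ⟨x, hx⟩ := hne c
      have h1 := (two_mul_dep_le hω hw h0 hx).trans (hA c x hx)
      have h2 : maxDep O s = dep O s c := hc
      rw [h2]
      linarith
  unfold nrks
  push_cast
  linarith

end Vale.Agent.P073.H233
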