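import Vale.Agent.P073.H212.Soft2
import Vale.Agent.P073.H142.EstKill
import Vale.Agent.P073.H926.RelCor

/-!
# P073, block H233, [K3-TAIL], part A: the last collapse, local estimates

`X : PSet K`: the processed squares, edges, vertices.  `Small3`: the reduction factors of the
processed boxes are small compared with the map `f` on the sets `F k`, the others are `1`.
`LAt B X L A f x`: the alive coordinates of `f` on `A` satisfy the Lipschitz estimate near `x`.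
-/

open Set Metric Topology Filter
open scoped ENNReal

namespace Vale.Agent.P073.H233

open _root_.P073 _root_.P073.Net _root_.P073.PA691 _root_.P073.TM
open Vale.Agent.P073.St (V)
open Vale.Agent.P073.H471
open Vale.Agent.P073.H212 (IsSoft)
open Vale.Agent.P073.H73 (onSeg)

variable {Ω Λ : Set V} {v : V} {K : BoxCx Λ v} {S : Rad K} {W : Wid K S} {B : Boxes W}
  {α : Type*}

/-- the processed squares, edges, vertices -/
structure PSet (K : BoxCx Λ v) where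
  /-- the processed squares -/
  s : Set K.S
  /-- the processed edges -/
  e : Set K.G
  /-- the processed vertices -/
  w : Set K.W

variable {X : PSet K}

/-- the reduction factors of the processed boxes are small compared with the map `f` on the sets
`F k`, the others are `1` -/
structure Small3 (W : Wid K S) (X : PSet K) (R : Fac K) (f : V → V) (F : α → Set V)
    (N t : α → ℝ) : Prop where
  pos : ∀ k, 0 < N k
  lip : ∀ k, ∀ x ∈ F k, ∀ y ∈ F k, ‖f x - f y‖ ≤ N k * ‖x - y‖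
  cpt : ∀ k, IsCompact (F k)
  s : ∀ k, ∀ s ∈ X.s, (f '' F k ∩ Zs W s).Nonempty → R.ρs s * (N k * (1 + diam (F k))) ≤ t k / 7
  e : ∀ k, ∀ e ∈ X.e, (f '' F k ∩ Ze W e).Nonempty → R.ρe e * (N k * (1 + diam (F k))) ≤ t k / 7
  v : ∀ k, ∀ i ∈ X.w, (f '' F k ∩ Zv W i).Nonempty → R.ρv i * (N k * (1 + diam (F k))) ≤ t k / 7

/-- the factors of the boxes which are not processed are `1` -/
structure FacOne (X : PSet K) (R : Fac K) : Prop where
  s : ∀ s, s ∉ X.s → R.ρs s = 1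
  e : ∀ e, e ∉ X.e → R.ρe e = 1
  v : ∀ i, i ∉ X.w → R.ρv i = 1

open Classical in
/-- **reduction factors below everything** -/
theorem exists_small3 (hΩ : IsOpen Ω) (f : ConHomeo Ω Λ) (W : Wid K S) (X : PSet K)
    (F : α → Set V) (hF : ∀ k, IsCompact (F k)) (hFΩ : ∀ k, F k ⊆ Ω)
    (hfin : ∀ C ⊆ Ω, IsCompact C → {k | (F k ∩ C).Nonempty}.Finite) {t : α → ℝ}
    (ht : ∀ k, 0 < t k) :
    ∃ (R : Fac K) (N : α → ℝ), Small3 W X R f.toFun F N t ∧ FacOne X R := by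
  obtain ⟨R, N, H⟩ := exists_small hΩ f W F hF hFΩ hfin ht
  refine ⟨{ ρs := fun s => if s ∈ X.s then R.ρs s else 1
            ρe := fun e => if e ∈ X.e then R.ρe e else 1
            ρv := fun i => if i ∈ X.w then R.ρv i else 1
            s_pos := fun s => ?_
            e_pos := fun s => ?_
            v_pos := fun s => ?_
            s_le := fun s => ?_
            e_le := fun s => ?_
            v_le := fun s => ?_ }, N, ⟨H.pos, H.lip, H.cpt, fun k s hs h => ?_, fun k s hs h => ?_,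
            fun k s hs h => ?_⟩, ⟨fun s hs => if_neg hs, fun s hs => if_neg hs,
            fun s hs => if_neg hs⟩⟩
  · split_ifs
    exacts [R.s_pos s, one_pos]
  · split_ifs
    exacts [R.e_pos s, one_pos]
  · split_ifs
    exacts [R.v_pos s, one_pos]
  · split_ifs
    exacts [R.s_le s, le_rfl]
  · split_ifs
    exacts [R.e_le s, le_rfl]
  · split_ifs
    exacts [R.v_le s, le_rfl]
  · show (if s ∈ X.s then R.ρs s else 1) * _ ≤ _
    rw [if_pos hs]; exact H.s k s h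
  · show (if s ∈ X.e then R.ρe s else 1) * _ ≤ _
    rw [if_pos hs]; exact H.e k s h
  · show (if s ∈ X.w then R.ρv s else 1) * _ ≤ _
    rw [if_pos hs]; exact H.v k s h

/-- local estimate of the alive coordinates of `f` on `A` near `x`, with constant `L` -/
def LAt (B : Boxes W) (X : PSet K) (L : ℝ) (A : Set V) (f : V → V) (x : V) : Prop :=
  (∀ᶠ x' in 𝓝[A] x, ‖f x' - f x‖ ≤ L * ‖x' - x‖) ∨
  (∃ s ∈ X.s, f x ∈ interior (Zs W s) ∧
    ∀ᶠ x' in 𝓝[A] x, ∀ j, j ≠ K.nrm s → |f x' j - f x j| ≤ L * ‖x' - x‖) ∨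
  (∃ i ∈ X.e, f x ∈ interior (B.E i) ∧
    ∀ᶠ x' in 𝓝[A] x, |f x' (K.dir i) - f x (K.dir i)| ≤ L * ‖x' - x‖) ∨
  ∃ i ∈ X.w, f x ∈ interior (Zv W i)

theorem LAt.mono {L L' : ℝ} (h : L ≤ L') {A A' : Set V} (hA : A' ⊆ A) {f : V → V} {x : V}
    (H : LAt B X L A f x) : LAt B X L' A' f x := by
  have key : ∀ {x' : V}, L * ‖x' - x‖ ≤ L' * ‖x' - x‖ := fun {x'} =>
    mul_le_mul_of_nonneg_right h (norm_nonneg _)
  have hle := nhdsWithin_mono x hA
  rcases H with H | ⟨s, hs, h1, h2⟩ | ⟨i, hi, h1, h2⟩ | ⟨i, hi, h1⟩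
  · exact Or.inl (Eventually.mono (hle H) fun x' h3 => h3.trans key)
  · exact Or.inr (Or.inl ⟨s, hs, h1,
      Eventually.mono (hle h2) fun x' h3 j hj => (h3 j hj).trans key⟩)
  · exact Or.inr (Or.inr (Or.inl ⟨i, hi, h1,
      Eventually.mono (hle h2) fun x' h3 => h3.trans key⟩))
  · exact Or.inr (Or.inr (Or.inr ⟨i, hi, h1⟩))

/-- a map which is equal to `f` -/
theorem LAt.congr {L : ℝ} {A : Set V} {f g : V → V} {x : V} (hx : x ∈ A) (H : LAt B X L A f x)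
    (h : EqOn g f A) : LAt B X L A g x := by
  have hm : ∀ᶠ x' in 𝓝[A] x, g x' = f x' := by
    filter_upwards [self_mem_nhdsWithin] with x' hx' using h hx'
  rcases H with H | ⟨s, hs, h1, h2⟩ | ⟨i, hi, h1, h2⟩ | ⟨i, hi, h1⟩
  · refine Or.inl ?_
    filter_upwards [H, hm] with x' h3 h4
    rw [h4, h hx]; exact h3
  · refine Or.inr (Or.inl ⟨s, hs, by rw [h hx]; exact h1, ?_⟩)
    filter_upwards [h2, hm] with x' h3 h4
    rw [h4, h hx]; exact h3
  · refine Or.inr (Or.inr (Or.inl ⟨i, hi, by rw [h hx]; exact h1, ?_⟩))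
    filter_upwards [h2, hm] with x' h3 h4
    rw [h4, h hx]; exact h3
  · exact Or.inr (Or.inr (Or.inr ⟨i, hi, by rw [h hx]; exact h1⟩))

section est

variable {R : Fac K} {f : V → V} {F : α → Set V} {N t : α → ℝ} {Φ : ConHomeo Λ Λ} {k : α}
  {x x' : V} {L μ : ℝ} {A : Set V}

theorem Small3.le1 (H : Small3 W X R f F N t) {ρ : ℝ} (hρ : 0 < ρ)
    (h : ρ * (N k * (1 + diam (F k))) ≤ t k / 7) : ρ * N k ≤ t k / 7 := by
  have h1 := H.pos k
  have h2 : 0 ≤ diam (F k) := diam_nonneg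
  have h3 := mul_pos hρ h1
  nlinarith

theorem Small3.le2 (H : Small3 W X R f F N t) {ρ : ℝ} (hρ : 0 < ρ) (hx : x ∈ F k)
    (hx' : x' ∈ F k) (h : ρ * (N k * (1 + diam (F k))) ≤ t k / 7) :
    ρ * ‖f x - f x'‖ ≤ t k / 7 := by
  have h1 := H.pos k
  have h2 := dist_le_diam_of_mem (H.cpt k).isBounded hx hx'
  rw [dist_eq_norm] at h2
  refine le_trans (mul_le_mul_of_nonneg_left (H.lip k x hx x' hx') hρ.le) (le_trans ?_ h)
  gcongr
  linarith

theorem Small3.le3 (H : Small3 W X R f F N t) {ρ : ℝ} (hρ : 0 < ρ) (hx : x ∈ F k)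
    (hx' : x' ∈ F k) (h : ρ * (N k * (1 + diam (F k))) ≤ t k / 7) :
    ρ * ‖f x - f x'‖ ≤ t k / 7 * ‖x - x'‖ := by
  have h1 := H.le1 hρ h
  calc ρ * ‖f x - f x'‖ ≤ ρ * (N k * ‖x - x'‖) :=
        mul_le_mul_of_nonneg_left (H.lip k x hx x' hx') hρ.le
    _ = ρ * N k * ‖x - x'‖ := by ring
    _ ≤ _ := by gcongr

theorem Small3.s3 (H : Small3 W X R f F N t) {s : K.S} (hs : s ∈ X.s) (hx : x ∈ F k)
    (hx' : x' ∈ F k) (hz : f x ∈ Zs W s) :
    R.ρs s * ‖f x - f x'‖ ≤ t k / 7 * ‖x - x'‖ ∧ R.ρs s * ‖f x - f x'‖ ≤ t k / 7 :=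
  ⟨H.le3 (R.s_pos s) hx hx' (H.s k s hs ⟨f x, ⟨x, hx, rfl⟩, hz⟩),
    H.le2 (R.s_pos s) hx hx' (H.s k s hs ⟨f x, ⟨x, hx, rfl⟩, hz⟩)⟩

theorem Small3.e3 (H : Small3 W X R f F N t) {s : K.G} (hs : s ∈ X.e) (hx : x ∈ F k)
    (hx' : x' ∈ F k) (hz : f x ∈ Ze W s) :
    R.ρe s * ‖f x - f x'‖ ≤ t k / 7 * ‖x - x'‖ ∧ R.ρe s * ‖f x - f x'‖ ≤ t k / 7 :=
  ⟨H.le3 (R.e_pos s) hx hx' (H.e k s hs ⟨f x, ⟨x, hx, rfl⟩, hz⟩),
    H.le2 (R.e_pos s) hx hx' (H.e k s hs ⟨f x, ⟨x, hx, rfl⟩, hz⟩)⟩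

theorem Small3.v3 (H : Small3 W X R f F N t) {s : K.W} (hs : s ∈ X.w) (hx : x ∈ F k)
    (hx' : x' ∈ F k) (hz : f x ∈ Zv W s) :
    R.ρv s * ‖f x - f x'‖ ≤ t k / 7 * ‖x - x'‖ ∧ R.ρv s * ‖f x - f x'‖ ≤ t k / 7 :=
  ⟨H.le3 (R.v_pos s) hx hx' (H.v k s hs ⟨f x, ⟨x, hx, rfl⟩, hz⟩),
    H.le2 (R.v_pos s) hx hx' (H.v k s hs ⟨f x, ⟨x, hx, rfl⟩, hz⟩)⟩

/-- two points in the zone of a square -/
theorem norm_s (HΦ : IsSoft B μ R Φ) (hμ : 0 ≤ μ) {s : K.S} {y y' : V}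
    (hy : y ∈ Zs W s) (hy' : y' ∈ Zs W s) (hL : ∀ j, j ≠ K.nrm s → |y j - y' j| ≤ L)
    (hL0 : 0 ≤ L) : ‖Φ.toFun y - Φ.toFun y'‖ ≤ (1 + μ) * L + 2 * (R.ρs s * ‖y - y'‖) := by
  have hρ := R.s_pos s
  rw [pi_norm_le_iff_of_nonneg (by positivity)]
  intro j
  rw [Pi.sub_apply, Real.norm_eq_abs]
  refine (HΦ.zs s y hy y' hy' L hL j).trans ?_
  split_ifs with hj
  · linarith [mul_nonneg hμ hL0]
  · linarith [hL j hj]

/-- two points in the box of an edge -/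
theorem norm_e (HΦ : IsSoft B μ R Φ) (hμ : 0 ≤ μ) {s : K.G} {y y' : V}
    (hy : y ∈ B.E s) (hy' : y' ∈ B.E s) (hL : |y (K.dir s) - y' (K.dir s)| ≤ L)
    (hL0 : 0 ≤ L) : ‖Φ.toFun y - Φ.toFun y'‖ ≤ (1 + μ) * L + 7 * (R.ρe s * ‖y - y'‖) := by
  have hρ := R.e_pos s
  rw [pi_norm_le_iff_of_nonneg (by positivity)]
  intro j
  rw [Pi.sub_apply, Real.norm_eq_abs]
  refine (HΦ.ze s y hy y' hy' j).trans ?_
  have h1 := mul_le_mul_of_nonneg_left hL hμ
  split_ifs with hj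
  · rw [hj]; linarith
  · linarith

/-- two points in the cube of a vertex -/
theorem norm_v (HΦ : IsSoft B μ R Φ) {s : K.W} {y y' : V}
    (hy : y ∈ Zv W s) (hy' : y' ∈ Zv W s) :
    ‖Φ.toFun y - Φ.toFun y'‖ ≤ 4 * (R.ρv s * ‖y - y'‖) := by
  have hρ := R.v_pos s
  rw [pi_norm_le_iff_of_nonneg (by positivity)]
  intro j
  rw [Pi.sub_apply, Real.norm_eq_abs]
  exact HΦ.zv s y hy y' hy' j

/-- **one point** -/
theorem LAt.est (H : Small3 W X R f F N t) (HΦ : IsSoft B μ R Φ) (hμ : 0 ≤ μ) (hμ1 : μ ≤ 1)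
    (hA : A ⊆ F k) (hf : ContinuousOn f A) (hx : x ∈ A) (hL : 0 ≤ L) (ht : t k ≤ L)
    (h : LAt B X L A f x) :
    ∀ᶠ x' in 𝓝[A] x, ‖Φ.toFun (f x') - Φ.toFun (f x)‖ ≤ 8 * L * ‖x' - x‖ := by
  have hμL : μ * L ≤ L := mul_le_of_le_one_left hL hμ1
  rcases h with h | ⟨s, hs, h1, h2⟩ | ⟨i, hi, h1, h2⟩ | ⟨i, hi, h1⟩
  · filter_upwards [h] with x' h1
    refine (HΦ.lip _ _).trans ?_
    have := mul_nonneg hL (norm_nonneg (x' - x))
    linarith
  · filter_upwards [h2, Small.ev_mem hf hx h1, self_mem_nhdsWithin] with x' h3 h4 h5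
    have h6 := norm_s HΦ hμ h4 (interior_subset h1) h3
      (mul_nonneg hL (norm_nonneg _))
    have h7 := (H.s3 hs (hA h5) (hA hx) h4).1
    have h8 := norm_nonneg (x' - x)
    calc _ ≤ _ := h6
      _ ≤ (1 + μ) * (L * ‖x' - x‖) + 2 * (t k / 7 * ‖x' - x‖) := by gcongr
      _ = ((1 + μ) * L + 2 / 7 * t k) * ‖x' - x‖ := by ring
      _ ≤ _ := mul_le_mul_of_nonneg_right (by linarith) h8
  · filter_upwards [h2, Small.ev_mem hf hx h1, self_mem_nhdsWithin] with x' h3 h4 h5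
    have h6 := norm_e HΦ hμ h4 (interior_subset h1) h3
      (mul_nonneg hL (norm_nonneg _))
    have h7 := (H.e3 hi (hA h5) (hA hx) (B.E_subset i h4)).1
    have h8 := norm_nonneg (x' - x)
    calc _ ≤ _ := h6
      _ ≤ (1 + μ) * (L * ‖x' - x‖) + 7 * (t k / 7 * ‖x' - x‖) := by gcongr
      _ = ((1 + μ) * L + t k) * ‖x' - x‖ := by ring
      _ ≤ _ := mul_le_mul_of_nonneg_right (by linarith) h8
  · filter_upwards [Small.ev_mem hf hx h1, self_mem_nhdsWithin] with x' h4 h5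
    have h6 := norm_v HΦ h4 (interior_subset h1)
    have h7 := (H.v3 hi (hA h5) (hA hx) h4).1
    have h8 := norm_nonneg (x' - x)
    calc _ ≤ _ := h6
      _ ≤ 4 * (t k / 7 * ‖x' - x‖) := by gcongr
      _ = (4 / 7 * t k) * ‖x' - x‖ := by ring
      _ ≤ _ := mul_le_mul_of_nonneg_right (by linarith) h8

end est

end Vale.Agent.P073.H233
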