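import Vale.Agent.P073.H233.Tail3C
import Vale.Agent.P073.H193.CellIn

/-!
# P073, block H233, [K3-TAIL], part D: the cells, thresholds
-/

open Set Metric Topology Filter MeasureTheory
open scoped ENNReal

namespace Vale.Agent.P073.H233

open _root_.P073 _root_.P073.Net _root_.P073.PA691 _root_.P073.TM
open Vale.Agent.P073.St (V)
open Vale.Agent.P073.SQ (cube ev)
open Vale.Agent.P073.AB (Idx squ)
open Vale.Agent.P073.H471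
open Vale.Agent.P073.H212 (IsSoft)
open Vale.Agent.P073.H73 (Mesh sqr onSeg)
open Vale.Agent.P073.H193 (Edges edges)
open Vale.Agent.P073.H304 (LipBd Cst)
open _root_.P073.H142 (FStar Num AdC)
open _root_.P073.H950 (Tiny dK bsum)

/-! ### Thresholds -/

theorem thr_and {p q : ℝ → Prop} (hp : ∃ t₀ > 0, ∀ t ≤ t₀, p t) (hq : ∃ t₀ > 0, ∀ t ≤ t₀, q t) :
    ∃ t₀ > (0:ℝ), ∀ t ≤ t₀, p t ∧ q t := by
  obtain ⟨a, ha, h1⟩ := hp
  obtain ⟨b, hb, h2⟩ := hq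
  exact ⟨min a b, lt_min ha hb, fun t ht => ⟨h1 t (ht.trans (min_le_left _ _)),
    h2 t (ht.trans (min_le_right _ _))⟩⟩

theorem thr_imp {a : Prop} {p : ℝ → Prop} (h : a → ∃ t₀ > 0, ∀ t ≤ t₀, p t) :
    ∃ t₀ > (0:ℝ), ∀ t ≤ t₀, a → p t := by
  by_cases ha : a
  · obtain ⟨t₀, h1, h2⟩ := h ha
    exact ⟨t₀, h1, fun t ht _ => h2 t ht⟩
  · exact ⟨1, one_pos, fun t _ h => absurd h ha⟩

theorem thr_finite {ι : Type*} {s : Set ι} (hs : s.Finite) {p : ι → ℝ → Prop}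
    (h : ∀ i ∈ s, ∃ t₀ > 0, ∀ t ≤ t₀, p i t) : ∃ t₀ > (0:ℝ), ∀ t ≤ t₀, ∀ i ∈ s, p i t := by
  induction s, hs using Set.Finite.induction_on with
  | empty => exact ⟨1, one_pos, fun t _ i hi => absurd hi (notMem_empty i)⟩
  | insert _ _ ih =>
    obtain ⟨a, ha, h1⟩ := h _ (mem_insert _ _)
    obtain ⟨b, hb, h2⟩ := ih fun i hi => h i (mem_insert_of_mem _ hi)
    refine ⟨min a b, lt_min ha hb, fun t ht i hi => ?_⟩
    rcases mem_insert_iff.1 hi with rfl | hi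
    · exact h1 t (ht.trans (min_le_left _ _))
    · exact h2 t (ht.trans (min_le_right _ _)) i hi

theorem thr_le {x : ℝ} (hx : 0 < x) : ∃ t₀ > (0:ℝ), ∀ t ≤ t₀, t ≤ x := ⟨x, hx, fun _ h => h⟩

/-! ### Constants -/

variable {Ω Λ : Set V} {M : Mesh Ω} {v : V} {K : BoxCx Λ v} {S : Rad K} {W : Wid K S}
  {B : Boxes W} {X : PSet K} {α : Type*} {R : Fac K} {F : α → Set V} {N t : α → ℝ}
  {Φ : ConHomeo Λ Λ} {a : α} {k : M.κ} {i : M.ι} {μ : ℝ}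

/-- the constant `C₁` on the sets which do not meet the faces in `Y`, and `C₁'` otherwise -/
def Adm (M : Mesh Ω) (Y : Set M.κ) (C₁ C₁' : ℝ) (A : Set V) (c : ℝ) : Prop :=
  c = C₁' ∨ (c = C₁ ∧ ∀ k ∈ Y, Disjoint (M.F k) A)

theorem exists_adm {Y : Set M.κ} {C₁ C₁' D D' C : ℝ} {A : Set V} {φ : ℝ → ℝ} (h : φ C₁ ≤ D)
    (h' : φ C₁' ≤ D') (H : Cst M Y D D' A C) : ∃ c, Adm M Y C₁ C₁' A c ∧ φ c ≤ C := by
  rcases H with h1 | ⟨h1, h2⟩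
  · exact ⟨C₁', Or.inl rfl, h'.trans h1⟩
  · exact ⟨C₁, Or.inr ⟨rfl, h2⟩, h.trans h1⟩

/-! ### The cells -/

/-- **(lip)** on one cell -/
theorem cell_lip {f : V → V} {L : ℝ} (hL : 0 ≤ L) (H : ∀ x ∈ M.Q i, LAt B X L (M.Q i) f x)
    (hf : ContinuousOn f (M.Q i)) (hF : M.Q i ⊆ F a) (HS : Small3 W X R f F N t)
    (HΦ : IsSoft B μ R Φ) (hμ : 0 ≤ μ) (hμ1 : μ ≤ 1) (ht : t a ≤ L) :
    ∀ x ∈ M.Q i, ∀ y ∈ M.Q i, ‖Φ.toFun (f x) - Φ.toFun (f y)‖ ≤ 8 * L * ‖x - y‖ := by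
  have hc : Convex ℝ (M.Q i) := by
    obtain ⟨n, ν, s, h⟩ := (M.poly i).half
    rw [h]
    have : {x : V | ∀ i, ν i x ≤ s i} = ⋂ i, {x | ν i x ≤ s i} := by ext; simp
    rw [this]
    exact convex_iInter fun i => convex_halfSpace_le (ν i).isLinear (s i)
  exact _root_.P073.H142.lip_of_local (g := fun x => Φ.toFun (f x)) hc fun x hx =>
    (H x hx).est HS HΦ hμ hμ1 hF hf hx hL ht

/-- the data of one drawn cell before the collapse (`H193.CellIn` with the local estimate of the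
alive coordinates) -/
structure CellPre (B : Boxes W) (X : PSet K) (M : Mesh Ω) (p : ℝ) (i : M.ι) (v : V) (z : Idx)
    (𝓢 : Finset (Idx × Fin 3)) (kf : Idx × Fin 3 → M.κ) (T : ∀ k, FStar (edges M) k)
    (b : M.κ → (edges M).ε → ℝ) (C₁ C₂ : ℝ) {J : Type*} [Fintype J] (Kb : J → V → ℝ)
    (om : J → ℝ) (a e : ℝ) (f : V → V) : Prop where
  hQ : M.Q i = dyc v z.1 z.2
  bd : BdT v z 𝓢
  hkf : ∀ s ∈ 𝓢, M.F (kf s) = squ v s
  piece : ∀ j, H193.Piece M p i v z 𝓢 kf T b C₁ C₂ (om j) (Kb j)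
  a0 : 0 ≤ a
  e0 : 0 < e
  lip : ∀ x ∈ M.Q i, LAt B X (a * ∑ j, Kb j x + e) (M.Q i) f x

/-- the data of the drawn cell for the collapsed map -/
theorem CellPre.cellIn {p : ℝ} {v : V} {z : Idx} {𝓢 : Finset (Idx × Fin 3)}
    {kf : Idx × Fin 3 → M.κ} {T : ∀ k, FStar (edges M) k} {b : M.κ → (edges M).ε → ℝ}
    {C₁ C₂ : ℝ} {J : Type*} [Fintype J] {Kb : J → V → ℝ} {om : J → ℝ} {a' e : ℝ} {f : V → V}
    (H : CellPre B X M p i v z 𝓢 kf T b C₁ C₂ Kb om a' e f)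
    (hf : ContinuousOn f (M.Q i)) (hF : M.Q i ⊆ F a) (HS : Small3 W X R f F N t)
    (HΦ : IsSoft B μ R Φ) (hμ : 0 ≤ μ) (hμ1 : μ ≤ 1) (ht : t a ≤ e) :
    H193.CellIn M p i v z 𝓢 kf T b C₁ C₂ Kb om (8 * a') (8 * e)
      (fun x => Φ.toFun (f x)) where
  hQ := H.hQ
  bd := H.bd
  hkf := H.hkf
  piece := H.piece
  a0 := mul_nonneg (by norm_num) H.a0
  e0 := mul_nonneg (by norm_num) H.e0.le
  lip := fun x hx => by
    have h1 : 0 ≤ a' * ∑ j, Kb j x :=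
      mul_nonneg H.a0 (Finset.sum_nonneg fun j _ => (H.piece j).nonneg x)
    have h2 := (H.lip x hx).est HS HΦ hμ hμ1 hF hf hx (add_nonneg h1 H.e0.le)
      (ht.trans (le_add_of_nonneg_left h1))
    filter_upwards [h2] with y hy
    refine hy.trans (le_of_eq ?_)
    ring

/-- **[CELL]** the estimate for the map `f` (before the collapse) on the drawn cell `i`. `A`: bound
of the number of boxes (times the constant of the estimate), `lam`, `εL`: tiny numbers, see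
`Tol`. -/
def CellOK3 (B : Boxes W) (X : PSet K) (p : ℝ) (h f : V → V) (C₁ A D₀ : ℝ) (ε : M.κ → ℝ)
    (εL : (edges M).ε → ℝ) (lam : ℝ) (i : M.ι) : Prop :=
  ∃ (v : V) (z : Idx) (𝓢 : Finset (Idx × Fin 3)) (kf : Idx × Fin 3 → M.κ)
    (T : ∀ k, FStar (edges M) k) (b : M.κ → (edges M).ε → ℝ) (J : Type) (_ : Fintype J)
    (Kb : J → V → ℝ) (om : J → ℝ) (a e : ℝ),
    CellPre B X M p i v z 𝓢 kf T b C₁ C₁ Kb om a e f ∧ a * Fintype.card J ≤ A ∧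
    (∀ s ∈ 𝓢, Num (kf s) h D₀ (ε (kf s)) (b (kf s))) ∧
    (∀ s ∈ 𝓢, ∀ e', (edges M).seg e' ⊆ M.F (kf s) →
      ENNReal.ofReal (b (kf s) e') ≤ ENNReal.ofReal D₀ *
        (len (onSeg h ((edges M).a e', (edges M).b e')) (Icc 0 1) +
          ENNReal.ofReal (εL e'))) ∧
    (∀ j, Tiny M p z 𝓢 kf b (om j) ∧ om j * 2 ^ z.1 ≤ lam) ∧
    Tiny M p z 𝓢 kf b (8 * e) ∧ 8 * e ≤ lam

/-- the clause `drawn` of `H304.Out` for the map `g` -/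
def DrawnOut (p : ℝ) (h g : V → V) (C : ℝ) (ε : M.κ → ℝ) (i : M.ι) : Prop :=
  ∃ G : V → ℝ, LipBd g (M.Q i) G ∧
    ∀ (v : V) (m : ℕ) (z : Fin 3 → ℤ), M.Q i = dyc v m z →
    ∀ (E : {k // M.F k ⊆ M.Q i} → Finset (V × V)) (σ : {k // M.F k ⊆ M.Q i} → ℝ)
      (ℓ : V × V → ℝ≥0∞), (∀ k, H73.Adapted M k.1 (E k)) →
      (∀ k, 0 < σ k ∧ ∃ a l, M.F k.1 = sqr a l (σ k)) →
      (∀ k, ∀ e ∈ E k, len (onSeg h e) (Icc 0 1) ≤ ℓ e) →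
      ∫⁻ x in M.Q i, ENNReal.ofReal (G x ^ p) ≤ ENNReal.ofReal (C / 2 ^ m) *
        ∑' k, ENNReal.ofReal (σ k) * ∑ e ∈ E k, ENNReal.ofReal (‖e.2 - e.1‖ ^ (1 - p)) *
          (ℓ e + ENNReal.ofReal (ε k.1 * ‖e.2 - e.1‖ / σ k)) ^ p

/-- the constant of the clause `drawn` -/
noncomputable def dC (p A C₁ D₀ : ℝ) : ℝ :=
  2 ^ (p - 1) * ((8 * A) ^ p + 1) * dK p C₁ C₁ D₀

/-- the constant of the clause `lip` for drawn cells -/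
noncomputable def lC (p A C₁ D₀ : ℝ) : ℝ :=
  3 * D₀ * (8 * A * (H193.cs p * (26 * C₁ + 12 * C₁ + 1)) + 1)

theorem DrawnOut.mono {p : ℝ} {h g : V → V} {C C' : ℝ} {ε : M.κ → ℝ} (hC : C ≤ C')
    (H : DrawnOut p h g C ε i) : DrawnOut p h g C' ε i := by
  obtain ⟨G, h1, h2⟩ := H
  refine ⟨G, h1, fun v m z hQ E σ ℓ hE hσ hℓ => (h2 v m z hQ E σ ℓ hE hσ hℓ).trans ?_⟩
  exact mul_le_mul_left (ENNReal.ofReal_le_ofReal (div_le_div_of_nonneg_right hC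
    (by positivity))) _

/-- **(drawn)** and **(lip)** for a drawn cell -/
theorem exists_cell {p : ℝ} (hp : 2 < p) {h f : V → V} {C₁ A D₀ lam : ℝ} {ε : M.κ → ℝ}
    {εL : (edges M).ε → ℝ} (hC₁ : 0 < C₁) (hD₀ : 1 ≤ D₀) (hε : ∀ k, 0 < ε k)
    (hlam : ∀ K, (∀ x ∈ M.Q i, ∀ y ∈ M.Q i, ‖h x - h y‖ ≤ K * ‖x - y‖) → lam ≤ K)
    (hεL : ∀ e, (edges M).seg e ⊆ M.Q i → ∀ K,
      (∀ x ∈ M.Q i, ∀ y ∈ M.Q i, ‖h x - h y‖ ≤ K * ‖x - y‖) →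
      εL e ≤ K * ‖(edges M).b e - (edges M).a e‖)
    (H : CellOK3 B X p h f C₁ A D₀ ε εL lam i) (hf : ContinuousOn f (M.Q i)) :
    ∃ t₀ > 0, ∀ {α : Type} {R : Fac K} {F : α → Set V} {N t : α → ℝ} {Φ : ConHomeo Λ Λ} {μ : ℝ}
      (a : α), M.Q i ⊆ F a → Small3 W X R f F N t → IsSoft B μ R Φ → 0 ≤ μ → μ ≤ 1 → t a ≤ t₀ →
      DrawnOut p h (fun x => Φ.toFun (f x)) (dC p A C₁ D₀) ε i ∧
        H193.LipOn M h (fun x => Φ.toFun (f x)) i (lC p A C₁ D₀) := by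
  obtain ⟨v, z, 𝓢, kf, T, b, J, _, Kb, om, a', e, H, hA, hb, hb', hom, heT, hel⟩ := H
  refine ⟨e, H.e0, @fun α R F N t Φ μ a hF HS HΦ hμ hμ1 ht => ?_⟩
  have I := H.cellIn hf hF HS HΦ hμ hμ1 ht
  have hn : 0 ≤ a' * (Fintype.card J : ℝ) := mul_nonneg H.a0 (by positivity)
  constructor
  · refine I.drawn hp (by linarith) hε hb hC₁.le hC₁.le (fun j => (hom j).1) heT ?_
    have h1 := _root_.P073.H950.dK_nonneg hp hC₁.le hC₁.le (by linarith : 0 ≤ D₀)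
    have h2 : (8 * a' * (Fintype.card J : ℝ)) ^ p ≤ (8 * A) ^ p :=
      Real.rpow_le_rpow (by linarith) (by linarith) (by linarith)
    unfold dC
    refine mul_le_mul_of_nonneg_right ?_ h1
    gcongr
  · refine I.lipOn hp hC₁.le hC₁.le hD₀ hlam hεL hb' (fun j => (hom j).2) hel ?_
    have hcs := (H193.cs_pos hp).le
    have h3 : 8 * a' * ((Fintype.card J : ℝ) * (H193.cs p * (26 * C₁ + 12 * C₁ + 1))) ≤
        8 * A * (H193.cs p * (26 * C₁ + 12 * C₁ + 1)) := by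
      have h4 : 0 ≤ H193.cs p * (26 * C₁ + 12 * C₁ + 1) := by positivity
      calc _ = 8 * (a' * (Fintype.card J : ℝ)) * (H193.cs p * (26 * C₁ + 12 * C₁ + 1)) := by ring
        _ ≤ _ := mul_le_mul_of_nonneg_right (by linarith) h4
    unfold lC
    refine mul_le_mul_of_nonneg_left ?_ (by linarith)
    linarith

/-- the oscillation of `f` (before the collapse) on the face `k` -/
def OscOK3 (B : Boxes W) (X : PSet K) (P : Set M.ι) (h f : V → V) (L : ℝ) (k : M.κ) : Prop :=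
  (∃ i ∈ P, M.F k ⊆ M.Q i) ∨ EqOn f h (M.F k) ∨
  (∀ x ∈ M.F k, ∀ y ∈ M.F k, ‖f x - f y‖ ≤ L) ∨
  InZone B X f (M.F k) fun j => ∀ x ∈ M.F k, ∀ y ∈ M.F k, |f x j - f y j| ≤ L

theorem OscOK3.osc {P : Set M.ι} {h f : V → V} {L D₁ L₀ : ℝ} (H : OscOK3 B X P h f L k)
    (hL : 0 ≤ L) (hL₀ : 0 ≤ L₀) (hD₁ : 0 ≤ D₁)
    (hprot : ∀ i ∈ P, ∀ x ∈ M.Q i, ∀ y ∈ M.Q i, ‖f x - f y‖ ≤ D₁ * ‖h x - h y‖)
    (hh : ∀ x ∈ M.F k, ∀ y ∈ M.F k, ‖h x - h y‖ ≤ L₀)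
    (HS : Small3 W X R f F N t) (HΦ : IsSoft B μ R Φ) (hμ : 0 ≤ μ) (hμ1 : μ ≤ 1)
    (hF : M.F k ⊆ F a) (ht : t a ≤ L₀) :
    ∀ x ∈ M.F k, ∀ y ∈ M.F k,
      ‖Φ.toFun (f x) - Φ.toFun (f y)‖ ≤ 4 * (1 + D₁) * L₀ + 4 * L := by
  intro x hx y hy
  rcases H with ⟨i, hi, h1⟩ | h1 | h1 | h1
  · have h2 := HΦ.lip (f x) (f y)
    have h3 := hprot i hi x (h1 hx) y (h1 hy)
    have h4 := mul_le_mul_of_nonneg_left (hh x hx y hy) hD₁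
    nlinarith
  · have h2 := HΦ.lip (f x) (f y)
    rw [h1 hx, h1 hy] at h2
    rw [h1 hx, h1 hy]
    have h3 := hh x hx y hy
    have h4 := mul_nonneg hD₁ hL₀
    linarith
  · have h2 := HΦ.lip (f x) (f y)
    have h3 := h1 x hx y hy
    have h4 := mul_nonneg hD₁ hL₀
    linarith
  · have h2 := InZone.osc HS HΦ hμ hμ1 hF hL h1 x hx y hy
    have h4 := mul_nonneg hD₁ hL₀
    linarith

end Vale.Agent.P073.H233
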