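import Vale.Agent.P073.H233.Tail3D
import Vale.Agent.P073.H227.OscCell
import Vale.Agent.P073.H926.Num3B
import Vale.Agent.P073.H471.SoftTwo
import Vale.Agent.P073.H155.SoftEst
import Vale.Agent.P073.H304.K3C

/-!
# P073, block H233, [K3-TAIL], part E: tolerances, the facts about the last map before the collapse

* `Tol`: tiny numbers, chosen before everything else; `exists_tol`;
* `Last3`: the facts about the last map `f` before the collapse;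
* `Ev`: statements which hold for all sufficiently strong collapses.
-/

open Set Metric Topology Filter MeasureTheory
open scoped ENNReal

namespace Vale.Agent.P073.H233

open _root_.P073 _root_.P073.Net _root_.P073.PA691 _root_.P073.TM
open Vale.Agent.P073.St (V)
open Vale.Agent.P073.SQ (cube ev)
open Vale.Agent.P073.AB (Idx squ)
open Vale.Agent.P073.H471
open Vale.Agent.P073.H212 (IsSoft)
open Vale.Agent.P073.H73 (Mesh sqr onSeg)
open Vale.Agent.P073.H193 (Edges edges)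
open Vale.Agent.P073.H304 (LipBd Cst Nb IsEdge Small)
open _root_.P073.H142 (FStar Num AdC)

/-! ### Tolerances -/

section tol

variable {Ω : Set V}

/-- **tiny numbers**: `om e` for the lengths of the edges, `εL e`, `lam i` for the clause `lip`,
`osc i` for the oscillations -/
structure Tol (M : Mesh Ω) (h : V → V) (ε : M.κ → ℝ) (om εL : (edges M).ε → ℝ)
    (lam osc : M.ι → ℝ) : Prop where
  om_pos : ∀ e, 0 < om e
  om_le : ∀ k e, (edges M).seg e ⊆ M.F k → 10 * om e ≤ ε k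
  om_sum : ∀ (i : M.ι) (T : Finset (edges M).ε), (∀ e ∈ T, (edges M).seg e ⊆ M.Q i) →
    ∑ e ∈ T, 10 * om e ≤ osc i
  εL_pos : ∀ e, 0 < εL e
  εL_le : ∀ e i, (edges M).seg e ⊆ M.Q i → ∀ K,
    (∀ x ∈ M.Q i, ∀ y ∈ M.Q i, ‖h x - h y‖ ≤ K * ‖x - y‖) →
    εL e ≤ K * ‖(edges M).b e - (edges M).a e‖
  lam_pos : ∀ i, 0 < lam i
  lam_le : ∀ i K, (∀ x ∈ M.Q i, ∀ y ∈ M.Q i, ‖h x - h y‖ ≤ K * ‖x - y‖) → lam i ≤ K
  osc_pos : ∀ i, 0 < osc i
  osc_le : ∀ i B, (∀ x ∈ M.Q i, ∀ y ∈ M.Q i, ‖h x - h y‖ ≤ B) → osc i ≤ B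
  eps : ∀ i k, M.F k ⊆ M.Q i → ((edges M).fin_face k).toFinset.card * ε k ≤ osc i

theorem finite_cells_edge (M : Mesh Ω) (e : (edges M).ε) :
    {i | (edges M).seg e ⊆ M.Q i}.Finite := by
  refine (M.fin ((edges M).seg e) ((edges M).seg_sub_Ω e) ((edges M).isCompact_seg e)).subset ?_
  intro i hi
  exact ⟨(edges M).a e, hi (left_mem_segment ℝ _ _), left_mem_segment ℝ _ _⟩

theorem finite_faces_edge (M : Mesh Ω) (e : (edges M).ε) :
    {k | (edges M).seg e ⊆ M.F k}.Finite := by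
  refine (M.ffin ((edges M).seg e) ((edges M).seg_sub_Ω e) ((edges M).isCompact_seg e)).subset ?_
  intro i hi
  exact ⟨(edges M).a e, hi (left_mem_segment ℝ _ _), left_mem_segment ℝ _ _⟩

theorem finite_cells_face (M : Mesh Ω) (k : M.κ) : {i | M.F k ⊆ M.Q i}.Finite := by
  refine (M.fin (M.F k) (H193.mesh_sub M k) (H193.pgn_of_fat (M.fat k)).cpt).subset ?_
  intro i hi
  obtain ⟨x, hx⟩ := (H193.pgn_of_fat (M.fat k)).nonempty
  exact ⟨x, hi hx, hx⟩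

/-- **the tolerances exist**; `ε` is replaced by smaller numbers `ε'`, see `Out.mono_eps` -/
theorem exists_tol (M : Mesh Ω) {h : V → V} (hinj : InjOn h Ω) {ε₀ : M.κ → ℝ}
    (hε₀ : ∀ k, 0 < ε₀ k) :
    ∃ (ε : M.κ → ℝ) (om εL : (edges M).ε → ℝ) (lam osc : M.ι → ℝ), (∀ k, 0 < ε k) ∧
      (∀ k, ε k ≤ ε₀ k) ∧ Tol M h ε om εL lam osc := by
  obtain ⟨lam, hl0, hl⟩ := H193.exists_lipMin M hinj
  obtain ⟨εL, he0, he⟩ := H193.exists_epsLip M hinj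
  have key : ∀ i, ∃ l : ℝ, 0 < l ∧ ∀ B,
      (∀ x ∈ M.Q i, ∀ y ∈ M.Q i, ‖h x - h y‖ ≤ B) → l ≤ B := by
    intro i
    obtain ⟨x, hx, y, hy, hxy⟩ := H193.exists_two (M.poly i).int
    have h2 : 0 < ‖h x - h y‖ := norm_pos_iff.2 (sub_ne_zero.2 fun h =>
      hxy (hinj (M.sub i hx) (M.sub i hy) h))
    exact ⟨‖h x - h y‖, h2, fun K hK => hK x hx y hy⟩
  choose osc ho0 ho using key
  obtain ⟨m₃, hm₃, hm₃'⟩ := Vale.Agent.P073.H669.exists_le_of_finite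
    (R := fun (k : M.κ) i => M.F k ⊆ M.Q i) (finite_cells_face M) (f := osc) ho0
  set crd : M.κ → ℝ := fun k => ((edges M).fin_face k).toFinset.card with hcrd
  have hcrd0 : ∀ k, 0 ≤ crd k := fun k => Nat.cast_nonneg _
  set ε : M.κ → ℝ := fun k => min (ε₀ k) (m₃ k / (1 + crd k)) with hεdef
  have hε : ∀ k, 0 < ε k := fun k =>
    lt_min (hε₀ k) (div_pos (hm₃ k) (by linarith [hcrd0 k]))
  have heps : ∀ i k, M.F k ⊆ M.Q i → crd k * ε k ≤ osc i := by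
    intro i k hk
    have h0 := hcrd0 k
    have h1 : ε k ≤ m₃ k / (1 + crd k) := min_le_right _ _
    have h2 := hm₃' k i hk
    have h3 := hm₃ k
    calc crd k * ε k ≤ crd k * (m₃ k / (1 + crd k)) := mul_le_mul_of_nonneg_left h1 h0
      _ ≤ m₃ k := by
        rw [← mul_div_assoc, div_le_iff₀ (by positivity)]
        nlinarith
      _ ≤ osc i := h2
  have hfin := fun i => _root_.P073.H227.finite_edges (edges M) i
  obtain ⟨m₁, hm0, hm⟩ := Vale.Agent.P073.H669.exists_le_of_finite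
    (R := fun (e : (edges M).ε) i => (edges M).seg e ⊆ M.Q i) (finite_cells_edge M)
    (f := fun i => osc i / (1 + ((hfin i).toFinset.card : ℝ)))
    (fun i => div_pos (ho0 i) (by positivity))
  obtain ⟨m₂, hn0, hn⟩ := Vale.Agent.P073.H669.exists_le_of_finite
    (R := fun (e : (edges M).ε) k => (edges M).seg e ⊆ M.F k) (finite_faces_edge M)
    (f := ε) hε
  refine ⟨ε, fun e => min (m₁ e) (m₂ e) / 10, εL, lam, osc, hε, fun k => min_le_left _ _,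
    fun e => div_pos (lt_min (hm0 e) (hn0 e)) (by norm_num), fun k e hk => ?_,
    fun i T hT => ?_, he0, he, hl0, hl, ho0, ho, heps⟩
  · have h1 := (min_le_right (m₁ e) (m₂ e)).trans (hn e k hk)
    show 10 * (min (m₁ e) (m₂ e) / 10) ≤ ε k
    linarith
  · have hsub : T ⊆ (hfin i).toFinset := fun e he => (hfin i).mem_toFinset.2 (hT e he)
    have hc : (T.card : ℝ) ≤ (hfin i).toFinset.card := by
      exact_mod_cast Finset.card_le_card hsub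
    have h0 := ho0 i
    set c : ℝ := ((hfin i).toFinset.card : ℝ) with hcdef
    have hc0 : 0 ≤ c := by rw [hcdef]; positivity
    calc ∑ e ∈ T, 10 * (min (m₁ e) (m₂ e) / 10) ≤ ∑ e ∈ T, osc i / (1 + c) := by
          refine Finset.sum_le_sum fun e he => ?_
          have h1 := (min_le_left (m₁ e) (m₂ e)).trans (hm e i (hT e he))
          change min (m₁ e) (m₂ e) ≤ osc i / (1 + c) at h1
          linarith
      _ = T.card * (osc i / (1 + c)) := by rw [Finset.sum_const, nsmul_eq_mul]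
      _ ≤ c * (osc i / (1 + c)) := by gcongr
      _ ≤ osc i := by
          rw [← mul_div_assoc, div_le_iff₀ (by positivity)]
          nlinarith

end tol

variable {Ω Λ : Set V} {M : Mesh Ω} {w : V} {K : BoxCx Λ w} {S : Rad K} {W : Wid K S}
  {B : Boxes W} {X : PSet K} {R : Fac K} {Φ : ConHomeo Λ Λ} {μ : ℝ}

/-! ### Sufficiently strong collapses -/

/-- the sets on which the collapse is small: the faces and the cells -/
def FQ (M : Mesh Ω) : M.κ ⊕ M.ι → Set V := Sum.elim M.F M.Q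

/-- `p Φ` holds for all collapses which are sufficiently strong on the set `a` -/
def Ev (B : Boxes W) (X : PSet K) (μ : ℝ) (M : Mesh Ω) (f : V → V) (a : M.κ ⊕ M.ι)
    (p : ConHomeo Λ Λ → Prop) : Prop :=
  ∃ t₀ > 0, ∀ (R : Fac K) (N t : M.κ ⊕ M.ι → ℝ) (Φ : ConHomeo Λ Λ), 0 < t a → t a ≤ t₀ →
    Small3 W X R f (FQ M) N t → IsSoft B μ R Φ → p Φ

section Ev

variable {f : V → V} {a : M.κ ⊕ M.ι} {p q : ConHomeo Λ Λ → Prop}

theorem Ev.and (hp : Ev B X μ M f a p) (hq : Ev B X μ M f a q) :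
    Ev B X μ M f a fun Φ => p Φ ∧ q Φ := by
  obtain ⟨s, hs, h1⟩ := hp
  obtain ⟨s', hs', h2⟩ := hq
  exact ⟨min s s', lt_min hs hs', fun R N t Φ h0 ht HS HΦ =>
    ⟨h1 R N t Φ h0 (ht.trans (min_le_left _ _)) HS HΦ,
      h2 R N t Φ h0 (ht.trans (min_le_right _ _)) HS HΦ⟩⟩

theorem Ev.of_true (h : ∀ Φ, p Φ) : Ev B X μ M f a p :=
  ⟨1, one_pos, fun _ _ _ Φ _ _ _ _ => h Φ⟩

theorem Ev.imp {c : Prop} (h : c → Ev B X μ M f a p) : Ev B X μ M f a fun Φ => c → p Φ := by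
  by_cases hc : c
  · obtain ⟨s, hs, h1⟩ := h hc
    exact ⟨s, hs, fun R N t Φ h0 ht HS HΦ _ => h1 R N t Φ h0 ht HS HΦ⟩
  · exact Ev.of_true fun Φ h => absurd h hc

theorem Ev.finite {ι : Type*} {s : Set ι} (hs : s.Finite) {p : ι → ConHomeo Λ Λ → Prop}
    (h : ∀ i ∈ s, Ev B X μ M f a (p i)) : Ev B X μ M f a fun Φ => ∀ i ∈ s, p i Φ := by
  induction s, hs using Set.Finite.induction_on with
  | empty => exact Ev.of_true fun Φ i hi => absurd hi (notMem_empty i)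
  | insert _ _ ih =>
    obtain ⟨s, hs, h1⟩ := (h _ (mem_insert _ _)).and (ih fun i hi => h i (mem_insert_of_mem _ hi))
    refine ⟨s, hs, fun R N t Φ h0 ht HS HΦ i hi => ?_⟩
    obtain ⟨h2, h3⟩ := h1 R N t Φ h0 ht HS HΦ
    rcases mem_insert_iff.1 hi with rfl | hi
    · exact h2
    · exact h3 i hi

/-- both constants -/
theorem Ev.adm {Y : Set M.κ} {C₁ C₁' : ℝ} {A : Set V} {p : ℝ → ConHomeo Λ Λ → Prop}
    (h : ∀ c, Adm M Y C₁ C₁' A c → Ev B X μ M f a (p c)) :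
    Ev B X μ M f a fun Φ => ∀ c, Adm M Y C₁ C₁' A c → p c Φ := by
  have h1 := (h C₁' (Or.inl rfl)).and (Ev.imp (c := ∀ k ∈ Y, Disjoint (M.F k) A)
    fun hd => h C₁ (Or.inr ⟨rfl, hd⟩))
  obtain ⟨s, hs, h2⟩ := h1
  refine ⟨s, hs, fun R N t Φ h0 ht HS HΦ c hc => ?_⟩
  obtain ⟨h3, h4⟩ := h2 R N t Φ h0 ht HS HΦ
  rcases hc with rfl | ⟨rfl, hd⟩
  · exact h3
  · exact h4 hd

theorem Ev.mono (hp : Ev B X μ M f a p) (h : ∀ Φ, p Φ → q Φ) : Ev B X μ M f a q := by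
  obtain ⟨s, hs, h1⟩ := hp
  exact ⟨s, hs, fun R N t Φ h0 ht HS HΦ => h Φ (h1 R N t Φ h0 ht HS HΦ)⟩

/-- **all sets** -/
theorem Ev.all {p : M.κ ⊕ M.ι → ConHomeo Λ Λ → Prop} (h : ∀ a, Ev B X μ M f a (p a)) :
    ∃ t₀ : M.κ ⊕ M.ι → ℝ, (∀ a, 0 < t₀ a) ∧ ∀ (R : Fac K) (N t : M.κ ⊕ M.ι → ℝ)
      (Φ : ConHomeo Λ Λ), (∀ a, 0 < t a) → (∀ a, t a ≤ t₀ a) → Small3 W X R f (FQ M) N t →
      IsSoft B μ R Φ → ∀ a, p a Φ := by
  choose t₀ h0 h1 using h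
  exact ⟨t₀, h0, fun R N t Φ hp ht HS HΦ a => h1 a R N t Φ (hp a) (ht a) HS HΦ⟩

end Ev

/-! ### The facts about the last map -/

/-- all tiles which touch a processed tile have a protected cell -/
def FullJ (w : V) (ρ : V → ℝ) (J₀ J : Set (ℕ × (Fin 3 → ℤ))) : Prop :=
  ∀ t ∈ J₀, ∀ t' : ℕ × (Fin 3 → ℤ), IsTile ρ w t'.1 t'.2 →
      (dyc w t.1 t.2 ∩ dyc w t'.1 t'.2).Nonempty → t' ∈ J

/-- the hypothesis of the clause `osc` for the face `k` of the cell `i`: oscillation of `h` on the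
cell, and total length of `h` on the edges of the face -/
def FHyp (M : Mesh Ω) (h : V → V) (i : M.ι) (k : M.κ) (b : ℝ) : Prop :=
  (∀ x ∈ M.Q i, ∀ y ∈ M.Q i, ‖h x - h y‖ ≤ b) ∧
  ∃ E : Finset (V × V), (∀ e, H304.IsEdge M e → segment ℝ e.1 e.2 ⊆ M.F k → e ∈ E) ∧
    ∑ e ∈ E, len (onSeg h e) (Icc 0 1) ≤ ENNReal.ofReal b

theorem FHyp.of_small {h : V → V} {i : M.ι} {k : M.κ} {b : ℝ} (H : Small M h i b) (hk : M.F k ⊆ M.Q i) :
    FHyp M h i k b := by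
  obtain ⟨h1, E, hE, h2⟩ := H
  exact ⟨h1, E, fun e he hek => hE e he (hek.trans hk), h2⟩

/-- the output of the clause `osc` for the faces: all faces of the cells which are not protected -/
def FOsc (D D' : ℝ) (M : Mesh Ω) (h : V → V) (P : Set M.ι) (Y : Set M.κ) (g : V → V) : Prop :=
  ∀ i, i ∉ P → ∀ C, Cst M Y D D' (M.Q i) C → ∀ k, M.F k ⊆ M.Q i → ∀ b > 0, FHyp M h i k b →
    ∀ x ∈ M.F k, ∀ y ∈ M.F k, ‖g x - g y‖ ≤ C * b

/-- the output of the clause `osc` for the cells -/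
def COsc (D D' : ℝ) (M : Mesh Ω) (h : V → V) (P : Set M.ι) (Y : Set M.κ) (g : V → V) : Prop :=
  ∀ i, i ∉ P → ∀ C, Cst M Y D D' (M.Q i) C → ∀ b > 0, Small M h i b →
    ∀ x ∈ M.Q i, ∀ y ∈ M.Q i, ‖g x - g y‖ ≤ C * b

/-- the estimate of the length of the edge `e` for the map `Φ ∘ f` -/
def EdgeEst (h f : V → V) (D₀ v : ℝ) (e : (edges M).ε) (Φ : ConHomeo Λ Λ) : Prop :=
  len (onSeg (fun x => Φ.toFun (f x)) ((edges M).a e, (edges M).b e)) (Icc 0 1) ≤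
    ENNReal.ofReal (8 * (1 + D₀)) *
      len (onSeg h ((edges M).a e, (edges M).b e)) (Icc 0 1) + ENNReal.ofReal (10 * v)

/-- the estimate of the oscillation on the face `k` for the map `Φ ∘ f` -/
def OscEst (f : V → V) (k : M.κ) (L : ℝ) (Φ : ConHomeo Λ Λ) : Prop :=
  ∀ x ∈ M.F k, ∀ y ∈ M.F k, ‖Φ.toFun (f x) - Φ.toFun (f y)‖ ≤ L

/-- **the facts about the last map `f` before the collapse.**  `Ps i`: the property of a collapse
`Φ` that the image of the passive cell `i` under `Φ ∘ f` is in a plate (second alternative in the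
clause `osc`). -/
structure Last3 (B : Boxes W) (X : PSet K) (μ : ℝ) (Ps : M.ι → ConHomeo Λ Λ → Prop)
    (Qs : ConHomeo Λ Λ → Prop) (p η c₀ : ℝ) (ρ : V → ℝ) (h : V → V)
    (J₀ J : Set (ℕ × (Fin 3 → ℤ))) (P Z : Set M.ι) (Y : Set M.κ) (ε : M.κ → ℝ)
    (om εL : (edges M).ε → ℝ) (lam : M.ι → ℝ) (A C₁ C₁' D₀ D₁ : ℝ) (f : V → V) : Prop where
  off : ∀ x ∈ Ω, h x ∉ Nb w J₀ c₀ → f x = h x
  near : ∀ x ∈ Ω, H581.Near D₁ ρ (h x) (f x)
  prot : ∀ i ∈ P, ∀ q > 0, (∀ x ∈ M.Q i, ∀ y ∈ M.Q i, ‖h x - h y‖ = q * ‖x - y‖) →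
    ∀ x ∈ M.Q i, LAt B X (D₁ * q) (M.Q i) f x
  lip : FullJ w ρ J₀ J → ∀ i, i ∉ P → i ∉ Z → ∀ c, Adm M Y C₁ C₁' (M.Q i) c → ∀ L > 0,
    (∀ i', (M.Q i ∩ M.Q i').Nonempty →
      ∀ x ∈ M.Q i', ∀ y ∈ M.Q i', ‖h x - h y‖ ≤ L * ‖x - y‖) →
    ∀ x ∈ M.Q i, LAt B X (c * L) (M.Q i) f x
  edge : ∀ k e, (edges M).seg e ⊆ M.F k → (∃ i ∈ P, (edges M).seg e ⊆ M.Q i) ∨
    Ev B X μ M f (.inl k) (EdgeEst h f D₀ (om e) e)
  elip : ∀ k e, (edges M).seg e ⊆ M.F k → h '' (edges M).seg e ⊆ Nb w J₀ η →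
    (∃ i ∈ P, (edges M).seg e ⊆ M.Q i) ∨
    ∀ c, Adm M Y C₁ C₁' ((edges M).seg e) c → ElipOK3 B X h f c D₀ (ε k) e
  osc : ∀ i, i ∉ P → i ∉ Z → ∀ c, Adm M Y C₁ C₁' (M.Q i) c →
    (∀ k, M.F k ⊆ M.Q i → (∃ i' ∈ P, M.F k ⊆ M.Q i') ∨ (∃ i' ∈ Z, M.F k ⊆ M.Q i') ∨
      ∃ L, (∀ b > 0, FHyp M h i k b → L ≤ c * b) ∧
        Ev B X μ M f (.inl k) (OscEst f k L)) ∨
    ∀ Φ, Qs Φ → Ps i Φ
  face : ∀ k, (∃ i ∈ Z, M.F k ⊆ M.Q i) → (∃ i ∈ P, M.F k ⊆ M.Q i) ∨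
    ∀ c, Adm M Y C₁ C₁' (M.F k) c → FaceOK3 B X h f c D₀ (ε k) k
  cell : ∀ i ∈ Z, ∀ c, Adm M Y C₁ C₁' (M.Q i) c →
    CellOK3 B X p h f c A D₀ ε εL (lam i) i

theorem isCompact_face (M : Mesh Ω) (k : M.κ) : IsCompact (M.F k) :=
  (H193.pgn_of_fat (M.fat k)).cpt

theorem isCompact_FQ (M : Mesh Ω) (a : M.κ ⊕ M.ι) : IsCompact (FQ M a) := by
  rcases a with k | i
  · exact isCompact_face M k
  · exact (M.poly i).cpt

theorem FQ_sub (M : Mesh Ω) (a : M.κ ⊕ M.ι) : FQ M a ⊆ Ω := by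
  rcases a with k | i
  · exact H193.mesh_sub M k
  · exact M.sub i

theorem FQ_fin (M : Mesh Ω) (C : Set V) (hC : C ⊆ Ω) (hc : IsCompact C) :
    {a | (FQ M a ∩ C).Nonempty}.Finite := by
  have h1 := (M.ffin C hC hc).image (Sum.inl : M.κ → M.κ ⊕ M.ι)
  have h2 := (M.fin C hC hc).image (Sum.inr : M.ι → M.κ ⊕ M.ι)
  refine (h1.union h2).subset ?_
  rintro (k | i) h
  · exact Or.inl ⟨k, h, rfl⟩
  · exact Or.inr ⟨i, h, rfl⟩

end Vale.Agent.P073.H233
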