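import Vale.Agent.P073.H233.Tail3F
import Vale.Agent.P073.H233.OscPC

/-!
# P073, block H233, [K3-TAIL], part G: the clauses of `H304.Out`
-/

open Set Metric Topology Filter MeasureTheory
open scoped ENNReal

namespace Vale.Agent.P073.H233

open _root_.P073 _root_.P073.Net _root_.P073.PA691 _root_.P073.TM
open Vale.Agent.P073.St (V)
open Vale.Agent.P073.SQ (cube ev)
open Vale.Agent.P073.AB (Idx squ)
open Vale.Agent.P073.H471
open Vale.Agent.P073.H212 (IsSoft)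
open Vale.Agent.P073.H73 (Mesh sqr onSeg)
open Vale.Agent.P073.H193 (Edges edges)
open Vale.Agent.P073.H304 (LipBd Cst Nb IsEdge Small Plate Out)
open _root_.P073.H142 (FStar Num AdC)

variable {Ω Λ : Set V} {M : Mesh Ω} {w : V} {K : BoxCx Λ w} {S : Rad K} {W : Wid K S}
  {B : Boxes W} {X : PSet K} {R : Fac K} {Φ : ConHomeo Λ Λ} {μ : ℝ}
  {p η c₀ m D D' : ℝ} {ρ : V → ℝ} {Ps : M.ι → ConHomeo Λ Λ → Prop}
  {Qs : ConHomeo Λ Λ → Prop} {h : V → V} {J₀ J : Set (ℕ × (Fin 3 → ℤ))} {P Z : Set M.ι} {Y : Set M.κ} {ε : M.κ → ℝ}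
  {om : (edges M).ε → ℝ} {lam osc : M.ι → ℝ} {A C₁ C₁' D₀ D₁ c : ℝ} {f : V → V}

/-! ### The constant -/

/-- the constant for the oscillation on the faces -/
noncomputable def oF (D₀ D₁ c : ℝ) : ℝ := 8 * D₁ + c + 880 * (c + D₁) * D₀

/-- the constant of the clause `osc` -/
noncomputable def oC (D₀ D₁ c : ℝ) : ℝ := 2 * oF D₀ D₁ c + (8 * (1 + D₀) + 16 * D₁) + 1

/-- **the constant of `Out`**, as a function of the constant `c` of `Last3` -/
noncomputable def kC (p A D₀ D₁ c : ℝ) : ℝ :=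
  160 * D₁ + 8 * D₁ + (8 * (1 + D₀) + 16 * D₁) + (8 * c * D₀ + 8 * D₁) + 8 * c + lC p A c D₀ +
    oC D₀ D₁ c + 8 * (c + D₁) * 13 * (D₀ * 2) +
    _root_.P073.H155.dp p * (8 * (c + D₁) * D₀) ^ p * 2 ^ (p - 1) + dC p A c D₀

/-- the constant bounds all constants of the clauses -/
structure KBd (p A D₀ D₁ c C : ℝ) : Prop where
  close : 160 * D₁ ≤ C
  prot : 8 * D₁ ≤ C
  edge : 8 * (1 + D₀) + 16 * D₁ ≤ C
  elip : 8 * c * D₀ + 8 * D₁ ≤ C
  lip : 8 * c ≤ C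
  lipZ : lC p A c D₀ ≤ C
  osc : oC D₀ D₁ c ≤ C
  flip : 8 * (c + D₁) * 13 * (D₀ * 2) ≤ C
  face : _root_.P073.H155.dp p * (8 * (c + D₁) * D₀) ^ p * 2 ^ (p - 1) ≤ C
  drawn : dC p A c D₀ ≤ C

theorem kbd_of {C : ℝ} (hp : 2 < p) (hA : 0 ≤ A) (hD₀ : 1 ≤ D₀) (hD₁ : 0 < D₁) (hc : 0 < c)
    (hC : kC p A D₀ D₁ c ≤ C) : KBd p A D₀ D₁ c C := by
  have h0 : 0 ≤ D₀ := by linarith
  have h1 : 0 ≤ lC p A c D₀ := by
    have := (H193.cs_pos hp).le
    unfold lC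
    positivity
  have h2 : 0 ≤ dC p A c D₀ := by
    have h3 := _root_.P073.H950.dK_nonneg hp hc.le hc.le h0
    unfold dC
    positivity
  have h3 : 0 ≤ _root_.P073.H155.dp p * (8 * (c + D₁) * D₀) ^ p * 2 ^ (p - 1) := by
    have := (_root_.P073.H155.dp_pos p).le
    positivity
  have h4 : 0 ≤ oC D₀ D₁ c := by unfold oC oF; positivity
  have h5 : 0 ≤ 8 * (c + D₁) * 13 * (D₀ * 2) := by positivity
  have h6 : 0 ≤ 8 * c * D₀ := by positivity
  unfold kC at hC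
  constructor <;> linarith

theorem KBd.mono {C C' : ℝ} (H : KBd p A D₀ D₁ c C) (h : C ≤ C') : KBd p A D₀ D₁ c C' :=
  ⟨H.close.trans h, H.prot.trans h, H.edge.trans h, H.elip.trans h, H.lip.trans h,
    H.lipZ.trans h, H.osc.trans h, H.flip.trans h, H.face.trans h, H.drawn.trans h⟩

/-! ### The clauses -/

theorem FaceEst.mono {g : V → V} {C C' e : ℝ} {k : M.κ} (H : FaceEst h g C D₀ e k)
    (hC : C ≤ C') : FaceEst h g C' D₀ e k := by
  obtain ⟨T, b, h1, h2⟩ := H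
  refine ⟨T, b, h1, fun e he x hx => ?_⟩
  filter_upwards [h2 e he x hx] with y hy
  refine hy.trans (mul_le_mul_of_nonneg_right ?_ (norm_nonneg _))
  have h5 := T.con_nonneg zero_le_one h1.nonneg he
  rw [← mul_one C, ← mul_one C', T.con_mul, T.con_mul]
  exact mul_le_mul_of_nonneg_right hC h5

/-- everything about the collapsed map -/
structure Fin3 (w : V) (Ps : M.ι → ConHomeo Λ Λ → Prop) (Qs : ConHomeo Λ Λ → Prop) (η c₀ : ℝ)
    (ρ : V → ℝ) (p : ℝ) (h f : V → V)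
    (J₀ J : Set (ℕ × (Fin 3 → ℤ))) (P Z : Set M.ι) (Y : Set M.κ) (ε : M.κ → ℝ)
    (om : (edges M).ε → ℝ) (A C₁ C₁' D₀ D₁ : ℝ) (Φ : ConHomeo Λ Λ) :
    Prop where
  F : ∀ k, OutF M w Ps Qs h f η c₀ J₀ P Z Y ε om C₁ C₁' D₀ k Φ
  C : ∀ i, OutC M w ρ p h f J₀ J P Z Y ε A C₁ C₁' D₀ D₁ i Φ
  diag : ∀ i ∈ P, ∃ q > 0, ∀ x ∈ M.Q i, ∀ y ∈ M.Q i, ‖h x - h y‖ = q * ‖x - y‖
  sq : ∀ k, (∃ i ∈ Z, M.F k ⊆ M.Q i) → ∃ (a : V) (l : Fin 3) (σ : ℝ), 0 < σ ∧ M.F k = sqr a l σ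
  ε0 : ∀ k, 0 < ε k
  om0 : ∀ e, 0 < om e
  om_le : ∀ k e, (edges M).seg e ⊆ M.F k → 10 * om e ≤ ε k
  p2 : 2 < p
  A0 : 0 ≤ A
  C0 : 0 < C₁
  C0' : 0 < C₁'
  D0 : 1 ≤ D₀
  D1 : 0 < D₁

section fin

variable (H : Fin3 w Ps Qs η c₀ ρ p h f J₀ J P Z Y ε om A C₁ C₁' D₀ D₁ Φ)
include H

/-- the faces of the drawn cells -/
theorem Fin3.faceEst {k : M.κ} (hk : ∃ i ∈ Z, M.F k ⊆ M.Q i)
    (hc : Adm M Y C₁ C₁' (M.F k) c) :
    FaceEst h (fun x => Φ.toFun (f x)) (8 * (c + D₁)) D₀ (ε k) k := by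
  have hc0 := adm_pos H.C0 H.C0' hc
  have h1 := H.D1
  rcases (H.F k).face hk with ⟨i, hi, hik⟩ | h2
  · obtain ⟨q, hq, hh⟩ := H.diag i hi
    exact faceEst_of_prot (D₁ := 8 * D₁) (H.ε0 k) hq H.D0 (by linarith) (by positivity)
      (fun x hx y hy => hh x (hik hx) y (hik hy))
      fun x hx y hy => (H.C i).prot hi x (hik hx) y (hik hy)
  · exact (h2 c hc).mono (by linarith)

/-- the lengths of the edges -/
theorem Fin3.edge (e : (edges M).ε) :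
    len (onSeg (fun x => Φ.toFun (f x)) ((edges M).a e, (edges M).b e)) (Icc 0 1) ≤
      ENNReal.ofReal (8 * (1 + D₀) + 16 * D₁) *
        len (onSeg h ((edges M).a e, (edges M).b e)) (Icc 0 1) + ENNReal.ofReal (10 * om e) := by
  obtain ⟨k, hk⟩ := (edges M).own e
  have h0 := H.D0
  have h1 := H.D1
  rcases (H.F k).edge e hk with ⟨i, hi, hei⟩ | h2
  · refine (len_le_of_lip (h := h) (c := 8 * D₁) (by positivity) fun x hx y hy =>
      (H.C i).prot hi x (hei hx) y (hei hy)).trans ?_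
    refine le_add_right (mul_le_mul_left (ENNReal.ofReal_le_ofReal ?_) _)
    linarith
  · exact h2.trans (add_le_add (mul_le_mul_left (ENNReal.ofReal_le_ofReal (by linarith)) _)
      le_rfl)

/-- the speed on the edges -/
theorem Fin3.elip {k : M.κ} {e : (edges M).ε} (he : (edges M).seg e ⊆ M.F k)
    (hN : h '' (edges M).seg e ⊆ Nb w J₀ η) (hc : Adm M Y C₁ C₁' ((edges M).seg e) c) {ℓ : ℝ}
    (hℓ : 0 ≤ ℓ)
    (hlen : len (onSeg h ((edges M).a e, (edges M).b e)) (Icc 0 1) ≤ ENNReal.ofReal ℓ) :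
    ∀ x ∈ (edges M).seg e, ∀ y ∈ (edges M).seg e,
      ‖Φ.toFun (f x) - Φ.toFun (f y)‖ ≤
        (8 * c * D₀ + 8 * D₁) * ((ℓ + ε k) / ‖(edges M).b e - (edges M).a e‖) *
          ‖x - y‖ := by
  intro x hx y hy
  have hc0 := adm_pos H.C0 H.C0' hc
  have h0 : 0 < D₀ := by linarith [H.D0]
  have h1 := H.D1
  have hpos := _root_.P073.H142.elen_pos (edges M) e
  have hεk := H.ε0 k
  have hcD : 0 ≤ 8 * c * D₀ := by positivity
  rcases (H.F k).elip e he hN with ⟨i, hi, hei⟩ | h2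
  · obtain ⟨q, hq, hh⟩ := H.diag i hi
    have h3 := (H.C i).prot hi x (hei hx) y (hei hy)
    rw [hh x (hei hx) y (hei hy)] at h3
    have h4 := (dist_le_len h ((edges M).a e, (edges M).b e)).trans hlen
    rw [hh _ (hei (right_mem_segment ℝ _ _)) _ (hei (left_mem_segment ℝ _ _))] at h4
    have h5 : q * ‖(edges M).b e - (edges M).a e‖ ≤ ℓ := by
      exact (ENNReal.ofReal_le_ofReal_iff hℓ).1 h4
    have h6 : q ≤ (ℓ + ε k) / ‖(edges M).b e - (edges M).a e‖ := by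
      rw [le_div_iff₀ hpos]
      linarith
    have hn := norm_nonneg (x - y)
    calc ‖Φ.toFun (f x) - Φ.toFun (f y)‖ ≤ 8 * D₁ * (q * ‖x - y‖) := h3
      _ = (8 * D₁) * q * ‖x - y‖ := by ring
      _ ≤ _ := by
        refine mul_le_mul_of_nonneg_right ?_ hn
        exact mul_le_mul (by linarith) h6 hq.le (by linarith)
  · refine (h2 c hc ℓ hℓ hlen x hx y hy).trans ?_
    refine mul_le_mul_of_nonneg_right (mul_le_mul_of_nonneg_right (by linarith) ?_)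
      (norm_nonneg _)
    positivity

/-- the oscillation on the faces of a cell -/
theorem Fin3.oscF (heps : ∀ i k, M.F k ⊆ M.Q i →
      ((edges M).fin_face k).toFinset.card * ε k ≤ osc i)
    (hosc : ∀ i B, (∀ x ∈ M.Q i, ∀ y ∈ M.Q i, ‖h x - h y‖ ≤ B) → osc i ≤ B)
    {i : M.ι} (hi : i ∉ P) {b : ℝ} (hc : Adm M Y C₁ C₁' (M.Q i) c) (hb0 : 0 < b)
    {k : M.κ} (hO : FHyp M h i k b) (hQ : ¬ (i ∉ Z ∧ ∀ Φ, Qs Φ → Ps i Φ))
    (hk : M.F k ⊆ M.Q i) :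
    ∀ x ∈ M.F k, ∀ y ∈ M.F k,
      ‖Φ.toFun (f x) - Φ.toFun (f y)‖ ≤ oF D₀ D₁ c * b := by
  intro x hx y hy
  have h1 := H.D1
  have h0 := H.D0
  have hc0 := adm_pos H.C0 H.C0' hc
  have hcD : 0 ≤ 880 * (c + D₁) * D₀ * b := by positivity
  refine le_trans ?_ (le_of_eq (show 8 * D₁ * b + c * b + 880 * (c + D₁) * D₀ * b =
    oF D₀ D₁ c * b by unfold oF; ring))
  rcases ((H.F k).osc i hk hi c hc).resolve_right hQ with ⟨i', hi', hei⟩ | hZ' | ⟨l, h2, h3⟩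
  · have h3 := (H.C i').prot hi' x (hei hx) y (hei hy)
    have h4 := hO.1 x (hk hx) y (hk hy)
    have h5 : 8 * D₁ * ‖h x - h y‖ ≤ 8 * D₁ * b := by gcongr
    have h6 : 0 ≤ c * b := by positivity
    linarith
  · obtain ⟨a, l, σ, hσ, hF⟩ := H.sq k hZ'
    have hck : Adm M Y C₁ C₁' (M.F k) c := by
      rcases hc with h | ⟨h, h'⟩
      · exact Or.inl h
      · exact Or.inr ⟨h, fun k' hk' => (h' k' hk').mono_right hk⟩
    obtain ⟨T, b', h2, h3⟩ := H.faceEst hZ' hck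
    have h4 := est_osc hσ hF (by positivity) h2.nonneg h3 x hx y hy
    have h5 := bsum_le_of_num h2 (by linarith) (H.ε0 k).le hb0.le hO.2
    have h6 := (heps i k hk).trans (hosc i b hO.1)
    have h7 : _root_.P073.H950.bsum M k b' ≤ D₀ * (2 * b) :=
      h5.trans (mul_le_mul_of_nonneg_left (by linarith) (by linarith))
    have h8 : 55 * (8 * (c + D₁)) * _root_.P073.H950.bsum M k b' ≤
        55 * (8 * (c + D₁)) * (D₀ * (2 * b)) := mul_le_mul_of_nonneg_left h7 (by positivity)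
    have h9 : 0 ≤ 8 * D₁ * b := by positivity
    have h10 : 0 ≤ c * b := by positivity
    linarith
  · have h4 := h3 x hx y hy
    have h5 := h2 b hb0 hO
    have h6 : 0 ≤ D₁ * b := by positivity
    linarith

/-- **(osc)** of a cell, from the faces and the edges -/
theorem Fin3.oscC (hΛ : IsOpen Λ) {g : ConHomeo Ω Λ}
    (hg : ∀ x ∈ Ω, g.toFun x = Φ.toFun (f x))
    (hsum : ∀ (i : M.ι) (T : Finset (edges M).ε), (∀ e ∈ T, (edges M).seg e ⊆ M.Q i) →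
      ∑ e ∈ T, 10 * om e ≤ osc i)
    (hosc : ∀ i B, (∀ x ∈ M.Q i, ∀ y ∈ M.Q i, ‖h x - h y‖ ≤ B) → osc i ≤ B)
    (heps : ∀ i k, M.F k ⊆ M.Q i → ((edges M).fin_face k).toFinset.card * ε k ≤ osc i)
    {i : M.ι} (hi : i ∉ P) {b : ℝ} (hc : Adm M Y C₁ C₁' (M.Q i) c) (hb0 : 0 < b)
    (hO : Small M h i b) (hQ : ¬ (i ∉ Z ∧ ∀ Φ, Qs Φ → Ps i Φ)) :
    ∀ x ∈ M.Q i, ∀ y ∈ M.Q i, ‖g.toFun x - g.toFun y‖ ≤ oC D₀ D₁ c * b := by
  classical
  have hc0 := adm_pos H.C0 H.C0' hc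
  obtain ⟨hh, E, hE, hEs⟩ := id hO
  have hb := hosc i b hh
  have h0 := H.D0
  have h1 := H.D1
  set T : Finset (edges M).ε := (_root_.P073.H227.finite_edges (edges M) i).toFinset with hT
  have hTm : ∀ e, e ∈ T ↔ (edges M).seg e ⊆ M.Q i := fun e => by
    rw [hT, Set.Finite.mem_toFinset]
    rfl
  -- lengths
  set lg : (edges M).ε → ℝ≥0∞ := fun e => len (onSeg h ((edges M).a e, (edges M).b e)) (Icc 0 1)
    with hlg
  have hlsum : ∑ e ∈ T, lg e ≤ ENNReal.ofReal b := by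
    refine le_trans ?_ hEs
    set φ : (edges M).ε → V × V := fun e => ((edges M).a e, (edges M).b e) with hφ
    have hinj : Function.Injective φ := fun e e' hee => by
      apply Subtype.ext
      exact hee
    have himg : ∑ x ∈ T.image φ, len (onSeg h x) (Icc 0 1) = ∑ e ∈ T, lg e :=
      Finset.sum_image (fun e _ e' _ hee => hinj hee)
    rw [← himg]
    refine Finset.sum_le_sum_of_subset fun x hx => ?_
    obtain ⟨e, he, rfl⟩ := Finset.mem_image.1 hx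
    exact hE _ (_root_.P073.H950.isEdge_iff.2 (Or.inl e.2)) ((hTm e).1 he)
  have hltop : ∀ e ∈ T, lg e ≠ ⊤ := fun e he =>
    ((Finset.single_le_sum (fun _ _ => zero_le) he).trans_lt
      (hlsum.trans_lt ENNReal.ofReal_lt_top)).ne
  have hlr : ∑ e ∈ T, (lg e).toReal ≤ b := by
    rw [← ENNReal.toReal_sum hltop]
    exact ENNReal.toReal_le_of_le_ofReal hb0.le hlsum
  set κ : ℝ := 8 * (1 + D₀) + 16 * D₁ with hκ
  have hκ0 : 0 ≤ κ := by rw [hκ]; positivity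
  have key : ∀ j : Fin 3, ∀ x ∈ M.Q i, ∀ y ∈ M.Q i, |g.toFun x j - g.toFun y j| ≤
      2 * (oF D₀ D₁ c * b) + ∑ e ∈ T, (κ * (lg e).toReal + 10 * om e) := by
    intro j
    refine _root_.P073.H227.osc_cell hΛ g (edges M) i j (A := oF D₀ D₁ c * b)
      (fun k hk x hx y hy => ?_) (T := T) (fun e he => (hTm e).2 he)
      (w := fun e => κ * (lg e).toReal + 10 * om e) (fun e _ => ?_) fun e he hei x hx y hy => ?_
    · have hxΩ := M.sub i (hk hx)
      have hyΩ := M.sub i (hk hy)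
      rw [hg x hxΩ, hg y hyΩ]
      refine le_trans (le_abs_self _) (le_trans ?_
        (H.oscF heps hosc hi hc hb0 (.of_small hO hk) hQ hk x hx y hy))
      exact norm_le_pi_norm (Φ.toFun (f x) - Φ.toFun (f y)) j
    · have := (H.om0 e).le
      positivity
    · have hxΩ := M.sub i (hei hx)
      have hyΩ := M.sub i (hei hy)
      rw [hg x hxΩ, hg y hyΩ]
      have h2 := H.edge e
      have hx' : x ∈ segment ℝ ((edges M).a e) ((edges M).b e) := hx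
      have hy' : y ∈ segment ℝ ((edges M).a e) ((edges M).b e) := hy
      rw [segment_eq_image'] at hx' hy'
      obtain ⟨s, hs, rfl⟩ := hx'
      obtain ⟨s', hs', rfl⟩ := hy'
      set G : ℝ → V := onSeg (fun x => Φ.toFun (f x)) ((edges M).a e, (edges M).b e) with hG
      have h3 : edist (G s) (G s') ≤ len G (Icc 0 1) :=
        (eVariationOn.edist_le G hs hs').trans (_root_.P073.H926.var_le_len _ _)
      have h4 : ENNReal.ofReal ‖G s - G s'‖ ≤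
          ENNReal.ofReal (κ * (lg e).toReal + 10 * om e) := by
        rw [← dist_eq_norm, ← edist_dist]
        refine h3.trans (h2.trans (le_of_eq ?_))
        have h7 : ENNReal.ofReal (κ * (lg e).toReal) = ENNReal.ofReal κ * lg e := by
          rw [ENNReal.ofReal_mul hκ0, ENNReal.ofReal_toReal (hltop e he)]
        have h8 : 0 ≤ 10 * om e := by have := (H.om0 e).le; positivity
        rw [ENNReal.ofReal_add (mul_nonneg hκ0 ENNReal.toReal_nonneg) h8, h7]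
      have h5 := (ENNReal.ofReal_le_ofReal_iff (by have := (H.om0 e).le; positivity)).1 h4
      have h6 := norm_le_pi_norm (G s - G s') j
      exact (le_abs_self _).trans (h6.trans h5)
  intro x hx y hy
  have hsum' : ∑ e ∈ T, (κ * (lg e).toReal + 10 * om e) ≤ κ * b + b := by
    rw [Finset.sum_add_distrib, ← Finset.mul_sum]
    have h5 := hsum i T fun e he => (hTm e).1 he
    have h6 := mul_le_mul_of_nonneg_left hlr hκ0
    linarith
  have hoC : 0 ≤ oC D₀ D₁ c * b := by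
    unfold oC oF
    positivity
  rw [pi_norm_le_iff_of_nonneg hoC]
  intro j
  rw [Pi.sub_apply, Real.norm_eq_abs]
  refine (key j x hx y hy).trans ?_
  unfold oC
  rw [hκ] at hsum'
  nlinarith

/-- **(flip)** -/
theorem Fin3.flip {k : M.κ} (hk : ∃ i ∈ Z, M.F k ⊆ M.Q i) (hc : Adm M Y C₁ C₁' (M.F k) c)
    {C : ℝ} (hC : KBd p A D₀ D₁ c C) {E' : Finset (V × V)} {ℓ : V × V → ℝ≥0∞} {L : ℝ}
    (hE' : H73.Adapted M k E')
    (hℓ : ∀ e ∈ E', len (onSeg h e) (Icc 0 1) ≤ ℓ e ∧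
      ℓ e + ENNReal.ofReal (ε k) ≤ ENNReal.ofReal (L * ‖e.2 - e.1‖)) :
    ∀ x ∈ M.F k, ∀ y ∈ M.F k, ‖Φ.toFun (f x) - Φ.toFun (f y)‖ ≤ C * L * ‖x - y‖ := by
  intro x hx y hy
  obtain ⟨e₀, he₀⟩ := _root_.P073.H142.nonempty_of_adapted hE'
  have hL : 0 < L := by
    have h1 : 0 < ENNReal.ofReal (L * ‖e₀.2 - e₀.1‖) :=
      lt_of_lt_of_le (lt_of_lt_of_le (ENNReal.ofReal_pos.2 (H.ε0 k)) le_add_self) (hℓ e₀ he₀).2
    exact pos_of_mul_pos_left (ENNReal.ofReal_pos.1 h1) (norm_nonneg _)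
  have hc0 := adm_pos H.C0 H.C0' hc
  have h1 := H.D1
  obtain ⟨a, l, σ, hσ, hF⟩ := H.sq k hk
  refine ((H.faceEst hk hc).flip (by positivity) (by linarith [H.D0]) (H.ε0 k) hσ hF hE' hℓ
    x hx y hy).trans ?_
  refine mul_le_mul_of_nonneg_right (mul_le_mul_of_nonneg_right hC.flip hL.le) (norm_nonneg _)

/-- **(face)** -/
theorem Fin3.face {k : M.κ} (hk : ∃ i ∈ Z, M.F k ⊆ M.Q i) (hc : Adm M Y C₁ C₁' (M.F k) c)
    {C : ℝ} (hC : KBd p A D₀ D₁ c C) :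
    ∃ G : V → ℝ, LipBd (fun x => Φ.toFun (f x)) (M.F k) G ∧
    ∀ (E : Finset (V × V)) (ℓ : V × V → ℝ≥0∞) (a : V) (l : Fin 3) (σ : ℝ), 0 < σ →
      M.F k = sqr a l σ → H73.Adapted M k E → (∀ e ∈ E, len (onSeg h e) (Icc 0 1) ≤ ℓ e) →
      ∫⁻ x in cube a σ, ENNReal.ofReal (G (Function.update x l (a l)) ^ p) ≤
        ENNReal.ofReal (C * σ ^ 2) * ∑ e ∈ E, ENNReal.ofReal (‖e.2 - e.1‖ ^ (1 - p)) *
          (ℓ e + ENNReal.ofReal (ε k * ‖e.2 - e.1‖ / σ)) ^ p := by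
  have hc0 := adm_pos H.C0 H.C0' hc
  have h1 := H.D1
  obtain ⟨G, hG, h2⟩ := (H.faceEst hk hc).face (p := p) (by positivity) (by linarith [H.D0])
    (by linarith [H.p2]) (H.ε0 k)
  refine ⟨G, hG, fun E ℓ a l σ hσ hF hE hℓ => (h2 E ℓ a l σ hσ hF hE hℓ).trans ?_⟩
  refine mul_le_mul_left (ENNReal.ofReal_le_ofReal ?_) _
  exact mul_le_mul_of_nonneg_right hC.face (by positivity)

end fin

end Vale.Agent.P073.H233
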