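import Vale.Agent.P073.H233.Tail3G

/-!
# P073, block H233, [K3-TAIL], part H: `H304.Out` for the collapsed map
-/

open Set Metric Topology Filter MeasureTheory
open scoped ENNReal

namespace Vale.Agent.P073.H233

open _root_.P073 _root_.P073.Net _root_.P073.PA691 _root_.P073.TM
open Vale.Agent.P073.St (V)
open Vale.Agent.P073.SQ (cube ev)
open Vale.Agent.P073.AB (Idx squ)
open Vale.Agent.P073.H471 Vale.Agent.P073.H267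
open Vale.Agent.P073.H212 (IsSoft)
open Vale.Agent.P073.H73 (Mesh sqr onSeg)
open Vale.Agent.P073.H193 (Edges edges)
open Vale.Agent.P073.H304 (LipBd Cst Nb IsEdge Small Plate Out)
open _root_.P073.H142 (FStar Num AdC)

variable {Ω Λ : Set V} {M : Mesh Ω} {w : V} {K : BoxCx Λ w} {S : Rad K} {W : Wid K S}
  {B : Boxes W} {X : PSet K} {R : Fac K} {Φ : ConHomeo Λ Λ} {μ : ℝ}
  {p η c₀ m D D' : ℝ} {ρ : V → ℝ} {Ps : M.ι → ConHomeo Λ Λ → Prop}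
  {Qs : ConHomeo Λ Λ → Prop}
  {h : V → V} {J₀ J : Set (ℕ × (Fin 3 → ℤ))} {P Z : Set M.ι} {Y : Set M.κ} {ε : M.κ → ℝ}
  {om εL : (edges M).ε → ℝ} {lam osc : M.ι → ℝ} {A C₁ C₁' D₀ D₁ c : ℝ}

theorem exists_kbd {S' : Set V} {C : ℝ} (hD : KBd p A D₀ D₁ C₁ D) (hD' : KBd p A D₀ D₁ C₁' D')
    (H : Cst M Y D D' S' C) : ∃ c, Adm M Y C₁ C₁' S' c ∧ KBd p A D₀ D₁ c C := by
  rcases H with h1 | ⟨h1, h2⟩
  · exact ⟨C₁', Or.inl rfl, hD'.mono h1⟩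
  · exact ⟨C₁, Or.inr ⟨rfl, h2⟩, hD.mono h1⟩

/-- the size function near the boundary of a tile -/
theorem rho_le_of_Nb (hρ : SizeFn Λ ρ) {t : ℕ × (Fin 3 → ℤ)} (ht : IsTile ρ w t.1 t.2)
    (hc₀ : c₀ ≤ 1) {y : V} (hy : y ∈ Nb w {t} c₀) : ρ y ≤ 5 / 2 ^ t.1 := by
  obtain ⟨t', ht', x, hx, hxy⟩ := hy
  rw [mem_singleton_iff.1 ht'] at hx hxy
  have h1 : x ∈ dyc w t.1 t.2 := (AB.P86.isCompact_dyc w t.1 t.2).isClosed.frontier_subset hx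
  have h2 := (KW.tile_bounds hρ ht h1).2
  have h3 := hρ.lip y x
  have h4 : c₀ / 2 ^ t.1 ≤ 1 / 2 ^ t.1 := div_le_div_of_nonneg_right hc₀ (by positivity)
  have h5 : (5:ℝ) / 2 ^ t.1 = 4 / 2 ^ t.1 + 1 / 2 ^ t.1 := by ring
  rw [h5]
  linarith

/-- the clauses of `H304.Out` except `osc` -/
structure OutN {Ω Λ : Set V} (p D D' η c₀ : ℝ) (w : V) (ρ : V → ℝ) (M : Mesh Ω) (h : V → V)
    (J₀ J : Set (ℕ × (Fin 3 → ℤ))) (P Z : Set M.ι) (Y : Set M.κ) (ε : M.κ → ℝ)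
    (g : ConHomeo Ω Λ) : Prop where
  off : ∀ x ∈ Ω, h x ∉ Nb w J₀ c₀ → g.toFun x = h x
  close : ∀ x ∈ Ω, ∀ t ∈ J₀, h x ∈ Nb w {t} c₀ → ‖g.toFun x - h x‖ ≤ D / 2 ^ t.1
  prot : ∀ i ∈ P, ∀ x ∈ M.Q i, ∀ y ∈ M.Q i, ‖g.toFun x - g.toFun y‖ ≤ D * ‖h x - h y‖
  lip : (∀ t ∈ J₀, ∀ t' : ℕ × (Fin 3 → ℤ), IsTile ρ w t'.1 t'.2 →
      (dyc w t.1 t.2 ∩ dyc w t'.1 t'.2).Nonempty → t' ∈ J) →
    ∀ i, i ∉ P → ∀ K > 0, (∀ i', (M.Q i ∩ M.Q i').Nonempty →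
      ∀ x ∈ M.Q i', ∀ y ∈ M.Q i', ‖h x - h y‖ ≤ K * ‖x - y‖) →
    ∀ C, Cst M Y D D' (M.Q i) C →
    ∀ x ∈ M.Q i, ∀ y ∈ M.Q i, ‖g.toFun x - g.toFun y‖ ≤ C * K * ‖x - y‖
  edge : ∀ k, ∀ e, IsEdge M e → segment ℝ e.1 e.2 ⊆ M.F k →
    len (onSeg g.toFun e) (Icc 0 1) ≤
      ENNReal.ofReal D * len (onSeg h e) (Icc 0 1) + ENNReal.ofReal (ε k)
  elip : ∀ k, ∀ e, IsEdge M e → segment ℝ e.1 e.2 ⊆ M.F k →
    h '' segment ℝ e.1 e.2 ⊆ Nb w J₀ η → ∀ C, Cst M Y D D' (segment ℝ e.1 e.2) C →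
    ∀ ℓ : ℝ, len (onSeg h e) (Icc 0 1) ≤ ENNReal.ofReal ℓ →
    ∀ x ∈ segment ℝ e.1 e.2, ∀ y ∈ segment ℝ e.1 e.2,
      ‖g.toFun x - g.toFun y‖ ≤ C * ((ℓ + ε k) / ‖e.2 - e.1‖) * ‖x - y‖
  flip : ∀ k, (∃ i ∈ Z, M.F k ⊆ M.Q i) → ∀ C, Cst M Y D D' (M.F k) C →
    ∀ (E : Finset (V × V)) (ℓ : V × V → ℝ≥0∞) (K : ℝ), H73.Adapted M k E →
    (∀ e ∈ E, len (onSeg h e) (Icc 0 1) ≤ ℓ e ∧
      ℓ e + ENNReal.ofReal (ε k) ≤ ENNReal.ofReal (K * ‖e.2 - e.1‖)) →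
    ∀ x ∈ M.F k, ∀ y ∈ M.F k, ‖g.toFun x - g.toFun y‖ ≤ C * K * ‖x - y‖
  face : ∀ k, (∃ i ∈ Z, M.F k ⊆ M.Q i) → ∀ C, Cst M Y D D' (M.F k) C →
    ∃ G : V → ℝ, LipBd g.toFun (M.F k) G ∧
    ∀ (E : Finset (V × V)) (ℓ : V × V → ℝ≥0∞) (a : V) (l : Fin 3) (σ : ℝ), 0 < σ →
      M.F k = sqr a l σ → H73.Adapted M k E → (∀ e ∈ E, len (onSeg h e) (Icc 0 1) ≤ ℓ e) →
      ∫⁻ x in SQ.cube a σ, ENNReal.ofReal (G (Function.update x l (a l)) ^ p) ≤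
        ENNReal.ofReal (C * σ ^ 2) * ∑ e ∈ E, ENNReal.ofReal (‖e.2 - e.1‖ ^ (1 - p)) *
          (ℓ e + ENNReal.ofReal (ε k * ‖e.2 - e.1‖ / σ)) ^ p
  drawn : ∀ i ∈ Z, ∀ C, Cst M Y D D' (M.Q i) C → ∃ G : V → ℝ, LipBd g.toFun (M.Q i) G ∧
    ∀ (v : V) (m : ℕ) (z : Fin 3 → ℤ), M.Q i = dyc v m z →
    ∀ (E : {k // M.F k ⊆ M.Q i} → Finset (V × V)) (σ : {k // M.F k ⊆ M.Q i} → ℝ)
      (ℓ : V × V → ℝ≥0∞), (∀ k, H73.Adapted M k.1 (E k)) →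
      (∀ k, 0 < σ k ∧ ∃ a l, M.F k.1 = sqr a l (σ k)) →
      (∀ k, ∀ e ∈ E k, len (onSeg h e) (Icc 0 1) ≤ ℓ e) →
      ∫⁻ x in M.Q i, ENNReal.ofReal (G x ^ p) ≤ ENNReal.ofReal (C / 2 ^ m) *
        ∑' k, ENNReal.ofReal (σ k) * ∑ e ∈ E k, ENNReal.ofReal (‖e.2 - e.1‖ ^ (1 - p)) *
          (ℓ e + ENNReal.ofReal (ε k.1 * ‖e.2 - e.1‖ / σ k)) ^ p

/-- **[K3-TAIL]** the clauses of `Out` except `osc` for the collapsed map -/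
theorem out_of_fin3 (hΛ : IsOpen Λ) (hρ : SizeFn Λ ρ) (C : Cells ρ w K) {h f : ConHomeo Ω Λ}
    (T : Tol M h.toFun ε om εL lam osc) (hJ₀ : ∀ t ∈ J₀, IsTile ρ w t.1 t.2) (hc₀ : c₀ ≤ 1)
    (hD₁ : 1 ≤ D₁)
    (L : Last3 B X μ Ps Qs p η c₀ ρ h.toFun J₀ J P Z Y ε om εL lam A C₁ C₁' D₀ D₁ f.toFun)
    (H : Fin3 w Ps Qs η c₀ ρ p h.toFun f.toFun J₀ J P Z Y ε om A C₁ C₁' D₀ D₁ Φ)
    (HΦ : IsSoft B μ R Φ) (hoff : ∀ y, y ∉ Nb w J₀ c₀ → Φ.toFun y = y)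
    (hD : KBd p A D₀ D₁ C₁ D) (hD' : KBd p A D₀ D₁ C₁' D') :
    OutN p D D' η c₀ w ρ M h.toFun J₀ J P Z Y ε (f.trans Φ) where
  off := fun x hx hN => by
    show Φ.toFun (f.toFun x) = h.toFun x
    rw [L.off x hx hN]
    exact hoff _ hN
  close := fun x hx t ht hN => by
    have h1 := L.near x hx
    have h2 : H581.Near 16 ρ (f.toFun x) (Φ.toFun (f.toFun x)) :=
      H581.Near.of_tileIff hρ (_root_.P073.H155.tileIff_soft C hρ HΦ) (f.mapsTo hx)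
    have h3 := (hρ.pos _ (h.mapsTo hx)).le
    have h4 := (hρ.pos _ (Φ.mapsTo (f.mapsTo hx))).le
    have h5 := (h1.trans h2 hD₁ (by norm_num) h3 h4).dist
    have h6 := rho_le_of_Nb hρ (hJ₀ t ht) hc₀ hN
    show ‖Φ.toFun (f.toFun x) - h.toFun x‖ ≤ D / 2 ^ t.1
    refine h5.trans ?_
    calc 2 * (D₁ * 16) * ρ (h.toFun x) ≤ 2 * (D₁ * 16) * (5 / 2 ^ t.1) :=
          mul_le_mul_of_nonneg_left h6 (by linarith)
      _ = 160 * D₁ / 2 ^ t.1 := by ring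
      _ ≤ _ := div_le_div_of_nonneg_right hD.close (by positivity)
  prot := fun i hi x hx y hy => ((H.C i).prot hi x hx y hy).trans
    (mul_le_mul_of_nonneg_right hD.prot (norm_nonneg _))
  lip := fun hJ i hi l hl hh C' hC' x hx y hy => by
    obtain ⟨c, hc, hk⟩ := exists_kbd hD hD' hC'
    by_cases hZ : i ∈ Z
    · exact (((H.C i).cell hZ c hc).2.mono hk.lipZ) l hl hh x hx y hy
    · exact (((H.C i).lip hJ hi hZ c hc).mono hk.lip) l hl hh x hx y hy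
  edge := fun k e he hek => by
    obtain ⟨e', h1, h2, h3⟩ := exists_edge he
    have h4 := H.edge e'
    have h5 : (edges M).seg e' ⊆ M.F k := by rw [h1]; exact hek
    rw [h3, h3] at h4
    show len (onSeg (fun x => Φ.toFun (f.toFun x)) e) (Icc 0 1) ≤ _
    refine h4.trans (add_le_add (mul_le_mul_left (ENNReal.ofReal_le_ofReal hD.edge) _)
      (ENNReal.ofReal_le_ofReal (T.om_le k e' h5)))
  elip := fun k e he hek hN C' hC' ℓ hℓ x hx y hy => by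
    obtain ⟨c, hc, hk⟩ := exists_kbd hD hD' hC'
    obtain ⟨e', h1, h2, h3⟩ := exists_edge he
    rw [← h1] at hek hN hc hx hy
    rw [← h3] at hℓ
    have hℓ0 : 0 ≤ ℓ := by
      by_contra hcon
      rw [ENNReal.ofReal_of_nonpos (by linarith)] at hℓ
      have h6 := (dist_le_len h.toFun ((edges M).a e', (edges M).b e')).trans hℓ
      have h7 := ENNReal.ofReal_eq_zero.1 (le_antisymm h6 zero_le)
      have h8 : h.toFun ((edges M).b e') = h.toFun ((edges M).a e') :=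
        sub_eq_zero.1 (norm_le_zero_iff.1 h7)
      exact (edges M).ne e' (h.injOn ((edges M).seg_sub_Ω e' (left_mem_segment ℝ _ _))
        ((edges M).seg_sub_Ω e' (right_mem_segment ℝ _ _)) h8.symm)
    have h9 := H.elip hek hN hc hℓ0 hℓ x hx y hy
    rw [h2] at h9
    show ‖Φ.toFun (f.toFun x) - Φ.toFun (f.toFun y)‖ ≤ _
    refine h9.trans (mul_le_mul_of_nonneg_right (mul_le_mul_of_nonneg_right hk.elip ?_)
      (norm_nonneg _))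
    have := H.ε0 k
    positivity
  flip := fun k hk C' hC' E ℓ l hE hℓ x hx y hy => by
    obtain ⟨c, hc, hkb⟩ := exists_kbd hD hD' hC'
    exact H.flip hk hc hkb hE hℓ x hx y hy
  face := fun k hk C' hC' => by
    obtain ⟨c, hc, hkb⟩ := exists_kbd hD hD' hC'
    exact H.face hk hc hkb
  drawn := fun i hi C' hC' => by
    obtain ⟨c, hc, hkb⟩ := exists_kbd hD hD' hC'
    exact ((H.C i).cell hi c hc).1.mono hkb.drawn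

/-- **the clause `osc`** (no plates), if `Ps` is never true -/
theorem osc_of_fin3 (hΛ : IsOpen Λ) {h f : ConHomeo Ω Λ}
    (T : Tol M h.toFun ε om εL lam osc)
    (H : Fin3 w Ps Qs η c₀ ρ p h.toFun f.toFun J₀ J P Z Y ε om A C₁ C₁' D₀ D₁ Φ) (hQs : Qs Φ)
    (hPs : ∀ i, ¬ Ps i Φ) (hD : KBd p A D₀ D₁ C₁ D) (hD' : KBd p A D₀ D₁ C₁' D') :
    COsc D D' M h.toFun P Y (f.trans Φ).toFun := by
  intro i hi C' hC' b hb hs x hx y hy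
  obtain ⟨c, hc, hk⟩ := exists_kbd hD hD' hC'
  have hQ : ¬ (i ∉ Z ∧ ∀ Φ, Qs Φ → Ps i Φ) := fun hQ => hPs i (hQ.2 Φ hQs)
  refine (H.oscC hΛ (g := f.trans Φ) (fun x _ => rfl) T.om_sum T.osc_le T.eps hi hc hb hs
    hQ x hx y hy).trans ?_
  exact mul_le_mul_of_nonneg_right hk.osc hb.le

/-- **the oscillation of the faces**, if `Ps` is never true -/
theorem fOsc_of_fin3 {h f : ConHomeo Ω Λ} (T : Tol M h.toFun ε om εL lam osc)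
    (H : Fin3 w Ps Qs η c₀ ρ p h.toFun f.toFun J₀ J P Z Y ε om A C₁ C₁' D₀ D₁ Φ) (hQs : Qs Φ)
    (hPs : ∀ i, ¬ Ps i Φ) (hD : KBd p A D₀ D₁ C₁ D) (hD' : KBd p A D₀ D₁ C₁' D') :
    FOsc D D' M h.toFun P Y (f.trans Φ).toFun := by
  intro i hi C' hC' k hk b hb hs x hx y hy
  obtain ⟨c, hc, hkb⟩ := exists_kbd hD hD' hC'
  have hQ : ¬ (i ∉ Z ∧ ∀ Φ, Qs Φ → Ps i Φ) := fun hQ => hPs i (hQ.2 Φ hQs)
  refine (H.oscF T.eps T.osc_le hi hc hb hs hQ hk x hx y hy).trans ?_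
  refine mul_le_mul_of_nonneg_right (le_trans ?_ hkb.osc) hb.le
  have h0 := H.D0
  have h1 := H.D1
  have hc0 := adm_pos H.C0 H.C0' hc
  unfold oC oF
  nlinarith [mul_pos hc0 (by linarith : (0:ℝ) < D₀), mul_pos h1 (by linarith : (0:ℝ) < D₀)]

end Vale.Agent.P073.H233
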