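import Vale.Agent.P073.H233.Tail3I
import Vale.Agent.P073.H212.Sharp3

/-!
# P073, block H233, [K3-TAIL], part J: `Out` and `SharpOut` are monotone in the tolerances `ε`

(`exists_tol` replaces the given numbers `ε` by smaller ones.)
-/

open Set Metric Topology Filter MeasureTheory
open scoped ENNReal

namespace Vale.Agent.P073.H233

open _root_.P073 _root_.P073.Net
open Vale.Agent.P073.St (V)
open Vale.Agent.P073.SQ (cube ev)
open Vale.Agent.P073.H73 (Mesh sqr onSeg)
open Vale.Agent.P073.H304 (LipBd Cst Nb IsEdge Small Plate Out)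

variable {Ω Λ : Set V} {p D D' η c₀ : ℝ} {w : V} {ρ : V → ℝ} {M : Mesh Ω} {h : V → V}
  {J₀ J : Set (ℕ × (Fin 3 → ℤ))} {P Z : Set M.ι} {Y : Set M.κ} {ε ε' : M.κ → ℝ}
  {g : ConHomeo Ω Λ}

theorem cst_nonneg {S : Set V} {C : ℝ} (hD : 0 ≤ D) (hD' : D ≤ D') (H : Cst M Y D D' S C) :
    0 ≤ C := by
  rcases H with h | ⟨h, -⟩
  · linarith
  · linarith

/-- **`Out` is monotone in the tolerances** -/
theorem out_mono_eps (hp : 0 ≤ p) (hD : 0 ≤ D) (hD' : D ≤ D') (hε : ∀ k, ε k ≤ ε' k)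
    (H : OutN p D D' η c₀ w ρ M h J₀ J P Z Y ε g) :
    OutN p D D' η c₀ w ρ M h J₀ J P Z Y ε' g where
  off := H.off
  close := H.close
  prot := H.prot
  lip := H.lip
  edge := fun k e he hk => (H.edge k e he hk).trans
    (add_le_add le_rfl (ENNReal.ofReal_le_ofReal (hε k)))
  elip := fun k e he hk hN C hC ℓ hℓ x hx y hy => by
    refine (H.elip k e he hk hN C hC ℓ hℓ x hx y hy).trans ?_
    have h0 := cst_nonneg hD hD' hC
    refine mul_le_mul_of_nonneg_right (mul_le_mul_of_nonneg_left ?_ h0) (norm_nonneg _)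
    exact div_le_div_of_nonneg_right (by linarith [hε k]) (norm_nonneg _)
  flip := fun k hk C hC E ℓ K hE hℓ => H.flip k hk C hC E ℓ K hE fun e he =>
    ⟨(hℓ e he).1, (add_le_add le_rfl (ENNReal.ofReal_le_ofReal (hε k))).trans (hℓ e he).2⟩
  face := fun k hk C hC => by
    obtain ⟨G, hG, h1⟩ := H.face k hk C hC
    refine ⟨G, hG, fun E ℓ a l σ hσ hF hE hℓ => (h1 E ℓ a l σ hσ hF hE hℓ).trans ?_⟩
    refine mul_le_mul_right (Finset.sum_le_sum fun e _ => mul_le_mul_right ?_ _) _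
    refine ENNReal.rpow_le_rpow (add_le_add le_rfl (ENNReal.ofReal_le_ofReal ?_)) hp
    exact div_le_div_of_nonneg_right (mul_le_mul_of_nonneg_right (hε k) (norm_nonneg _)) hσ.le
  drawn := fun i hi C hC => by
    obtain ⟨G, hG, h1⟩ := H.drawn i hi C hC
    refine ⟨G, hG, fun v m z hQ E σ ℓ hE hσ hℓ => (h1 v m z hQ E σ ℓ hE hσ hℓ).trans ?_⟩
    refine mul_le_mul_right (ENNReal.tsum_le_tsum fun k => mul_le_mul_right
      (Finset.sum_le_sum fun e _ => mul_le_mul_right ?_ _) _) _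
    refine ENNReal.rpow_le_rpow (add_le_add le_rfl (ENNReal.ofReal_le_ofReal ?_)) hp
    exact div_le_div_of_nonneg_right (mul_le_mul_of_nonneg_right (hε _) (norm_nonneg _))
      (hσ k).1.le

/-- **`SharpOut` is monotone in the tolerances** -/
theorem sharpOut_mono_eps {c δ μ r : ℝ} (hε : ∀ k, ε k ≤ ε' k)
    (H : H239.SharpOut p c δ μ r w ρ M h J₀ Y ε g) :
    H239.SharpOut p c δ μ r w ρ M h J₀ Y ε' g where
  tv := fun k e he hk A hA hA' m z hdeep => (H.tv k e he hk A hA hA' m z hdeep).trans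
    (add_le_add le_rfl (ENNReal.ofReal_le_ofReal (hε k)))
  face := fun k hk a l σ hσ hF m z hdeep hs =>
    (H.face k hk a l σ hσ hF m z hdeep hs).trans (ENNReal.ofReal_le_ofReal
      (mul_le_mul_of_nonneg_right (by linarith [hε k]) (by positivity)))

/-- `AuxOut` is monotone in the tolerances -/
theorem auxOut_mono_eps {δ : ℝ} {q : V → V} (hε : ∀ k, ε k ≤ ε' k)
    (H : H212.AuxOut D c₀ δ w ρ M h J₀ ε q) : H212.AuxOut D c₀ δ w ρ M h J₀ ε' q where
  off := H.off
  close := H.close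
  edge := fun k e he hk => (H.edge k e he hk).trans
    (add_le_add le_rfl (ENNReal.ofReal_le_ofReal (hε k)))
  tv := H.tv.mono hε

/-- **`SharpOut3` is monotone in the tolerances** -/
theorem sharpOut3_mono_eps {δ μ r : ℝ} (hε : ∀ k, ε k ≤ ε' k)
    (H : H212.SharpOut3 p D c₀ δ μ r w ρ M h J₀ Y ε g) :
    H212.SharpOut3 p D c₀ δ μ r w ρ M h J₀ Y ε' g where
  tv := H.tv.mono hε
  aux := by
    obtain ⟨q, h1, h2⟩ := H.aux
    refine ⟨q, auxOut_mono_eps hε h1, fun k hk a l σ hσ hF m z hdeep hs =>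
      (h2 k hk a l σ hσ hF m z hdeep hs).trans (ENNReal.ofReal_le_ofReal
        (mul_le_mul_of_nonneg_right (by linarith [hε k]) (by positivity)))⟩

end Vale.Agent.P073.H233
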