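import Vale.Agent.P073.H233.Tail3J

/-!
# P073, block H233, [K3-TAIL], part K: the conclusion of `K3C` from the last map before the collapse
-/

open Set Metric Topology Filter MeasureTheory
open scoped ENNReal

namespace Vale.Agent.P073.H233

open _root_.P073 _root_.P073.Net _root_.P073.PA691 _root_.P073.TM
open Vale.Agent.P073.St (V)
open Vale.Agent.P073.H471 Vale.Agent.P073.H267 Vale.Agent.P073.H926
open Vale.Agent.P073.H73 (Mesh sqr onSeg)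
open Vale.Agent.P073.H193 (Edges edges)
open Vale.Agent.P073.H304 (Cst Nb Small Zmax)

variable {c₀ n δ : ℝ} {j : ℕ} {Ω Λ : Set V} {v w : V} {ρ : V → ℝ} {M : Mesh Ω}
  {h : ConHomeo Ω Λ} {J₀ J : Set (ℕ × (Fin 3 → ℤ))} {P Z Z₀ : Set M.ι} {K : BoxCx Λ w}
  {p D' Dc A C₁ C₁' D₀ D₁ : ℝ} {Y : Set M.κ}
  {ε ε₀ : M.κ → ℝ} {om εL : (edges M).ε → ℝ} {lam osc : M.ι → ℝ}

/-- **[K3-TAIL]** the conclusion of `K3C`, with the oscillation of the cells and the faces -/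
theorem exists_k3_of_last3 (D : KIn3 c₀ n j δ v w ρ M h J₀ J P Z₀) (C : Cells ρ w K)
    (hp : 2 < p) (hZ : Z ⊆ Zmax M w h.toFun J₀ P (2 / 2 ^ j)) (hε : ∀ k, 0 < ε k)
    (hε₀ : ∀ k, ε k ≤ ε₀ k) (T : Tol M h.toFun ε om εL lam osc) (hA : 0 ≤ A) (hC₁ : 0 < C₁)
    (hC₁' : 0 < C₁') (hD₀ : 1 ≤ D₀) (hD₁ : 1 ≤ D₁) {f : ConHomeo Ω Λ}
    (L : Last3 (D.B C) (Xp C J₀) (20 / (1 / μN n)) (fun _ _ => False)
      (fun Φ => ∃ R, SoftQ D C R Φ) p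
      (1 / 2 ^ j) c₀ ρ h.toFun J₀ J P Z Y ε om εL lam A C₁ C₁' D₀ D₁ f.toFun)
    (hDc : 0 ≤ Dc) (hDD : Dc ≤ D')
    (hD : kC p A D₀ D₁ C₁ ≤ Dc) (hD' : kC p A D₀ D₁ C₁' ≤ D') {μs r : ℝ}
    (hsharp : ∃ t₀ : M.κ ⊕ M.ι → ℝ, (∀ a, 0 < t₀ a) ∧ ∀ (R : Fac K) (N t : M.κ ⊕ M.ι → ℝ)
      (Φ : ConHomeo Λ Λ), (∀ a, 0 < t a) → (∀ a, t a ≤ t₀ a) →
      Small3 (D.W C) (Xp C J₀) R f.toFun (FQ M) N t → SoftQ D C R Φ →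
      H212.SharpOut3 p Dc c₀ δ μs r w ρ M h.toFun J₀ Y ε (f.trans Φ)) :
    ∃ g : ConHomeo Ω Λ, OutN p Dc D' (1 / 2 ^ j) c₀ w ρ M h.toFun J₀ J P Z Y ε₀ g ∧
      H212.SharpOut3 p Dc c₀ δ μs r w ρ M h.toFun J₀ Y ε₀ g ∧
      COsc Dc D' M h.toFun P Y g.toFun ∧ FOsc Dc D' M h.toFun P Y g.toFun := by
  obtain ⟨g, h1, h2, h3⟩ := exists_out_of_last3 D C hp hZ hε T hA hC₁ hC₁' hD₀ hD₁ L
    (fun _ _ => id) hD hD' (Sh := fun g =>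
      H212.SharpOut3 p Dc c₀ δ μs r w ρ M h.toFun J₀ Y ε g) hsharp
  exact ⟨g, out_mono_eps (by linarith) hDc hDD hε₀ h1, sharpOut3_mono_eps hε₀ h2, h3⟩

end Vale.Agent.P073.H233
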